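import Vale.Agent.P250.Wa

open scoped ContDiff Topology ComplexConjugate
open Set Filter Complex Metric

noncomputable section

namespace Vale.Agent.P250

open Vale.Agent.P255

variable {E E' : Type} [NormedAddCommGroup E] [NormedSpace ℝ E] [NormedSpace ℂ E]
  [IsScalarTower ℝ ℂ E] [NormedAddCommGroup E'] [NormedSpace ℝ E'] [NormedSpace ℂ E']
  [IsScalarTower ℝ ℂ E'] {U : Set E} {f g : E → ℂ} {y : E}

variable {F0 F1 F2 F3 F4 : ℂ → ℂ} {V : Set ℂ}

namespace WbX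

/-- differentiable with a known value of the operator -/
def HW (ε : ℂ) (u y : E) (p : E → ℂ) (p' : ℂ) : Prop := DifferentiableAt ℝ p y ∧ W ε u p y = p'

variable {ε p' q' : ℂ} {u : E}

theorem HW.of (h : DifferentiableAt ℝ f y) : HW ε u y f (W ε u f y) := ⟨h, rfl⟩

theorem HW.add (h : HW ε u y f p') (h' : HW ε u y g q') :
    HW ε u y (fun x => f x + g x) (p' + q') :=
  ⟨h.1.add h'.1, by rw [W_add h.1 h'.1, h.2, h'.2]⟩

theorem HW.mul (h : HW ε u y f p') (h' : HW ε u y g q') :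
    HW ε u y (fun x => f x * g x) (p' * g y + f y * q') :=
  ⟨h.1.mul h'.1, by rw [W_mul h.1 h'.1, h.2, h'.2]⟩

theorem HW.comp {F : ℂ → ℂ} {F' : ℂ} (hF : HasDerivAt F F' (f y)) (hf : DifferentiableAt ℝ f y) :
    HW ε u y (fun x => F (f x)) (F' * W ε u f y) :=
  ⟨diff_comp hF hf, W_comp hF hf ε u⟩

theorem sum_eqOn {ι : Type} (s : Finset ι) {h : ι → E → ℂ} (hU : IsOpen U)
    (hd : ∀ i ∈ s, ContDiffOn ℝ ∞ (h i) U) (hf : EqOn f (fun x => ∑ i ∈ s, h i x) U) (ε : ℂ)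
    (u : E) : EqOn (W ε u f) (fun x => ∑ i ∈ s, W ε u (h i) x) U := fun _ hx =>
  (W_eqOn hU hf ε u hx).trans (W_sum s (fun i hi => dAt hU (hd i hi) hx) ε u)

theorem lin_eqOn {p : E → ℂ} (hU : IsOpen U) (hf : ContDiffOn ℝ ∞ f U) (hg : ContDiffOn ℝ ∞ g U)
    {c d : ℂ} (hp : EqOn p (fun x => c * f x + d * g x) U) (ε : ℂ) (u : E) :
    EqOn (W ε u p) (fun x => c * W ε u f x + d * W ε u g x) U := fun x hx => by
  rw [W_eqOn hU hp ε u hx, W_add ((dAt hU hf hx).const_mul c) ((dAt hU hg hx).const_mul d),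
    W_cmul, W_cmul]

end WbX

open WbX

/-- Faa di Bruno formulas of order 1 to 4 for a holomorphic function of a smooth function -/
theorem fdb (hU : IsOpen U) (hf : ContDiffOn ℝ ∞ f U) (hV : MapsTo f U V)
    (h0 : ∀ x ∈ V, HasDerivAt F0 (F1 x) x) (h1 : ∀ x ∈ V, HasDerivAt F1 (F2 x) x)
    (h2 : ∀ x ∈ V, HasDerivAt F2 (F3 x) x) (h3 : ∀ x ∈ V, HasDerivAt F3 (F4 x) x)
    (hy : y ∈ U) (e1 e2 e3 e4 : ℂ) (a b c d : E) :
    W e4 d (fun x => F0 (f x)) y = F1 (f y) * W e4 d f y ∧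
    W e3 c (W e4 d (fun x => F0 (f x))) y
      = F2 (f y) * (W e3 c f y * W e4 d f y) + F1 (f y) * W e3 c (W e4 d f) y ∧
    W e2 b (W e3 c (W e4 d (fun x => F0 (f x)))) y
      = F3 (f y) * (W e2 b f y * W e3 c f y * W e4 d f y)
        + F2 (f y) * (W e2 b (W e3 c f) y * W e4 d f y + W e3 c f y * W e2 b (W e4 d f) y
          + W e2 b f y * W e3 c (W e4 d f) y)
        + F1 (f y) * W e2 b (W e3 c (W e4 d f)) y ∧
    W e1 a (W e2 b (W e3 c (W e4 d (fun x => F0 (f x))))) y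
      = F4 (f y) * (W e1 a f y * W e2 b f y * W e3 c f y * W e4 d f y)
        + F3 (f y) * (W e1 a (W e2 b f) y * W e3 c f y * W e4 d f y
          + W e2 b f y * W e1 a (W e3 c f) y * W e4 d f y
          + W e2 b f y * W e3 c f y * W e1 a (W e4 d f) y
          + W e1 a f y * W e2 b (W e3 c f) y * W e4 d f y
          + W e1 a f y * W e3 c f y * W e2 b (W e4 d f) y
          + W e1 a f y * W e2 b f y * W e3 c (W e4 d f) y)
        + F2 (f y) * (W e1 a (W e2 b (W e3 c f)) y * W e4 d f y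
          + W e2 b (W e3 c f) y * W e1 a (W e4 d f) y
          + W e1 a (W e3 c f) y * W e2 b (W e4 d f) y
          + W e3 c f y * W e1 a (W e2 b (W e4 d f)) y
          + W e1 a (W e2 b f) y * W e3 c (W e4 d f) y
          + W e2 b f y * W e1 a (W e3 c (W e4 d f)) y
          + W e1 a f y * W e2 b (W e3 c (W e4 d f)) y)
        + F1 (f y) * W e1 a (W e2 b (W e3 c (W e4 d f))) y := by
  have s1 : ∀ e u, ContDiffOn ℝ ∞ (W e u f) U := W_smooth hU hf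
  have s2 : ∀ e u e' u', ContDiffOn ℝ ∞ (W e u (W e' u' f)) U := fun e u _ _ =>
    W_smooth hU (s1 _ _) e u
  have s3 := W_smooth hU (s2 e3 c e4 d) e2 b
  have o1 : EqOn (W e4 d fun x => F0 (f x)) (fun x => F1 (f x) * W e4 d f x) U := fun x hx =>
    W_comp (h0 _ (hV hx)) (dAt hU hf hx) e4 d
  have o2 : EqOn (W e3 c (W e4 d fun x => F0 (f x))) (fun x =>
      F2 (f x) * (W e3 c f x * W e4 d f x) + F1 (f x) * W e3 c (W e4 d f) x) U := fun x hx => by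
    rw [W_eqOn hU o1 e3 c hx, W_mul (diff_comp (h1 _ (hV hx)) (dAt hU hf hx)) (dAt hU (s1 _ _) hx),
      W_comp (h1 _ (hV hx)) (dAt hU hf hx)]
    ring
  have o3 : EqOn (W e2 b (W e3 c (W e4 d fun x => F0 (f x)))) (fun x =>
      F3 (f x) * (W e2 b f x * W e3 c f x * W e4 d f x)
        + F2 (f x) * (W e2 b (W e3 c f) x * W e4 d f x + W e3 c f x * W e2 b (W e4 d f) x
          + W e2 b f x * W e3 c (W e4 d f) x)
        + F1 (f x) * W e2 b (W e3 c (W e4 d f)) x) U := fun x hx => by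
    have d0 := dAt hU hf hx
    refine (W_eqOn hU o2 e2 b hx).trans ((((HW.comp (h2 _ (hV hx)) d0).mul
      ((HW.of (dAt hU (s1 _ _) hx)).mul (.of (dAt hU (s1 _ _) hx)))).add
      ((HW.comp (h1 _ (hV hx)) d0).mul (.of (dAt hU (s2 _ _ _ _) hx)))).2.trans ?_)
    ring
  refine ⟨o1 hy, o2 hy, o3 hy, ?_⟩
  have d0 := dAt hU hf hy
  have d1 : ∀ e u, HW e1 a y (W e u f) _ := fun e u => .of (dAt hU (s1 e u) hy)
  have d2 : ∀ e u e' u', HW e1 a y (W e u (W e' u' f)) _ := fun e u e' u' =>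
    .of (dAt hU (s2 e u e' u') hy)
  refine (W_eqOn hU o3 e1 a hy).trans (((((HW.comp (h3 _ (hV hy)) d0).mul
    (((d1 _ _).mul (d1 _ _)).mul (d1 _ _))).add ((HW.comp (h2 _ (hV hy)) d0).mul
      ((((d2 _ _ _ _).mul (d1 _ _)).add ((d1 _ _).mul (d2 _ _ _ _))).add
        ((d1 _ _).mul (d2 _ _ _ _))))).add
    ((HW.comp (h1 _ (hV hy)) d0).mul (.of (dAt hU s3 hy)))).2.trans ?_)
  ring

/-- Leibniz formulas of order 1 to 4 -/
theorem leib (hU : IsOpen U) (hf : ContDiffOn ℝ ∞ f U) (hg : ContDiffOn ℝ ∞ g U)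
    (hy : y ∈ U) (e1 e2 e3 e4 : ℂ) (a b c d : E) :
    W e4 d (fun x => f x * g x) y = W e4 d f y * g y + f y * W e4 d g y ∧
    W e3 c (W e4 d (fun x => f x * g x)) y
      = W e3 c (W e4 d f) y * g y + W e4 d f y * W e3 c g y + W e3 c f y * W e4 d g y
        + f y * W e3 c (W e4 d g) y ∧
    W e2 b (W e3 c (W e4 d (fun x => f x * g x))) y
      = W e2 b (W e3 c (W e4 d f)) y * g y + W e3 c (W e4 d f) y * W e2 b g y
        + W e2 b (W e4 d f) y * W e3 c g y + W e4 d f y * W e2 b (W e3 c g) y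
        + W e2 b (W e3 c f) y * W e4 d g y + W e3 c f y * W e2 b (W e4 d g) y
        + W e2 b f y * W e3 c (W e4 d g) y + f y * W e2 b (W e3 c (W e4 d g)) y ∧
    W e1 a (W e2 b (W e3 c (W e4 d (fun x => f x * g x)))) y
      = W e1 a (W e2 b (W e3 c (W e4 d f))) y * g y + W e2 b (W e3 c (W e4 d f)) y * W e1 a g y
        + W e1 a (W e3 c (W e4 d f)) y * W e2 b g y + W e3 c (W e4 d f) y * W e1 a (W e2 b g) y
        + W e1 a (W e2 b (W e4 d f)) y * W e3 c g y + W e2 b (W e4 d f) y * W e1 a (W e3 c g) y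
        + W e1 a (W e4 d f) y * W e2 b (W e3 c g) y + W e4 d f y * W e1 a (W e2 b (W e3 c g)) y
        + W e1 a (W e2 b (W e3 c f)) y * W e4 d g y + W e2 b (W e3 c f) y * W e1 a (W e4 d g) y
        + W e1 a (W e3 c f) y * W e2 b (W e4 d g) y + W e3 c f y * W e1 a (W e2 b (W e4 d g)) y
        + W e1 a (W e2 b f) y * W e3 c (W e4 d g) y + W e2 b f y * W e1 a (W e3 c (W e4 d g)) y
        + W e1 a f y * W e2 b (W e3 c (W e4 d g)) y
        + f y * W e1 a (W e2 b (W e3 c (W e4 d g))) y := by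
  have k : ∀ {p : E → ℂ}, ContDiffOn ℝ ∞ p U → ∀ {x}, x ∈ U → ∀ e u, HW e u x p (W e u p x) :=
    fun hp _ hx _ _ => .of (dAt hU hp hx)
  have s := fun {p : E → ℂ} => W_smooth (f := p) hU
  have o1 : EqOn (W e4 d fun x => f x * g x) (fun x => W e4 d f x * g x + f x * W e4 d g x) U :=
    fun x hx => W_mul (dAt hU hf hx) (dAt hU hg hx) e4 d
  have o2 : EqOn (W e3 c (W e4 d fun x => f x * g x)) (fun x =>
      W e3 c (W e4 d f) x * g x + W e4 d f x * W e3 c g x + W e3 c f x * W e4 d g x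
        + f x * W e3 c (W e4 d g) x) U := fun x hx => by
    refine (W_eqOn hU o1 e3 c hx).trans ((((k (s hf _ _) hx _ _).mul (k hg hx _ _)).add
      ((k hf hx _ _).mul (k (s hg _ _) hx _ _))).2.trans ?_)
    ring
  have o3 : EqOn (W e2 b (W e3 c (W e4 d fun x => f x * g x))) (fun x =>
      W e2 b (W e3 c (W e4 d f)) x * g x + W e3 c (W e4 d f) x * W e2 b g x
        + W e2 b (W e4 d f) x * W e3 c g x + W e4 d f x * W e2 b (W e3 c g) x
        + W e2 b (W e3 c f) x * W e4 d g x + W e3 c f x * W e2 b (W e4 d g) x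
        + W e2 b f x * W e3 c (W e4 d g) x + f x * W e2 b (W e3 c (W e4 d g)) x) U :=
    fun x hx => by
      refine (W_eqOn hU o2 e2 b hx).trans ((((((k (s (s hf _ _) _ _) hx _ _).mul
        (k hg hx _ _)).add ((k (s hf _ _) hx _ _).mul (k (s hg _ _) hx _ _))).add
        ((k (s hf _ _) hx _ _).mul (k (s hg _ _) hx _ _))).add
        ((k hf hx _ _).mul (k (s (s hg _ _) _ _) hx _ _))).2.trans ?_)
      ring
  refine ⟨o1 hy, o2 hy, o3 hy, ?_⟩
  have f1 := fun e u => k (s hf e u) hy e1 a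
  have g1 := fun e u => k (s hg e u) hy e1 a
  have f2 := fun e u e' u' => k (s (s hf e u) e' u') hy e1 a
  have g2 := fun e u e' u' => k (s (s hg e u) e' u') hy e1 a
  refine (W_eqOn hU o3 e1 a hy).trans ((((((((((k (s (s (s hf _ _) _ _) _ _) hy _ _).mul
    (k hg hy _ _)).add ((f2 _ _ _ _).mul (g1 _ _))).add ((f2 _ _ _ _).mul (g1 _ _))).add
    ((f1 _ _).mul (g2 _ _ _ _))).add ((f2 _ _ _ _).mul (g1 _ _))).add
    ((f1 _ _).mul (g2 _ _ _ _))).add ((f1 _ _).mul (g2 _ _ _ _))).add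
    ((k hf hy _ _).mul (k (s (s (s hg _ _) _ _) _ _) hy _ _))).2.trans ?_)
  ring

/-- jets of `c * f + d * g` -/
theorem jets_lin (hU : IsOpen U) (hf : ContDiffOn ℝ ∞ f U) (hg : ContDiffOn ℝ ∞ g U)
    (hy : y ∈ U) (c d : ℂ) (X Z Y V : E) :
    j2 (fun x => c * f x + d * g x) y X Y = c * j2 f y X Y + d * j2 g y X Y ∧
    j3 (fun x => c * f x + d * g x) y X Z Y = c * j3 f y X Z Y + d * j3 g y X Z Y ∧
    j4 (fun x => c * f x + d * g x) y X Z Y V = c * j4 f y X Z Y V + d * j4 g y X Z Y V := by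
  have s := fun {p : E → ℂ} => W_smooth (f := p) hU
  have o1 := fun ε u => lin_eqOn hU hf hg (c := c) (d := d) (eqOn_refl _ _) ε u
  have o2 := fun ε u ε' u' => lin_eqOn hU (s hf ε u) (s hg ε u) (o1 ε u) ε' u'
  have o3 := fun ε u ε' u' ε'' u'' =>
    lin_eqOn hU (s (s hf ε u) ε' u') (s (s hg ε u) ε' u') (o2 ε u ε' u') ε'' u''
  exact ⟨o2 _ _ _ _ hy, o3 _ _ _ _ _ _ hy,
    lin_eqOn hU (s (s (s hf _ _) _ _) _ _) (s (s (s hg _ _) _ _) _ _) (o3 _ _ _ _ _ _) _ _ hy⟩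

theorem jets_sum {ι : Type} (s : Finset ι) {h : ι → E → ℂ} (hU : IsOpen U)
    (hd : ∀ i ∈ s, ContDiffOn ℝ ∞ (h i) U) (hy : y ∈ U) (X Z Y V : E) :
    j2 (fun x => ∑ i ∈ s, h i x) y X Y = ∑ i ∈ s, j2 (h i) y X Y ∧
    j3 (fun x => ∑ i ∈ s, h i x) y X Z Y = ∑ i ∈ s, j3 (h i) y X Z Y ∧
    j4 (fun x => ∑ i ∈ s, h i x) y X Z Y V = ∑ i ∈ s, j4 (h i) y X Z Y V := by
  have k := fun {p : E → ℂ} => W_smooth (f := p) hU
  have o1 := fun ε u => sum_eqOn s hU hd (eqOn_refl _ _) ε u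
  have o2 := fun ε u ε' u' => sum_eqOn s hU (fun i hi => k (hd i hi) ε u) (o1 ε u) ε' u'
  have o3 := fun ε u ε' u' ε'' u'' =>
    sum_eqOn s hU (fun i hi => k (k (hd i hi) ε u) ε' u') (o2 ε u ε' u') ε'' u''
  exact ⟨o2 _ _ _ _ hy, o3 _ _ _ _ _ _ hy,
    sum_eqOn s hU (fun i hi => k (k (k (hd i hi) _ _) _ _) _ _) (o3 _ _ _ _ _ _) _ _ hy⟩

theorem jets_congr (h : f =ᶠ[𝓝 y] g) (X Z Y V : E) :
    j2 f y X Y = j2 g y X Y ∧ j3 f y X Z Y = j3 g y X Z Y ∧ j4 f y X Z Y V = j4 g y X Z Y V :=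
  ⟨W_congr (W_congr_ev h _ _) _ _, W_congr (W_congr_ev (W_congr_ev h _ _) _ _) _ _,
    W_congr (W_congr_ev (W_congr_ev (W_congr_ev h _ _) _ _) _ _) _ _⟩

/-- iterated operators of order 2, 3, 4 under a complex affine substitution -/
theorem W_aff4 (L : E →L[ℂ] E') (c₀ : E') {h : E' → ℂ} {V : Set E'} (hV : IsOpen V)
    (hd : ContDiffOn ℝ ∞ h V) (hy : L y + c₀ ∈ V) (e1 e2 e3 e4 : ℂ) (a b c d : E) :
    W e3 c (W e4 d (fun x => h (L x + c₀))) y = W e3 (L c) (W e4 (L d) h) (L y + c₀) ∧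
    W e2 b (W e3 c (W e4 d (fun x => h (L x + c₀)))) y
      = W e2 (L b) (W e3 (L c) (W e4 (L d) h)) (L y + c₀) ∧
    W e1 a (W e2 b (W e3 c (W e4 d (fun x => h (L x + c₀))))) y
      = W e1 (L a) (W e2 (L b) (W e3 (L c) (W e4 (L d) h))) (L y + c₀) := by
  have hO : IsOpen {x | L x + c₀ ∈ V} := hV.preimage (L.continuous.add continuous_const)
  have s1 := W_smooth hV hd e4 (L d)
  have s2 := W_smooth hV s1 e3 (L c)
  have o1 := W_aff_eqOn L c₀ hV hd e4 d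
  have o2 := (W_eqOn hO o1 e3 c).trans (W_aff_eqOn L c₀ hV s1 e3 c)
  have o3 := (W_eqOn hO o2 e2 b).trans (W_aff_eqOn L c₀ hV s2 e2 b)
  exact ⟨o2 hy, o3 hy,
    (W_eqOn hO o3 e1 a).trans (W_aff_eqOn L c₀ hV (W_smooth hV s2 e2 (L b)) e1 a) hy⟩

end Vale.Agent.P250
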