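import Vale.Agent.P250.Wa

open scoped ContDiff Topology ComplexConjugate
open Set Filter Complex Metric

noncomputable section

namespace Vale.Agent.P250

open Vale.Agent.P255

variable {E E' : Type} [NormedAddCommGroup E] [NormedSpace ℝ E] [NormedSpace ℂ E]
  [IsScalarTower ℝ ℂ E] [NormedAddCommGroup E'] [NormedSpace ℝ E'] [NormedSpace ℂ E']
  [IsScalarTower ℝ ℂ E'] {U : Set E} {f g : E → ℂ} {y : E}

variable {φ : E → ℝ}

theorem db_cx (φ : E → ℝ) (Y : E) : db Y (cx φ) = fun x => conj (dz Y (cx φ) x) := by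
  rw [← db_conj]
  congr 1
  funext x
  exact (conj_ofReal _).symm

theorem dbdb_cx (φ : E → ℝ) (Y V : E) :
    db Y (db V (cx φ)) = fun x => conj (dz Y (dz V (cx φ)) x) := by
  rw [db_cx φ V, db_conj]

theorem herm_j2 (hU : IsOpen U) (hφ : ContDiffOn ℝ ∞ φ U) (hy : y ∈ U) :
    Herm (j2 (cx φ) y) := by
  refine ⟨fun X X' Y => congrFun (W_add_dir _ X X' _) y, fun c X Y => congrFun (dz_smul c X _) y,
    fun X Y => ?_⟩
  have h : j2 (cx φ) y X Y = db Y (dz X (cx φ)) y := W_comm hU (cx_smooth hφ) _ _ X Y hy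
  rw [h, j2, db_cx φ X, dz_conj]

theorem dzdbdb_cx (hU : IsOpen U) (hφ : ContDiffOn ℝ ∞ φ U) (hy : y ∈ U) (X Y V : E) :
    dz X (db Y (db V (cx φ))) y = conj (j3 (cx φ) y Y V X) := by
  have hf := cx_smooth hφ
  have h : j3 (cx φ) y Y V X = db X (dz Y (dz V (cx φ))) y :=
    (W_eqOn hU (W_comm hU hf _ _ V X) _ Y hy).trans (W_comm hU (W_smooth hU hf _ V) _ _ Y X hy)
  rw [dbdb_cx, dz_conj, h]

theorem j3_add1 (X X' Z Y : E) : j3 f y (X + X') Z Y = j3 f y X Z Y + j3 f y X' Z Y :=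
  congrFun (W_add_dir _ X X' _) y

theorem j3_smul1 (c : ℂ) (X Z Y : E) : j3 f y (c • X) Z Y = c * j3 f y X Z Y :=
  congrFun (dz_smul c X _) y

theorem j3_symm (hU : IsOpen U) (hf : ContDiffOn ℝ ∞ f U) (hy : y ∈ U) (X Z Y : E) :
    j3 f y X Z Y = j3 f y Z X Y :=
  W_comm hU (W_smooth hU hf _ Y) _ _ X Z hy

theorem j3_add3 (hU : IsOpen U) (hf : ContDiffOn ℝ ∞ f U) (hy : y ∈ U) (X Z Y Y' : E) :
    j3 f y X Z (Y + Y') = j3 f y X Z Y + j3 f y X Z Y' := by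
  have s1 := W_smooth hU hf I
  have o : EqOn (dz Z (db (Y + Y') f)) (fun x => dz Z (db Y f) x + dz Z (db Y' f) x) U :=
    fun x hx => by
      rw [db, W_add_dir]
      exact W_add (dAt hU (s1 Y) hx) (dAt hU (s1 Y') hx) _ _
  exact (W_eqOn hU o _ X hy).trans
    (W_add (dAt hU (W_smooth hU (s1 Y) _ _) hy) (dAt hU (W_smooth hU (s1 Y') _ _) hy) _ _)

theorem j3_smul3 (c : ℂ) (X Z Y : E) : j3 f y X Z (c • Y) = conj c * j3 f y X Z Y := by
  simp only [j3, db_smul, W_cmul]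

theorem j4_conj (hU : IsOpen U) (hφ : ContDiffOn ℝ ∞ φ U) (hy : y ∈ U) (X Z Y V : E) :
    j4 (cx φ) y Y V X Z = conj (j4 (cx φ) y X Z Y V) := by
  have hf := cx_smooth hφ
  have s1 := W_smooth hU hf
  have o1 : ∀ A B : E, EqOn (dz A (db B (db V (cx φ)))) (db B (db V (dz A (cx φ)))) U :=
    fun A B => (W_comm hU (s1 _ V) _ _ A B).trans (W_eqOn hU (W_comm hU hf _ _ A V) _ B)
  have o2 : EqOn (dz X (db Y (db V (dz Z (cx φ))))) (db Y (db V (dz X (dz Z (cx φ))))) U :=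
    (W_comm hU (W_smooth hU (s1 _ Z) _ V) _ _ X Y).trans
      (W_eqOn hU (W_comm hU (s1 _ Z) _ _ X V) _ Y)
  have h : j4 (cx φ) y X Z Y V = db Y (db V (dz X (dz Z (cx φ)))) y :=
    (W_eqOn hU (o1 Z Y) _ X hy).trans (o2 hy)
  rw [h, j4, dbdb_cx, dz_conj, dz_conj]

/-- one complex variable -/
theorem jets_one (h : ℂ → ℂ) (w a b c d : ℂ) :
    j2 h w a c = a * conj c * j2 h w 1 1 ∧ j3 h w a b c = a * b * conj c * j3 h w 1 1 1 ∧
    j4 h w a b c d = a * b * conj c * conj d * j4 h w 1 1 1 1 := by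
  have h1 : ∀ (a : ℂ) (p : ℂ → ℂ), dz a p = fun x => a * dz 1 p x := fun a p => by
    rw [← dz_smul, smul_eq_mul, mul_one]
  have h2 : ∀ (a : ℂ) (p : ℂ → ℂ), db a p = fun x => conj a * db 1 p x := fun a p => by
    rw [← db_smul, smul_eq_mul, mul_one]
  have h3 : ∀ (c u : ℂ) (p : ℂ → ℂ), dz u (fun x => c * p x) = fun x => c * dz u p x :=
    fun c u p => W_cmul c _ u p
  have h4 : ∀ (c u : ℂ) (p : ℂ → ℂ), db u (fun x => c * p x) = fun x => c * db u p x :=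
    fun c u p => W_cmul c _ u p
  refine ⟨?_, ?_, ?_⟩
  · rw [j2, j2, h1 a, h1 1, h2 c, h3]
    ring
  · rw [j3, j3, h1 a, h1 b, h2 c]
    simp only [h3]
    ring
  · rw [j4, j4, h1 a, h1 b, h2 c, h2 d]
    simp only [h3, h4]
    ring

/-- the Laplacian: real second derivatives in directions `u` and `I • u` -/
theorem j2_re (hU : IsOpen U) (hφ : ContDiffOn ℝ ∞ φ U) (hy : y ∈ U) (u v : E) :
    4 * (j2 (cx φ) y u v).re
      = fderiv ℝ (fderiv ℝ φ) y u v + fderiv ℝ (fderiv ℝ φ) y (I • u) (I • v) := by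
  have hd : DifferentiableAt ℝ (fderiv ℝ φ) y :=
    ((hφ.fderiv_of_isOpen hU (m := ∞) (by simp)).contDiffAt (hU.mem_nhds hy)).differentiableAt
      (by simp)
  have hc : DifferentiableAt ℝ (fderiv ℝ (cx φ)) y :=
    (((cx_smooth hφ).fderiv_of_isOpen hU (m := ∞) (by simp)).contDiffAt
      (hU.mem_nhds hy)).differentiableAt (by simp)
  have key : ∀ a b, fderiv ℝ (fderiv ℝ (cx φ)) y a b = (fderiv ℝ (fderiv ℝ φ) y a b : ℝ) :=
    fun a b => by
      have h1 := (hc.hasFDerivAt.clm_apply (hasFDerivAt_const b y)).fderiv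
      have h2 := (hd.hasFDerivAt.clm_apply (hasFDerivAt_const b y)).fderiv
      have h3 := fderiv_cx (fun x => fderiv ℝ φ x b) y a
      rw [h2, show (cx fun x => fderiv ℝ φ x b) = fun x => fderiv ℝ (cx φ) x b from
        funext fun x => (fderiv_cx φ x b).symm, h1] at h3
      simpa using h3
  rw [j2, dz, W, WaX.fd_W hU (cx_smooth hφ) hy, WaX.fd_W hU (cx_smooth hφ) hy, key, key, key, key]
  simp
  ring

end Vale.Agent.P250
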