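import Vale.Agent.P250.Chi
import Vale.Agent.P250.Wb
import Vale.Agent.P250.Wc

open scoped ContDiff Topology ComplexConjugate
open Set Filter Complex Metric

noncomputable section

namespace Vale.Agent.P250

open Vale.Agent.P255

variable {u : ℂ → ℝ} {C m : ℝ} {q : B2}

namespace AdmAX

/-- linear part of `ell a ∘ dil m` -/
def LL (a m : ℝ) : B2 →L[ℂ] ℂ :=
  ((m : ℂ) ^ 2) • ContinuousLinearMap.snd ℂ ℂ ℂ - (2 * (a : ℂ) * m) • ContinuousLinearMap.fst ℂ ℂ ℂ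

theorem LL_apply (a m : ℝ) (X : B2) : LL a m X = (dil m X).2 - 2 * (a : ℂ) * (dil m X).1 := by
  simp [LL, dil]
  ring

theorem LL_add (a m : ℝ) (X : B2) : LL a m X + I * (a : ℂ) ^ 2 = ell a (dil m X) := by
  rw [LL_apply, ell]

theorem f_eq (u : ℂ → ℝ) (a m : ℝ) : (cx fun x => u (ell a (dil m x))) =
    fun x => cx u (LL a m x + I * (a : ℂ) ^ 2) := by
  funext x
  rw [LL_add]
  rfl

theorem f_smooth (h : U0 u) (a m : ℝ) :
    ContDiffOn ℝ ∞ (cx fun x => u (ell a (dil m x))) univ := by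
  rw [f_eq]
  have h1 : ContDiff ℝ ∞ (cx u) := contDiffOn_univ.1 (cx_smooth h.sm.contDiffOn)
  exact (h1.comp (((LL a m).restrictScalars ℝ).contDiff.add contDiff_const)).contDiffOn

theorem jets_eq (h : U0 u) (a m : ℝ) (q X Z Y V : B2) :
    j2 (cx fun x => u (ell a (dil m x))) q X Y =
      LL a m X * conj (LL a m Y) * j2 (cx u) (ell a (dil m q)) 1 1 ∧
    j3 (cx fun x => u (ell a (dil m x))) q X Z Y =
      LL a m X * LL a m Z * conj (LL a m Y) * j3 (cx u) (ell a (dil m q)) 1 1 1 ∧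
    j4 (cx fun x => u (ell a (dil m x))) q X Z Y V = LL a m X * LL a m Z * conj (LL a m Y) *
      conj (LL a m V) * j4 (cx u) (ell a (dil m q)) 1 1 1 1 := by
  have h1 := fun e1 e2 e3 e4 a' b c d => W_aff4 (y := q) (LL a m) (I * (a : ℂ) ^ 2) isOpen_univ
    (cx_smooth h.sm.contDiffOn) (mem_univ _) e1 e2 e3 e4 a' b c d
  have h2 := jets_one (cx u) (ell a (dil m q)) (LL a m X) (LL a m Z) (LL a m Y) (LL a m V)
  rw [f_eq, ← h2.1, ← h2.2.1, ← h2.2.2, ← LL_add]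
  exact ⟨(h1 0 0 (-I) I X X X Y).1, (h1 0 (-I) (-I) I X X Z Y).2.1, (h1 (-I) (-I) I I X Z Y V).2.2⟩

theorem jets_zero (h : U0 u) {w : ℂ} (hw : 1 / 2 < w.im) :
    j2 (cx u) w 1 1 = 0 ∧ j3 (cx u) w 1 1 1 = 0 ∧ j4 (cx u) w 1 1 1 1 = 0 := by
  have h1 : cx u =ᶠ[𝓝 w] fun _ => 0 := by
    filter_upwards [continuous_im.continuousAt.eventually (lt_mem_nhds hw)] with x hx
    simp [cx, h.van x hx.le]
  have h2 := jets_congr h1 1 1 1 1
  rw [h2.1, h2.2.1, h2.2.2]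
  simp [j2, j3, j4, W_const]

end AdmAX

open AdmAX

/-- one term of the sum -/
theorem term_jets (h : U0 u) (h' : U1 u C) (hm : 0 < m) (hq : q ∈ SS) (a : ℝ) (X Z Y V : B2) :
    let f : B2 → ℂ := cx fun x => u (ell a (dil m x))
    let κ : ℝ := if m ^ 2 * rho q ≤ 1 / 2 then 625 * C * (m ^ 2 * rho q) else 0
    0 ≤ (j2 f q X X).re ∧ ‖j2 f q X Y‖ ≤ κ * nw q X * nw q Y ∧
    ‖j3 f q X Z Y‖ ≤ κ * nw q X * nw q Z * nw q Y ∧
    ‖j4 f q X Z Y V‖ ≤ κ * nw q X * nw q Z * nw q Y * nw q V := by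
  intro f κ
  have hρ : 0 < rho q := hq
  have hσ : 0 < m ^ 2 * rho q := by positivity
  have him := im_ell a (dil m q)
  rw [rho_dil] at him
  have hw0 : 0 ≤ (ell a (dil m q)).im := by rw [him]; positivity
  have hC : 0 ≤ C := zero_le_one.trans h'.one
  have hκ : 0 ≤ κ := by
    simp only [κ]
    split_ifs <;> positivity
  have nX := nw_nonneg q X
  have nY := nw_nonneg q Y
  have nZ := nw_nonneg q Z
  have nV := nw_nonneg q V
  refine ⟨?_, ?_⟩
  · simp only [f]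
    rw [(jets_eq h a m q X X X X).1, mul_conj, re_ofReal_mul]
    exact mul_nonneg (normSq_nonneg _) (h.sh _ hw0)
  obtain ⟨e2, e3, e4⟩ := jets_eq h a m q X Z Y V
  simp only [f]
  rw [e2, e3, e4]
  by_cases hc : (ell a (dil m q)).im ≤ 1 / 2
  · have hs : m ^ 2 * rho q ≤ 1 / 2 := by nlinarith [sq_nonneg ((dil m q).1.im - a)]
    have hκ' : κ = 625 * C * (m ^ 2 * rho q) := if_pos hs
    have hd : dil m q ∈ SS := by
      show 0 < rho (dil m q)
      rwa [rho_dil]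
    have hL : ∀ X, ‖LL a m X‖ ≤ 5 * √(m ^ 2 * rho q) * nw q X := fun X => by
      have := norm_ell_le hd hc (dil m X)
      rwa [rho_dil, nw_dil hm hq, ← LL_apply] at this
    have hs0 : 0 ≤ √(m ^ 2 * rho q) := Real.sqrt_nonneg _
    have hss : √(m ^ 2 * rho q) ^ 2 = m ^ 2 * rho q := Real.sq_sqrt hσ.le
    have hs1 : √(m ^ 2 * rho q) ≤ 1 := Real.sqrt_le_one.2 (by linarith)
    rw [hκ', ← hss]
    generalize √(m ^ 2 * rho q) = t at hL hs0 hs1
    simp only [norm_mul, RCLike.norm_conj]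
    refine ⟨?_, ?_, ?_⟩
    · calc _ ≤ (5 * t * nw q X) * (5 * t * nw q Y) * C := by
            gcongr
            exacts [hL X, hL Y, h'.b2 _ hw0]
        _ = 25 * (C * t ^ 2 * nw q X * nw q Y) := by ring
        _ ≤ 625 * (C * t ^ 2 * nw q X * nw q Y) := by gcongr; norm_num
        _ = _ := by ring
    · calc _ ≤ (5 * t * nw q X) * (5 * t * nw q Z) * (5 * t * nw q Y) * C := by
            gcongr
            exacts [hL X, hL Z, hL Y, h'.b3 _ hw0]
        _ = 125 * t * (C * t ^ 2 * nw q X * nw q Z * nw q Y) := by ring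
        _ ≤ 625 * (C * t ^ 2 * nw q X * nw q Z * nw q Y) := by gcongr; linarith
        _ = _ := by ring
    · calc _ ≤ (5 * t * nw q X) * (5 * t * nw q Z) * (5 * t * nw q Y) * (5 * t * nw q V) * C := by
            gcongr
            exacts [hL X, hL Z, hL Y, hL V, h'.b4 _ hw0]
        _ = 625 * t ^ 2 * (C * t ^ 2 * nw q X * nw q Z * nw q Y * nw q V) := by ring
        _ ≤ 625 * (C * t ^ 2 * nw q X * nw q Z * nw q Y * nw q V) := by gcongr; nlinarith
        _ = _ := by ring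
  · obtain ⟨z2, z3, z4⟩ := jets_zero h (not_le.1 hc)
    rw [z2, z3, z4]
    simp only [mul_zero, norm_zero]
    exact ⟨by positivity, by positivity, by positivity⟩

theorem geom_sum_le (hm : 2 ≤ m) {ρ : ℝ} (hρ : 0 < ρ) (N : ℕ) :
    ∑ n ∈ Finset.range N, (if (m ^ n) ^ 2 * ρ ≤ 1 / 2 then (m ^ n) ^ 2 * ρ else 0) ≤ 1 := by
  have key : ∀ N : ℕ,
      ∑ n ∈ Finset.range N, (if (m ^ n) ^ 2 * ρ ≤ 1 / 2 then (m ^ n) ^ 2 * ρ else 0) ≤ 1 ∧
      ∑ n ∈ Finset.range N, (if (m ^ n) ^ 2 * ρ ≤ 1 / 2 then (m ^ n) ^ 2 * ρ else 0) ≤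
        (m ^ N) ^ 2 * ρ / 3 := by
    intro N
    induction N with
    | zero => exact ⟨by simp, by simp; positivity⟩
    | succ N ih =>
      have h0 : 0 ≤ (m ^ N) ^ 2 * ρ := by positivity
      have h1 : 4 * ((m ^ N) ^ 2 * ρ) ≤ (m ^ (N + 1)) ^ 2 * ρ := by
        have : (m ^ (N + 1)) ^ 2 * ρ = m ^ 2 * ((m ^ N) ^ 2 * ρ) := by ring
        rw [this]
        exact mul_le_mul_of_nonneg_right (by nlinarith) h0
      rw [Finset.sum_range_succ]
      split_ifs with hc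
      · constructor <;> linarith [ih.1, ih.2]
      · constructor <;> linarith [ih.1, ih.2]
  exact (key N).1

theorem chi_jets (h : U0 u) (h' : U1 u C) (hm : 2 ≤ m) (hq : q ∈ SS) (X Z Y V : B2) :
    0 ≤ (j2 (cx (chi u m)) q X X).re ∧
    ‖j2 (cx (chi u m)) q X Y‖ ≤ 625 * C * nw q X * nw q Y ∧
    ‖j3 (cx (chi u m)) q X Z Y‖ ≤ 625 * C * nw q X * nw q Z * nw q Y ∧
    ‖j4 (cx (chi u m)) q X Z Y V‖ ≤ 625 * C * nw q X * nw q Z * nw q Y * nw q V := by
  obtain ⟨N, j, hj⟩ := chi_local h hm hq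
  have hm0 : 0 < m := by linarith
  have hC : 0 ≤ C := zero_le_one.trans h'.one
  have h1 : cx (chi u m) =ᶠ[𝓝 q]
      fun x => ∑ n ∈ Finset.range N, cx (fun x => u (ell (8 * j n) (dil (m ^ n) x))) x := by
    filter_upwards [hj] with x hx
    simp only [cx, hx, ofReal_sum]
  have h2 := fun X Z Y V => jets_congr h1 X Z Y V
  have h3 := fun X Z Y V => jets_sum (Finset.range N) isOpen_univ
    (fun n _ => f_smooth h (8 * j n) (m ^ n)) (mem_univ q) X Z Y V
  have h4 := fun n => term_jets h h' (pow_pos hm0 n) hq (8 * j n) X Z Y V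
  have h5 : ∑ n ∈ Finset.range N,
      (if (m ^ n) ^ 2 * rho q ≤ 1 / 2 then 625 * C * ((m ^ n) ^ 2 * rho q) else 0) ≤ 625 * C := by
    have := mul_le_mul_of_nonneg_left (geom_sum_le hm hq N) (show 0 ≤ 625 * C by positivity)
    rw [Finset.mul_sum, mul_one] at this
    simpa only [mul_ite, mul_zero] using this
  have nX := nw_nonneg q X
  have nY := nw_nonneg q Y
  have nZ := nw_nonneg q Z
  have nV := nw_nonneg q V
  refine ⟨?_, ?_, ?_, ?_⟩
  · rw [(h2 X X X X).1, (h3 X X X X).1, re_sum]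
    exact Finset.sum_nonneg fun n _ => (h4 n).1
  · rw [(h2 X Z Y V).1, (h3 X Z Y V).1]
    refine (norm_sum_le_of_le _ fun n _ => (h4 n).2.1).trans ?_
    rw [← Finset.sum_mul, ← Finset.sum_mul]
    gcongr
  · rw [(h2 X Z Y V).2.1, (h3 X Z Y V).2.1]
    refine (norm_sum_le_of_le _ fun n _ => (h4 n).2.2.1).trans ?_
    rw [← Finset.sum_mul, ← Finset.sum_mul, ← Finset.sum_mul]
    gcongr
  · rw [(h2 X Z Y V).2.2, (h3 X Z Y V).2.2]
    refine (norm_sum_le_of_le _ fun n _ => (h4 n).2.2.2).trans ?_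
    rw [← Finset.sum_mul, ← Finset.sum_mul, ← Finset.sum_mul, ← Finset.sum_mul]
    gcongr

end Vale.Agent.P250
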