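import Vale.Agent.P250.RhoA
import Vale.Agent.P250.Wb
import Vale.Agent.P250.Wc

open scoped ContDiff Topology ComplexConjugate
open Set Filter Complex Metric

noncomputable section

namespace Vale.Agent.P250

open Vale.Agent.P255

variable {q : B2}

namespace RhoBX

def al (ε c : ℂ) : ℂ := ((c.im : ℂ) + ε * (c.re : ℂ)) / 2

theorem al_neg (c : ℂ) : al (-I) c = -I * c / 2 := by
  unfold al
  conv_rhs => rw [← re_add_im c]
  linear_combination (c.im / 2 : ℂ) * I_mul_I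

theorem al_pos (c : ℂ) : al I c = I * conj c / 2 := by
  unfold al
  have : conj c = c.re - c.im * I := by
    apply Complex.ext <;> simp
  rw [this]
  linear_combination (c.im / 2 : ℂ) * I_mul_I

def L1 : B2 →L[ℝ] ℂ := ofRealCLM.comp (imCLM.comp (ContinuousLinearMap.fst ℝ ℂ ℂ))
def L2 : B2 →L[ℝ] ℂ := ofRealCLM.comp (imCLM.comp (ContinuousLinearMap.snd ℝ ℂ ℂ))

theorem W_L1 (ε : ℂ) (X q : B2) : W ε X L1 q = al ε X.1 := by
  unfold W al
  rw [L1.fderiv]
  simp [L1]

theorem W_L2 (ε : ℂ) (X q : B2) : W ε X L2 q = al ε X.2 := by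
  unfold W al
  rw [L2.fderiv]
  simp [L2]

theorem R_eq : cx rho = fun q => L2 q - L1 q * L1 q := by
  funext q
  simp [cx, rho, L1, L2, sq]

theorem W1 (ε : ℂ) (X : B2) : W ε X (cx rho) = fun q => al ε X.2 - 2 * al ε X.1 * L1 q := by
  funext q
  rw [R_eq, W_sub L2.differentiableAt (L1.differentiableAt.fun_mul L1.differentiableAt),
    W_mul L1.differentiableAt L1.differentiableAt, W_L1, W_L2]
  ring

theorem W2 (ε ε' : ℂ) (X X' : B2) :
    W ε' X' (W ε X (cx rho)) = fun _ => -2 * al ε X.1 * al ε' X'.1 := by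
  funext q
  rw [W1, W_sub (differentiableAt_const _) (L1.differentiableAt.const_mul _), W_const, W_cmul]
  simp only [W_L1]
  ring

theorem W3 (ε ε' ε'' : ℂ) (X X' X'' : B2) :
    W ε'' X'' (W ε' X' (W ε X (cx rho))) = fun _ => 0 := by
  rw [W2, W_const]

theorem W4 (ε ε' ε'' e : ℂ) (X X' X'' Y : B2) :
    W e Y (W ε'' X'' (W ε' X' (W ε X (cx rho)))) = fun _ => 0 := by
  rw [W3, W_const]

theorem rho_smooth : ContDiff ℝ ∞ rho := by
  unfold rho
  exact (imCLM.contDiff.comp contDiff_snd).sub ((imCLM.contDiff.comp contDiff_fst).pow 2)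

theorem ev (hq : q ∈ SS) : cx phi0 =ᶠ[𝓝 q] fun x => -log (cx rho x) := by
  filter_upwards [isOpen_SS.mem_nhds hq] with x hx
  simp only [cx, phi0, ofReal_neg, ofReal_log (le_of_lt hx)]

theorem dinv (n : ℕ) (k : ℂ) {x : ℂ} (hx : x ∈ slitPlane) :
    HasDerivAt (fun x : ℂ => k * x⁻¹ ^ (n + 1)) (-(n + 1) * k * x⁻¹ ^ (n + 2)) x := by
  have h := ((hasDerivAt_inv (slitPlane_ne_zero hx)).fun_pow (n + 1)).const_mul k
  convert h using 1
  all_goals first | rfl | (simp only [Nat.add_sub_cancel, ← inv_pow]; push_cast; ring)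

theorem key (hq : q ∈ SS) (e1 e2 e3 e4 : ℂ) (a b c d : B2) : type_of% (fdb (F0 := fun x => -log x)
    (F1 := fun x => -1 * x⁻¹ ^ 1) (F2 := fun x => 1 * x⁻¹ ^ 2) (F3 := fun x => -2 * x⁻¹ ^ 3)
    (F4 := fun x => 6 * x⁻¹ ^ 4) (V := slitPlane) (f := cx rho) (y := q) isOpen_SS
    (cx_smooth rho_smooth.contDiffOn) (fun x hx => ofReal_mem_slitPlane.2 hx)
    (fun x hx => by simpa using (hasDerivAt_log hx).fun_neg)
    (fun x hx => by simpa using dinv 0 (-1) hx)
    (fun x hx => by convert dinv 1 1 hx using 1; norm_num)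
    (fun x hx => by convert dinv 2 (-2) hx using 1; norm_num) hq e1 e2 e3 e4 a b c d) :=
  fdb (F0 := fun x => -log x)
    (F1 := fun x => -1 * x⁻¹ ^ 1) (F2 := fun x => 1 * x⁻¹ ^ 2) (F3 := fun x => -2 * x⁻¹ ^ 3)
    (F4 := fun x => 6 * x⁻¹ ^ 4) (V := slitPlane) (f := cx rho) (y := q) isOpen_SS
    (cx_smooth rho_smooth.contDiffOn) (fun x hx => ofReal_mem_slitPlane.2 hx)
    (fun x hx => by simpa using (hasDerivAt_log hx).fun_neg)
    (fun x hx => by simpa using dinv 0 (-1) hx)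
    (fun x hx => by convert dinv 1 1 hx using 1; norm_num)
    (fun x hx => by convert dinv 2 (-2) hx using 1; norm_num) hq e1 e2 e3 e4 a b c d

theorem L1_apply (q : B2) : L1 q = (q.1.im : ℂ) := rfl

theorem ne (hq : q ∈ SS) : (rho q : ℂ) ≠ 0 := ofReal_ne_zero.2 (ne_of_gt hq)

end RhoBX

open RhoBX

theorem phi0_smooth : ContDiffOn ℝ ∞ phi0 SS :=
  (rho_smooth.contDiffOn.log fun _ hx => ne_of_gt hx).neg
theorem dz_phi0 (hq : q ∈ SS) (X : B2) : dz X (cx phi0) q = pp q X := by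
  have h0 := ne hq
  rw [dz, W_congr (ev hq), (key hq 0 0 0 (-I) X X X X).1]
  simp only [W1, al_neg, L1_apply, cx, pp, lam]
  field_simp
  ring
theorem j2_phi0 (hq : q ∈ SS) (X Y : B2) : j2 (cx phi0) q X Y = om q X Y := by
  have h0 := ne hq
  rw [(jets_congr (ev hq) X X Y Y).1, j2, dz, db, (key hq 0 0 (-I) I X X X Y).2.1]
  simp only [W2]
  simp only [W1, al_neg, al_pos, L1_apply, cx, om, lam, map_sub, map_mul, conj_ofReal,
    map_ofNat]
  field_simp
  ring_nf
  simp only [I_sq]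
  ring
theorem j3_phi0 (hq : q ∈ SS) (X Z Y : B2) : j3 (cx phi0) q X Z Y = om q (G0 q X Z) Y := by
  have h0 := ne hq
  rw [(jets_congr (ev hq) X Z Y Y).2.1, j3, dz, dz, db, (key hq 0 (-I) (-I) I X X Z Y).2.2.1]
  simp only [W3]
  simp only [W2]
  simp only [W1, al_neg, al_pos, L1_apply, cx, om, lam, G0, pp, map_sub, map_mul, conj_ofReal,
    map_ofNat, Prod.fst_add, Prod.snd_add, Prod.smul_fst, Prod.smul_snd, smul_eq_mul]
  field_simp
  ring_nf
  simp only [I_sq, I_pow_three]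
  ring
theorem j4_phi0 (hq : q ∈ SS) (X Z Y V : B2) : j4 (cx phi0) q X Z Y V
    = om q X Y * om q Z V + om q X V * om q Z Y + om q (G0 q X Z) (G0 q Y V) := by
  have h0 := ne hq
  rw [(jets_congr (ev hq) X Z Y V).2.2, j4, dz, dz, db, db,
    (key hq (-I) (-I) I I X Z Y V).2.2.2]
  simp only [W4]
  simp only [W3]
  simp only [W2]
  simp only [W1, al_neg, al_pos, L1_apply, cx, om, lam, G0, pp, map_sub, map_mul, conj_ofReal,
    map_ofNat, Prod.fst_add, Prod.snd_add, Prod.smul_fst, Prod.smul_snd, smul_eq_mul, map_add,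
    map_div₀, conj_I, map_zero]
  field_simp
  ring_nf
  simp only [I_sq, I_pow_four]
  ring

end Vale.Agent.P250
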