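import Vale.Agent.P250.AdmA
import Vale.Agent.P250.RhoB

open scoped ContDiff Topology ComplexConjugate
open Set Filter Complex Metric

noncomputable section

namespace Vale.Agent.P250

open Vale.Agent.P255

theorem adm_phi {u : ℂ → ℝ} {C m l : ℝ} (h : U0 u) (h' : U1 u C) (hm : 2 ≤ m) (hl : 0 ≤ l) :
    Adm (phi u m l) (11 + 625 * C * l) := by
  have hC : 0 ≤ C := zero_le_one.trans h'.one
  have hCl : 0 ≤ 625 * C * l := by positivity
  have he : cx (phi u m l) = fun x => 1 * cx phi0 x + (l : ℂ) * cx (chi u m) x := by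
    funext x
    simp [cx, phi]
  have hj := fun q (hq : q ∈ SS) X Z Y V => jets_lin isOpen_SS (cx_smooth phi0_smooth)
    (cx_smooth (chi_smooth h hm)) hq 1 (l : ℂ) X Z Y V
  have hn : ∀ a b : ℂ, ‖1 * a + (l : ℂ) * b‖ ≤ ‖a‖ + l * ‖b‖ := fun a b => by
    refine (norm_add_le _ _).trans ?_
    rw [one_mul, norm_mul, norm_real, Real.norm_of_nonneg hl]
  have hq2 : ∀ q ∈ SS, ∀ X, qf (j2 (cx (phi u m l)) q) X =
      qf (om q) X + l * (j2 (cx (chi u m)) q X X).re := fun q hq X => by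
    rw [qf, he, (hj q hq X X X X).1, j2_phi0 hq, one_mul, add_re, re_ofReal_mul, qf]
  refine ⟨by linarith, phi0_smooth.add (contDiffOn_const.mul (chi_smooth h hm)),
    fun q hq X => ?_, fun q hq X => ?_, fun q hq X Z Y => ?_, fun q hq X Z Y V => ?_⟩
  · rw [hq2 q hq]
    have := mul_nonneg hl (chi_jets h h' hm hq X X X X).1
    linarith
  · rw [hq2 q hq]
    have h1 := (re_le_norm _).trans (chi_jets h h' hm hq X X X X).2.1
    have h2 := mul_le_mul_of_nonneg_left h1 hl
    have h3 := om_nonneg hq X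
    rw [← nw_sq hq] at h3 ⊢
    nlinarith
  · rw [he, (hj q hq X Z Y X).2.1, j3_phi0 hq]
    refine (hn _ _).trans ?_
    have h1 := mul_le_mul_of_nonneg_left (chi_jets h h' hm hq X Z Y X).2.2.1 hl
    have h2 := (norm_om_le hq (G0 q X Z) Y).trans
      (mul_le_mul_of_nonneg_right (nw_G0_le hq X Z) (nw_nonneg q Y))
    have h3 := mul_nonneg (mul_nonneg (nw_nonneg q X) (nw_nonneg q Z)) (nw_nonneg q Y)
    nlinarith
  · rw [he, (hj q hq X Z Y V).2.2, j4_phi0 hq]
    refine (hn _ _).trans ?_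
    have nX := nw_nonneg q X
    have nY := nw_nonneg q Y
    have nZ := nw_nonneg q Z
    have nV := nw_nonneg q V
    have h1 := mul_le_mul_of_nonneg_left (chi_jets h h' hm hq X Z Y V).2.2.2 hl
    have h2 : ‖om q (G0 q X Z) (G0 q Y V)‖ ≤ (3 * nw q X * nw q Z) * (3 * nw q Y * nw q V) :=
      (norm_om_le hq _ _).trans
        (mul_le_mul (nw_G0_le hq X Z) (nw_G0_le hq Y V) (nw_nonneg q _) (by positivity))
    have h3 : ‖om q X Y * om q Z V‖ ≤ (nw q X * nw q Y) * (nw q Z * nw q V) := by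
      rw [norm_mul]
      exact mul_le_mul (norm_om_le hq _ _) (norm_om_le hq _ _) (norm_nonneg _) (by positivity)
    have h4 : ‖om q X V * om q Z Y‖ ≤ (nw q X * nw q V) * (nw q Z * nw q Y) := by
      rw [norm_mul]
      exact mul_le_mul (norm_om_le hq _ _) (norm_om_le hq _ _) (norm_nonneg _) (by positivity)
    have h5 := norm_add₃_le (a := om q X Y * om q Z V) (b := om q X V * om q Z Y)
      (c := om q (G0 q X Z) (G0 q Y V))
    nlinarith

end Vale.Agent.P250
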