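import Vale.Agent.P250.Her

open scoped ContDiff Topology ComplexConjugate
open Set Filter Complex Metric

noncomputable section

namespace Vale.Agent.P250

open Vale.Agent.P255

variable {o θ : B2 → B2 → ℂ} {T : B2 → B2 → B2 → ℂ} {U : B2 → B2 → B2 → B2 → ℂ} {B c τ : ℝ}
  {μ : ℂ} {P : B2 → B2} {Θ : B2 → B2 → B2}

theorem Dat.herm_gg (h : Dat o θ T U B) (c τ : ℝ) : Herm (gg o θ c τ) :=
  h.ho.lin h.hθ c τ

theorem Dat.gg_pos (h : Dat o θ T U B) (hc : 0 < c) (hτ : 0 ≤ τ) (X : B2) (hX : X ≠ 0) :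
    0 < qf (gg o θ c τ) X := by
  have h1 := h.pos X hX
  have h2 := h.lo X
  have : qf (gg o θ c τ) X = c * qf o X + τ * qf θ X := by
    simp only [qf, gg, add_re, re_ofReal_mul]
  rw [this]
  have := mul_pos hc h1
  have := mul_nonneg hτ (h1.le.trans h2)
  linarith

theorem AlgAX.herm_E (h : Dat o θ T U B) (hP : ∀ Z Y, gg o θ c τ (P Z) Y = θ Z Y) :
    Herm fun X Y => θ X (P Y) where
  add := fun X X' Y => h.hθ.add _ _ _
  smul := fun c X Y => h.hθ.smul _ _ _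
  cj := fun X Y => by rw [← hP, ← hP, (h.herm_gg c τ).cj]

theorem Dat.herm_EE (h : Dat o θ T U B) (hP : ∀ Z Y, gg o θ c τ (P Z) Y = θ Z Y) :
    Herm (EE θ P τ) :=
  h.hθ.lin (AlgAX.herm_E h hP) _ _

namespace AlgAX

theorem Tsub1 (h : Dat o θ T U B) (X X' Z Y : B2) : T (X - X') Z Y = T X Z Y - T X' Z Y := by
  rw [sub_eq_add_neg, ← neg_one_smul ℂ X', h.add1, h.smul1]; ring

theorem Tsub3 (h : Dat o θ T U B) (X Z Y Y' : B2) : T X Z (Y - Y') = T X Z Y - T X Z Y' := by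
  rw [sub_eq_add_neg, ← neg_one_smul ℂ Y', h.add3, h.smul3]; simp; ring

theorem dec (h : Dat o θ T U B) (hc : 0 < c) (hτ : 0 ≤ τ)
    (hP : ∀ Z Y, gg o θ c τ (P Z) Y = θ Z Y) (hΘ : ∀ X Z Y, gg o θ c τ (Θ X Z) Y = T X Z Y)
    (a b : E3) {Q : B2} (hQ : ∀ Y, gg o θ c τ Q Y = PP θ T τ μ a b Y) :
    Q = (τ : ℂ) • Θ a.1 b.1 + ((μ * a.2) • P b.1 + (μ * b.2) • P a.1) := by
  have hg := h.herm_gg c τ
  refine hg.ext (h.gg_pos hc hτ) fun Y => ?_
  rw [hQ, hg.add, hg.add, hg.smul, hg.smul, hg.smul, hΘ, hP, hP]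
  unfold PP
  ring

/-- real part from a conjugation symmetric identity -/
theorem re_of {z : ℂ} {r : ℝ} (h : z + conj z = 2 * (r : ℂ)) : z.re = r := by
  have := congrArg Complex.re h
  simp only [add_re, conj_re, mul_re, re_ofNat, ofReal_re, im_ofNat, ofReal_im] at this
  linarith

theorem cre (z : ℂ) : (z.re : ℂ) = (z + conj z) / 2 := re_eq_add_conj z

theorem cim (z : ℂ) : (z.im : ℂ) = -I * (z - conj z) / 2 := by
  rw [im_eq_sub_conj]
  field_simp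
  rw [I_sq]; ring

end AlgAX

open AlgAX

/-- the curvature identity -/
theorem alg_id (h : Dat o θ T U B) (hc : 0 < c) (hτ : 0 ≤ τ) (hμ : ‖μ‖ ^ 2 = τ * (1 + τ))
    (hP : ∀ Z Y, gg o θ c τ (P Z) Y = θ Z Y) (hΘ : ∀ X Z Y, gg o θ c τ (Θ X Z) Y = T X Z Y)
    (a b : E3) {Paa Pab Pbb : B2} (haa : ∀ Y, gg o θ c τ Paa Y = PP θ T τ μ a a Y)
    (hab : ∀ Y, gg o θ c τ Pab Y = PP θ T τ μ a b Y)
    (hbb : ∀ Y, gg o θ c τ Pbb Y = PP θ T τ μ b b Y) :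
    (R0 o θ T U c τ μ a b a b + gg o θ c τ Pab Pab - R0 o θ T U c τ μ b b a a
        - gg o θ c τ Pbb Paa).re
      = -c * (ar o a.1 b.1 + 3 * (o b.1 a.1).im ^ 2)
        - τ * (1 + τ) * (ar θ a.1 b.1 + 3 * (θ b.1 a.1).im ^ 2)
        - τ * (U a.1 b.1 a.1 b.1 - U b.1 b.1 a.1 a.1).re
        + τ ^ 2 * (gg o θ c τ (Θ a.1 b.1) (Θ a.1 b.1) - gg o θ c τ (Θ b.1 b.1) (Θ a.1 a.1)).re
        - 4 * (b.2 * conj a.2).im * (EE θ P τ b.1 a.1).im - qf (EE θ P τ) (VV a b)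
        - 4 * (b.2 * conj a.2).im ^ 2
        + 2 * (conj μ * (T (VV a b) b.1 (a.1 - (τ : ℂ) • P a.1)
            - T (VV a b) a.1 (b.1 - (τ : ℂ) • P b.1))).re := by
  have hg := h.herm_gg c τ
  have ho := h.ho
  have hθ := h.hθ
  have hE := herm_E h hP
  have hm : μ * conj μ = τ * (1 + τ) := by
    rw [mul_conj, normSq_eq_norm_sq, hμ]; push_cast; ring
  have g1 : ∀ Z X Y, gg o θ c τ (P Z) (Θ X Y) = conj (T X Y (P Z)) := fun Z X Y => by
    rw [hg.cj, hΘ]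
  have g2 : ∀ X Y Z, gg o θ c τ (Θ X Y) (P Z) = T X Y (P Z) := fun X Y Z => hΘ _ _ _
  have g3 : ∀ Z Y, gg o θ c τ (P Z) (P Y) = θ Z (P Y) := fun Z Y => hP _ _
  rw [dec h hc hτ hP hΘ a a haa, dec h hc hτ hP hΘ a b hab, dec h hc hτ hP hΘ b b hbb]
  have e1 : qf (EE θ P τ) (VV a b) = ((1 + 2 * τ : ℝ) * θ (VV a b) (VV a b)
      + (-(τ * (1 + τ)) : ℝ) * (fun X Y => θ X (P Y)) (VV a b) (VV a b)).re := rfl
  rw [e1]
  unfold VV
  simp only [hg.add, hg.smul, hg.add_right, hg.smul_right, g1, g2, g3]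
  rw [hE.sub, hE.sub_right, hE.sub_right, hE.smul, hE.smul, hE.smul, hE.smul, hE.smul_right,
    hE.smul_right, hE.smul_right, hE.smul_right]
  simp only [hθ.sub, hθ.sub_right, hθ.smul, hθ.smul_right, Tsub1 h, Tsub3 h, h.smul1, h.smul3,
    h.sym b.1 a.1, R0, EE, ar, qf]
  have k1 := ho.cj b.1 a.1
  have k2 := hθ.cj b.1 a.1
  have k3 : θ a.1 (P b.1) = conj (θ b.1 (P a.1)) := hE.cj b.1 a.1
  have k4 := ho.cj a.1 a.1
  have k5 := ho.cj b.1 b.1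
  have k6 := hθ.cj a.1 a.1
  have k7 := hθ.cj b.1 b.1
  have k8 : θ a.1 (P a.1) = conj (θ a.1 (P a.1)) := hE.cj a.1 a.1
  have k9 : θ b.1 (P b.1) = conj (θ b.1 (P b.1)) := hE.cj b.1 b.1
  rw [k1, k2, k3]
  apply ofReal_injective
  simp only [ofReal_sub, ofReal_add, ofReal_mul, ofReal_neg, ofReal_pow, ofReal_ofNat,
    ofReal_one, cre, cim, map_add, map_sub, map_mul, map_neg, conj_conj, conj_ofReal, map_ofNat,
    map_one, ← k4, ← k5, ← k6, ← k7, ← k8, ← k9]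
  generalize o b.1 a.1 = o1 at *
  generalize θ b.1 a.1 = t1 at *
  generalize θ b.1 (P a.1) = E1 at *
  have hI : I ^ 2 = -1 := I_sq
  linear_combination (a.2 * conj a.2 * θ b.1 (P b.1) + b.2 * conj b.2 * θ a.1 (P a.1)
      + a.2 * conj b.2 * E1 + conj a.2 * b.2 * conj E1
      - 2 * b.2 * conj a.2 * E1 - 2 * conj b.2 * a.2 * conj E1) * hm
    + (3 / 4 * c * (o1 - conj o1) ^ 2 + 3 / 4 * (τ * (1 + τ)) * (t1 - conj t1) ^ 2
      + (b.2 * conj a.2 - conj b.2 * a.2) * ((1 + 2 * τ) * (t1 - conj t1)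
        - τ * (1 + τ) * (E1 - conj E1)) + (b.2 * conj a.2 - conj b.2 * a.2) ^ 2) * hI


/-- the area identity -/
theorem area_id (h : Dat o θ T U B) (c τ : ℝ) (a b : E3) :
    ar (hh o θ c τ) a b + (hh o θ c τ b a).im ^ 2
      = ar (gg o θ c τ) a.1 b.1 + (gg o θ c τ b.1 a.1).im ^ 2 + qf (gg o θ c τ) (VV a b)
        + 2 * (b.2 * conj a.2).im ^ 2 := by
  have hg := h.herm_gg c τ
  simp only [ar, qf, hh, VV, hg.sub, hg.sub_right, hg.smul, hg.smul_right, conj_conj]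
  rw [hg.cj b.1 a.1, hg.self a.1, hg.self b.1]
  generalize gg o θ c τ b.1 a.1 = g1
  generalize qf (gg o θ c τ) a.1 = A
  generalize qf (gg o θ c τ) b.1 = B'
  simp only [add_re, add_im, sub_re, mul_re, mul_im, conj_re, conj_im, ofReal_re, ofReal_im,
    sub_im]
  ring

theorem Dat.herm_hh (h : Dat o θ T U B) (c τ : ℝ) : Herm (hh o θ c τ) where
  add := fun X X' Y => by
    simp only [hh, Prod.fst_add, Prod.snd_add, (h.herm_gg c τ).add]; ring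
  smul := fun z X Y => by
    simp only [hh, Prod.smul_fst, Prod.smul_snd, (h.herm_gg c τ).smul, smul_eq_mul]; ring
  cj := fun X Y => by
    simp only [hh, map_add, map_mul, conj_conj, ← (h.herm_gg c τ).cj X.1 Y.1]; ring

end Vale.Agent.P250
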