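import Vale.Agent.P250.AlgA

open scoped ContDiff Topology ComplexConjugate
open Set Filter Complex Metric

noncomputable section

namespace Vale.Agent.P250

open Vale.Agent.P255

variable {o θ : B2 → B2 → ℂ} {T : B2 → B2 → B2 → ℂ} {U : B2 → B2 → B2 → B2 → ℂ} {B c τ : ℝ}
  {μ : ℂ} {P : B2 → B2} {Θ : B2 → B2 → B2}

namespace AlgBX

theorem gq (o θ : B2 → B2 → ℂ) (c τ : ℝ) (X : B2) :
    qf (gg o θ c τ) X = c * qf o X + τ * qf θ X := by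
  simp [qf, gg]

theorem o0 (h : Dat o θ T U B) (X : B2) : 0 ≤ qf o X := by
  by_cases hX : X = 0
  · simp [hX, qf, h.ho.zero]
  · exact (h.pos X hX).le

theorem t0 (h : Dat o θ T U B) (X : B2) : 0 ≤ qf θ X := (o0 h X).trans (h.lo X)

theorem g1 (h : Dat o θ T U B) (hc : B ≤ c) (X : B2) :
    (1 + τ) * qf θ X ≤ qf (gg o θ c τ) X := by
  rw [gq]
  nlinarith [h.hi X, mul_le_mul_of_nonneg_right hc (o0 h X)]

theorem g2 (h : Dat o θ T U B) (hc : B ≤ c) (X : B2) :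
    qf (gg o θ c τ) X ≤ (c + τ) * qf θ X := by
  rw [gq]
  nlinarith [mul_le_mul_of_nonneg_left (h.lo X) (show 0 ≤ c by linarith [h.one])]

theorem g3 (h : Dat o θ T U B) (hτ : 0 ≤ τ) (X : B2) :
    (c + τ) * qf o X ≤ qf (gg o θ c τ) X := by
  rw [gq]
  nlinarith [mul_le_mul_of_nonneg_left (h.lo X) hτ]

theorem g4 (h : Dat o θ T U B) (hc : B ≤ c) (hτ : 0 ≤ τ) (X : B2) :
    qf (gg o θ c τ) X ≤ c * (1 + τ) * qf o X := by
  rw [gq]
  nlinarith [mul_le_mul_of_nonneg_left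
    ((h.hi X).trans (mul_le_mul_of_nonneg_right hc (o0 h X))) hτ]

theorem g0 (h : Dat o θ T U B) (hc : B ≤ c) (hτ : 0 ≤ τ) (X : B2) : 0 ≤ qf (gg o θ c τ) X :=
  (mul_nonneg (by linarith) (t0 h X)).trans (g1 h hc X)

theorem h0 (h : Dat o θ T U B) (hc : B ≤ c) (hτ : 0 ≤ τ) (X : E3) : 0 ≤ qf (hh o θ c τ) X := by
  have : qf (hh o θ c τ) X = qf (gg o θ c τ) X.1 + normSq X.2 := by
    simp only [qf, hh, add_re, mul_conj, ofReal_re]
  rw [this]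
  exact add_nonneg (g0 h hc hτ _) (normSq_nonneg _)

theorem cancel {x a b : ℝ} (hx : 0 ≤ x) (hb : 0 ≤ b) (h : a * x ^ 2 ≤ b * x) : a * x ≤ b := by
  rcases hx.eq_or_lt with h1 | h1
  · simpa [← h1] using hb
  · exact le_of_mul_le_mul_right (by nlinarith) h1

theorem Eq1 (hP : ∀ Z Y, gg o θ c τ (P Z) Y = θ Z Y) (X : B2) :
    qf (EE θ P τ) X = (1 + 2 * τ) * qf θ X - τ * (1 + τ) * qf (gg o θ c τ) (P X) := by
  simp only [qf, EE, hP, add_re, re_ofReal_mul]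
  ring

theorem E_le (h : Dat o θ T U B) (hc : B ≤ c) (hτ : 0 ≤ τ)
    (hP : ∀ Z Y, gg o θ c τ (P Z) Y = θ Z Y) (X : B2) :
    (1 + τ) * qf (gg o θ c τ) (P X) ≤ qf θ X := by
  refine cancel (g0 h hc hτ _) (t0 h X) ?_
  have h1 := h.hθ.cs (t0 h) X (P X)
  rw [← hP, (h.herm_gg c τ).self, norm_real, Real.norm_eq_abs, sq_abs] at h1
  have h2 := mul_le_mul_of_nonneg_left (g1 (τ := τ) h hc (P X)) (t0 h X)
  have h3 := mul_le_mul_of_nonneg_left h1 (show 0 ≤ 1 + τ by linarith)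
  nlinarith

theorem Th_le (h : Dat o θ T U B) (hc : B ≤ c) (hτ : 0 ≤ τ)
    (hΘ : ∀ X Z Y, gg o θ c τ (Θ X Z) Y = T X Z Y) (X Z : B2) :
    τ * qf (gg o θ c τ) (Θ X Z) ≤ (B * √(qf o X) * √(qf o Z)) ^ 2 := by
  refine cancel (g0 h hc hτ _) (sq_nonneg _) ?_
  have h1 := h.bT X Z (Θ X Z)
  rw [← hΘ, (h.herm_gg c τ).self, norm_real, Real.norm_of_nonneg (g0 h hc hτ _)] at h1
  have h2 := pow_le_pow_left₀ (g0 h hc hτ _) h1 2
  rw [mul_pow, Real.sq_sqrt (o0 h _)] at h2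
  have h3 := g3 (c := c) h hτ (Θ X Z)
  have h4 : τ * qf o (Θ X Z) ≤ qf (gg o θ c τ) (Θ X Z) := by
    nlinarith [mul_nonneg (show 0 ≤ c by linarith [h.one]) (o0 h (Θ X Z))]
  have h5 := mul_le_mul_of_nonneg_left h2 hτ
  have h6 := mul_le_mul_of_nonneg_left h4 (sq_nonneg (B * √(qf o X) * √(qf o Z)))
  nlinarith

end AlgBX

open AlgBX

theorem EE_lo (h : Dat o θ T U B) (hc : B ≤ c) (hτ : 0 ≤ τ)
    (hP : ∀ Z Y, gg o θ c τ (P Z) Y = θ Z Y) (X : B2) :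
    (1 + τ) * qf θ X ≤ qf (EE θ P τ) X := by
  rw [Eq1 hP]
  nlinarith [mul_le_mul_of_nonneg_left (E_le h hc hτ hP X) hτ]

theorem EE_hi (h : Dat o θ T U B) (hc : B ≤ c) (hτ : 0 ≤ τ)
    (hP : ∀ Z Y, gg o θ c τ (P Z) Y = θ Z Y) (X : B2) :
    qf (EE θ P τ) X ≤ (1 + 2 * τ - τ * (1 + τ) / (c + τ)) * qf θ X := by
  rw [Eq1 hP]
  have hcτ : 0 < c + τ := by linarith [h.one]
  have h1 := (h.herm_gg c τ).cs (g0 h hc hτ) (P X) X
  rw [hP, h.hθ.self, norm_real, Real.norm_eq_abs, sq_abs] at h1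
  have h2 := mul_le_mul_of_nonneg_left (g2 (τ := τ) h hc X) (g0 h hc hτ (P X))
  have h3 : 1 * qf θ X ≤ (c + τ) * qf (gg o θ c τ) (P X) :=
    cancel (t0 h X) (mul_nonneg hcτ.le (g0 h hc hτ _)) (by nlinarith)
  have h4 : qf θ X / (c + τ) ≤ qf (gg o θ c τ) (P X) := by
    rw [div_le_iff₀ hcτ]; linarith
  have h5 := mul_le_mul_of_nonneg_left h4 (show 0 ≤ τ * (1 + τ) by positivity)
  have h6 : τ * (1 + τ) / (c + τ) * qf θ X = τ * (1 + τ) * (qf θ X / (c + τ)) := by ring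
  nlinarith

theorem P_bound (h : Dat o θ T U B) (hc : B ≤ c) (hτ : 0 ≤ τ)
    (hP : ∀ Z Y, gg o θ c τ (P Z) Y = θ Z Y) (X : B2) :
    √(qf o (X - (τ : ℂ) • P X)) ≤ 2 * B * √(qf o X) := by
  have hB := h.one
  have h1 := h.ho.tri (o0 h) X ((-(τ : ℂ)) • P X)
  rw [neg_smul, ← sub_eq_add_neg, ← neg_smul, h.ho.qf_smul, norm_neg, norm_real,
    Real.norm_of_nonneg hτ] at h1
  have h2 := E_le h hc hτ hP X
  have h3 := g3 (c := c) h hτ (P X)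
  have h4 := h.hi X
  have h5 := o0 h (P X)
  have h6 := o0 h X
  have h7 : τ ^ 2 * qf o (P X) ≤ B ^ 2 * qf o X := by
    have h8 := mul_le_mul_of_nonneg_left h3 (show 0 ≤ 1 + τ by linarith)
    have h9 : τ ^ 2 ≤ (1 + τ) * (c + τ) := by nlinarith
    have h10 := mul_le_mul_of_nonneg_right h9 h5
    have h11 : B * qf o X ≤ B ^ 2 * qf o X := mul_le_mul_of_nonneg_right (by nlinarith) h6
    nlinarith
  have h8 := Real.sqrt_le_sqrt h7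
  rw [Real.sqrt_mul (sq_nonneg B), Real.sqrt_sq (by linarith : 0 ≤ B)] at h8
  nlinarith [mul_le_mul_of_nonneg_right hB (Real.sqrt_nonneg (qf o X))]

theorem Th_bound (h : Dat o θ T U B) (hc : B ≤ c) (hτ : 0 ≤ τ)
    (hΘ : ∀ X Z Y, gg o θ c τ (Θ X Z) Y = T X Z Y) (X Z Y V : B2) :
    τ ^ 2 * ‖gg o θ c τ (Θ X Z) (Θ Y V)‖
      ≤ τ * B ^ 2 * (√(qf o X) * √(qf o Z) * √(qf o Y) * √(qf o V)) := by
  have hB := h.one
  have h1 := (h.herm_gg c τ).cs (g0 h hc hτ) (Θ X Z) (Θ Y V)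
  have h2 := mul_le_mul (Th_le h hc hτ hΘ X Z) (Th_le h hc hτ hΘ Y V)
    (mul_nonneg hτ (g0 h hc hτ _)) (sq_nonneg _)
  have h3 : τ * ‖gg o θ c τ (Θ X Z) (Θ Y V)‖ ≤
      B ^ 2 * (√(qf o X) * √(qf o Z) * √(qf o Y) * √(qf o V)) := by
    refine (pow_le_pow_iff_left₀ (by positivity) (by positivity) two_ne_zero).1 ?_
    nlinarith [mul_le_mul_of_nonneg_left h1 (sq_nonneg τ)]
  nlinarith [mul_le_mul_of_nonneg_left h3 hτ]

theorem area_lo (h : Dat o θ T U B) (hc : B ≤ c) (hτ : 0 ≤ τ) (a b : E3)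
    (hn : (o b.1 a.1).re = 0) :
    (1 + τ) ^ 2 * (qf o a.1 * qf o b.1) + (1 + τ) * qf o (VV a b) + 2 * (b.2 * conj a.2).im ^ 2
      ≤ 2 * ar (hh o θ c τ) a b := by
  have hB := h.one
  have h1 := area_id h c τ a b
  have h2 := (h.herm_hh c τ).im_sq_le (h0 h hc hτ) a b
  have hq : ∀ X, qf (fun X Y => ((1 + τ : ℝ) : ℂ) * o X Y + ((0 : ℝ) : ℂ) * o X Y) X =
      (1 + τ) * qf o X := fun X => by
    simp only [qf, add_re, re_ofReal_mul]; ring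
  have hle : ∀ X, (1 + τ) * qf o X ≤ qf (gg o θ c τ) X := fun X =>
    (mul_le_mul_of_nonneg_right (by linarith) (o0 h X)).trans (g3 h hτ X)
  have h3 := (h.ho.lin h.ho (1 + τ) 0).ar_mono (h.herm_gg c τ)
    (fun X => by rw [hq]; exact mul_nonneg (by linarith) (o0 h X))
    (fun X => by rw [hq]; exact hle X) a.1 b.1
  rw [ar, hq, hq] at h3
  simp only [add_re, re_ofReal_mul, hn] at h3
  nlinarith [hle (VV a b), sq_nonneg (gg o θ c τ b.1 a.1).im]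

theorem area_hi (h : Dat o θ T U B) (hc : B ≤ c) (hτ : 0 ≤ τ) (a b : E3) :
    ar (hh o θ c τ) a b ≤ 2 * c ^ 2 * (1 + τ) ^ 2 * (qf o a.1 * qf o b.1)
      + c * (1 + τ) * qf o (VV a b) + 2 * (b.2 * conj a.2).im ^ 2 := by
  have hB := h.one
  have h1 := area_id h c τ a b
  have h2 := (h.herm_gg c τ).im_sq_le (g0 h hc hτ) a.1 b.1
  have h3 : ar (gg o θ c τ) a.1 b.1 ≤ qf (gg o θ c τ) a.1 * qf (gg o θ c τ) b.1 :=
    sub_le_self _ (sq_nonneg _)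
  have h4 := mul_le_mul (g4 h hc hτ a.1) (g4 h hc hτ b.1) (g0 h hc hτ _)
    ((g0 h hc hτ _).trans (g4 h hc hτ a.1))
  nlinarith [g4 h hc hτ (VV a b), sq_nonneg (hh o θ c τ b a).im]

end Vale.Agent.P250
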