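import Vale.Agent.P250.Base

open scoped ContDiff Topology ComplexConjugate
open Set Filter Complex Metric

noncomputable section

namespace Vale.Agent.P250

open Vale.Agent.P255

namespace NumX

theorem core1 {b c z w k p y2 : ℝ} (hb : 1 ≤ b) (hz0 : 0 ≤ z) (hz : z ≤ 1) (hw : 0 ≤ w)
    (hk : k ≤ c) (hc : 16 * b ≤ c) (hp : 0 ≤ p) (h1 : p ≤ y2) (h2 : y2 ≤ 4 * b * p) :
    z * p ≤ (c - k / 2) * p + (-1 / 4 + 3 / 4 * w - z / 3) * y2 := by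
  have hy : 0 ≤ y2 := hp.trans h1
  have h7 : 0 ≤ w * y2 := by positivity
  have h8 : z * y2 ≤ 1 * y2 := by gcongr
  have h9 : z * p ≤ 1 * p := by gcongr
  have h10 : k * p ≤ c * p := by gcongr
  have h11 : 16 * b * p ≤ c * p := by gcongr
  have h12 : 1 * p ≤ b * p := by gcongr
  linarith

theorem core2 {c z w k p y2 : ℝ} (hz0 : 0 ≤ z) (hz : z ≤ w / 4) (hk1 : 1 ≤ k) (hk : 8 * k ≤ w)
    (hc : 0 ≤ c) (hp : 0 ≤ p) (h1 : p ≤ y2) :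
    z * p ≤ (c - k / 2) * p + (-1 / 4 + 3 / 4 * w - z / 3) * y2 := by
  have h10 : z + k / 2 ≤ -1 / 4 + 3 / 4 * w - z / 3 := by linarith
  have h0 : 0 ≤ z + k / 2 := by linarith
  have h11 := mul_le_mul h10 h1 hp (h0.trans h10)
  have h12 : 0 ≤ c * p := by positivity
  linarith

theorem big {K c τ x0 ε : ℝ} (hK : 1 ≤ K) (hc : c = K * (8 * (K + 1) ^ 2)) (hτ : c < K * τ)
    (hx : x0 * (c + τ) = τ * (1 + τ)) (hx0 : 0 ≤ x0) (hε0 : 0 < ε) (hε : ε * (1 + c) = 1) :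
    ε ^ 2 * (1 + τ) ^ 2 ≤ τ * x0 / 4 ∧ 1 ≤ K * τ ∧ 8 * (K * τ) ≤ τ * x0 := by
  have h3 : 8 * (K + 1) ^ 2 ≤ τ := by
    rw [hc] at hτ
    exact le_of_mul_le_mul_left hτ.le (by linarith)
  have hK2 : K + 1 ≤ (K + 1) ^ 2 := by nlinarith
  have hτ1 : 1 ≤ τ := by linarith
  have h4 : 1 + τ ≤ (K + 1) * x0 := by
    have a : x0 * c ≤ x0 * (K * τ) := by gcongr
    have h5 : τ * (1 + τ) ≤ τ * ((K + 1) * x0) := by linarith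
    exact le_of_mul_le_mul_left h5 (by linarith)
  have h5 : τ * (1 + τ) ≤ τ * ((K + 1) * x0) := by gcongr
  have h6 : 8 * (K + 1) ≤ x0 := by
    have : (K + 1) * (8 * (K + 1)) ≤ (K + 1) * x0 := by linarith
    exact le_of_mul_le_mul_left this (by linarith)
  have hcK : 1 * (8 * (K + 1) ^ 2) ≤ c := by rw [hc]; gcongr
  have h7 : ε * (8 * (K + 1)) ≤ ε * (1 + c) := by gcongr; linarith
  have h8 : ε * 1 ≤ ε * (1 + c) := by gcongr; linarith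
  refine ⟨?_, by nlinarith, ?_⟩
  · have a0 : (1 + τ) * (1 + τ) ≤ (2 * τ) * (1 + τ) := by gcongr; linarith
    have a1 : (1 + τ) ^ 2 ≤ 2 * ((K + 1) * (τ * x0)) := by linarith
    have a2 : ε ^ 2 ≤ ε := by nlinarith
    have hw0 : 0 ≤ τ * x0 := by positivity
    calc ε ^ 2 * (1 + τ) ^ 2 ≤ ε * (2 * ((K + 1) * (τ * x0))) := by gcongr
      _ = ε * (8 * (K + 1)) * (τ * x0 / 4) := by ring
      _ ≤ 1 * (τ * x0 / 4) := by gcongr; linarith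
      _ = τ * x0 / 4 := one_mul _
  · have : τ * (8 * K) ≤ τ * x0 := by gcongr; linarith
    linarith

/-- the determinant inequality -/
theorem core {B c τ x0 p y2 : ℝ} (hB : 1 ≤ B) (hc : c = 72 * B ^ 4 * (8 * (72 * B ^ 4 + 1) ^ 2))
    (hτ : 0 ≤ τ) (hx : x0 * (c + τ) = τ * (1 + τ)) (hx0 : 0 ≤ x0) (hp : 0 ≤ p) (h1 : p ≤ y2)
    (h2 : y2 ≤ 4 * B ^ 2 * p) :
    (1 + c)⁻¹ ^ 2 * (1 + τ) ^ 2 * p ≤ (c - 72 * B ^ 4 * τ / 2) * p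
      + (-1 / 4 + 3 / 4 * (τ * x0) - (1 + c)⁻¹ ^ 2 * (1 + τ) ^ 2 / 3) * y2 := by
  have hB2 : 1 ≤ B ^ 2 := one_le_pow₀ hB
  have hB4 : B ^ 2 ≤ B ^ 4 := pow_le_pow_right₀ hB (by norm_num)
  generalize B ^ 4 = b4 at *
  generalize B ^ 2 = b2 at *
  have hc1 : 72 * b4 * 1 ≤ c := by
    have : (1 : ℝ) ≤ 8 * (72 * b4 + 1) ^ 2 := by nlinarith
    rw [hc]
    exact mul_le_mul_of_nonneg_left this (by linarith)
  have hε0 : 0 < (1 + c)⁻¹ := inv_pos.2 (by linarith)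
  have hε1 : (1 + c)⁻¹ * (1 + c) = 1 := inv_mul_cancel₀ (by linarith)
  generalize (1 + c)⁻¹ = ε at *
  by_cases hc' : 72 * b4 * τ ≤ c
  · have h3 : 1 * τ ≤ 72 * b4 * τ := by gcongr; linarith
    have h4 : ε * (1 + τ) ≤ ε * (1 + c) := by gcongr; linarith
    have h6 : ε ^ 2 * (1 + τ) ^ 2 ≤ 1 := by
      rw [← mul_pow]; exact pow_le_one₀ (by positivity) (by linarith)
    exact core1 hB2 (by positivity) h6 (by positivity) hc' (by linarith) hp h1 h2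
  · obtain ⟨a1, a2, a3⟩ := big (by linarith) hc (not_le.1 hc') hx hx0 hε0 hε1
    exact core2 (by positivity) a1 a2 a3 (by linarith) hp h1

theorem amgm {ε x e : ℝ} (h0 : 0 < ε) (h1 : ε ≤ 1 / 2) :
    -(4 * x * e) - 4 * x ^ 2 ≤ (1 + ε / 3) * e ^ 2 - ε * x ^ 2 := by
  have h1 : 0 ≤ (4 - ε) * ((1 + ε / 3) * e ^ 2 + (4 - ε) * x ^ 2 + 4 * x * e) := by
    have : 0 ≤ ε * (1 - ε) * e ^ 2 := by
      have : 0 ≤ 1 - ε := by linarith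
      positivity
    have h := sq_nonneg ((4 - ε) * x + 2 * e)
    linarith
  have h2 := nonneg_of_mul_nonneg_right h1 (by linarith : 0 < 4 - ε)
  linarith

theorem area {ε c S R x D : ℝ} (h0 : 0 < ε) (h1 : ε ≤ 1 / 2) (hc : 1 ≤ c) (hR : 0 ≤ R)
    (hD : D ≤ 2 * c ^ 2 * S + c * R + 2 * x ^ 2) :
    ε / (2 * c ^ 2) * D ≤ ε * S + R / 2 + ε * x ^ 2 := by
  have hc2 : 1 ≤ c ^ 2 := one_le_pow₀ hc
  have hcc : c ≤ c ^ 2 := by nlinarith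
  rw [div_mul_eq_mul_div, div_le_iff₀ (by positivity)]
  have g1 : ε * D ≤ ε * (2 * c ^ 2 * S + c * R + 2 * x ^ 2) := by gcongr
  have g2 : ε * (c * R) ≤ 1 * (c ^ 2 * R) := by gcongr; linarith
  have g3 : ε * (1 * x ^ 2) ≤ ε * (c ^ 2 * x ^ 2) := by gcongr
  linarith

theorem tb {b τ p q t : ℝ} (hb : 0 ≤ b) (hτ : 0 ≤ τ) (hp : 0 ≤ p) (hq : 0 ≤ q)
    (ht : t ^ 2 ≤ 64 * b * (τ * (1 + τ)) * q * p) : |t| ≤ (1 + τ) * q / 2 + 32 * b * τ * p := by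
  apply abs_le_of_sq_le_sq _ (by positivity)
  have := sq_nonneg ((1 + τ) * q / 2 - 32 * b * τ * p)
  linarith

theorem eb {τ x0 : ℝ} (hτ : 0 ≤ τ) (h1 : 0 ≤ x0) (h2 : x0 ≤ τ) :
    (1 + 2 * τ - x0) ^ 2 ≤ 4 * (1 + τ) ^ 2 ∧
    (1 + 2 * τ - x0) ^ 2 ≤ 1 + 4 * (τ * (1 + τ)) - 3 * (τ * x0) := by
  constructor <;> nlinarith

theorem sb {τ p : ℝ} (hτ : 0 ≤ τ) (hp : 0 ≤ p) :
    p ≤ (1 + τ) ^ 2 * p ∧ τ * p ≤ (1 + τ) ^ 2 * p ∧ τ * (1 + τ) * p ≤ (1 + τ) ^ 2 * p := by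
  have h1 : 0 ≤ τ * p := by positivity
  have h2 : 0 ≤ τ ^ 2 * p := by positivity
  refine ⟨?_, ?_, ?_⟩ <;> linarith

end NumX

open NumX

/-- the numerical core of the pinching estimate -/
theorem num_main (B : ℝ) (hB : 1 ≤ B) : ∃ c δ C : ℝ, B ≤ c ∧ 0 < δ ∧
    ∀ τ m v x Ao y2 u w e EV t D : ℝ, 0 ≤ τ → 0 ≤ m → 0 ≤ v →
      m ^ 2 ≤ Ao → Ao ≤ 4 * m ^ 2 → m ^ 2 ≤ y2 → y2 ≤ 4 * B ^ 2 * m ^ 2 →
      |u| ≤ 2 * B * m ^ 2 → |w| ≤ 2 * τ * B ^ 2 * m ^ 2 →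
      4 * e ^ 2 ≤ (1 + 2 * τ - τ * (1 + τ) / (c + τ)) ^ 2 * y2 →
      (1 + τ) * v ^ 2 ≤ EV → EV ≤ (1 + 2 * τ) * B * v ^ 2 →
      t ^ 2 ≤ 64 * B ^ 4 * (τ * (1 + τ)) * v ^ 2 * m ^ 2 →
      (1 + τ) ^ 2 * m ^ 2 + (1 + τ) * v ^ 2 + 2 * x ^ 2 ≤ 2 * D →
      D ≤ 2 * c ^ 2 * (1 + τ) ^ 2 * m ^ 2 + c * (1 + τ) * v ^ 2 + 2 * x ^ 2 →
      -C * D ≤ -c * Ao - τ * (1 + τ) * y2 - τ * u + w - 4 * x * e - EV - 4 * x ^ 2 + t ∧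
      -c * Ao - τ * (1 + τ) * y2 - τ * u + w - 4 * x * e - EV - 4 * x ^ 2 + t ≤ -δ * D := by
  obtain ⟨c, hc⟩ : ∃ c, c = 72 * B ^ 4 * (8 * (72 * B ^ 4 + 1) ^ 2) := ⟨_, rfl⟩
  have hB2 : 1 ≤ B ^ 2 := one_le_pow₀ hB
  have hB4 : B ^ 2 ≤ B ^ 4 := pow_le_pow_right₀ hB (by norm_num)
  have hB1 : B ≤ B ^ 2 := by nlinarith
  have hBc : B ^ 4 ≤ c := by rw [hc]; nlinarith [sq_nonneg (72 * B ^ 4 + 1)]
  have hc1 : 1 ≤ c := by linarith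
  obtain ⟨ε, hε⟩ : ∃ ε, ε = (1 + c)⁻¹ ^ 2 := ⟨_, rfl⟩
  have hε0 : 0 < ε := by rw [hε]; positivity
  have hε1 : ε ≤ 1 / 2 := by
    have h1 : (1 + c)⁻¹ ≤ 1 / 2 := by
      rw [one_div]; exact inv_anti₀ (by norm_num) (by linarith)
    have h2 : 0 < (1 + c)⁻¹ := by positivity
    rw [hε]
    generalize (1 + c)⁻¹ = r at *
    nlinarith
  refine ⟨c, ε / (2 * c ^ 2), 120 * c, by linarith, by positivity, ?_⟩
  intro τ m v x Ao y2 u w e EV t D hτ hm hv a1 a2 y1 y2' hu hw he e1 e2 ht d1 d2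
  obtain ⟨x0, hx0⟩ : ∃ x0, x0 = τ * (1 + τ) / (c + τ) := ⟨_, rfl⟩
  have hx : x0 * (c + τ) = τ * (1 + τ) := by rw [hx0]; field_simp
  have hx1 : 0 ≤ x0 := by rw [hx0]; positivity
  have hx2 : x0 ≤ τ := by
    rw [hx0, div_le_iff₀ (by positivity)]; gcongr
  rw [← hx0] at he
  have hp0 : 0 ≤ m ^ 2 := sq_nonneg m
  have hq0 : 0 ≤ v ^ 2 := sq_nonneg v
  generalize m ^ 2 = p at *
  generalize v ^ 2 = q at *
  have hy0 : 0 ≤ y2 := hp0.trans y1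
  obtain ⟨u1, u2⟩ := abs_le.1 hu
  obtain ⟨w1, w2⟩ := abs_le.1 hw
  obtain ⟨t1, t2⟩ := abs_le.1 (tb (by positivity) hτ hp0 hq0 ht)
  obtain ⟨hE, hE'⟩ := eb hτ hx1 hx2
  have hτp : 0 ≤ τ * p := by positivity
  have b1 : B * (τ * p) ≤ B ^ 4 * (τ * p) := by gcongr; linarith
  have b2 : B ^ 2 * (τ * p) ≤ B ^ 4 * (τ * p) := by gcongr
  have u3 : τ * u ≤ τ * (2 * B * p) := by gcongr
  have u4 : τ * -(2 * B * p) ≤ τ * u := by gcongr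
  obtain ⟨s1, s2, s3⟩ := sb hτ hp0
  have hS0 : 0 ≤ (1 + τ) ^ 2 * p := hp0.trans s1
  have hx2' : 0 ≤ x ^ 2 := sq_nonneg x
  have hR : 0 ≤ (1 + τ) * q := by positivity
  constructor
  · have c1 : c * Ao ≤ c * (4 * ((1 + τ) ^ 2 * p)) := by gcongr; linarith
    have c2 : τ * (1 + τ) * y2 ≤ τ * (1 + τ) * (4 * B ^ 2 * p) := by gcongr
    have c2' : B ^ 2 * (τ * (1 + τ) * p) ≤ c * ((1 + τ) ^ 2 * p) := by gcongr; linarith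
    have c3 : B ^ 4 * (τ * p) ≤ c * ((1 + τ) ^ 2 * p) := by gcongr
    have c4 : (1 + 2 * τ - x0) ^ 2 * y2 ≤ 4 * (1 + τ) ^ 2 * (4 * B ^ 2 * p) := by gcongr
    have c4' : B ^ 2 * ((1 + τ) ^ 2 * p) ≤ c * ((1 + τ) ^ 2 * p) := by gcongr; linarith
    have c5 : (1 + 2 * τ) * B * q ≤ (2 * (1 + τ)) * c * q := by gcongr <;> linarith
    have c6 := sq_nonneg (x - e)
    have c7 : 1 * ((1 + τ) * q) ≤ c * ((1 + τ) * q) := by gcongr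
    have c8 : 1 * x ^ 2 ≤ c * x ^ 2 := by gcongr
    have c9 : c * ((1 + τ) ^ 2 * p + (1 + τ) * q + 2 * x ^ 2) ≤ c * (2 * D) := by gcongr
    have c10 : 0 ≤ c * ((1 + τ) ^ 2 * p) := by positivity
    linarith
  · have k := core hB hc hτ hx hx1 hp0 y1 y2'
    rw [← hε] at k
    have f1 := amgm (x := x) (e := e) hε0 hε1
    have f2 : 4 * e ^ 2 ≤ (1 + 4 * (τ * (1 + τ)) - 3 * (τ * x0)) * y2 :=
      he.trans (mul_le_mul_of_nonneg_right hE' hy0)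
    have f3 : ε * e ^ 2 ≤ ε * ((1 + τ) ^ 2 * y2) := by
      have : (1 + 2 * τ - x0) ^ 2 * y2 ≤ 4 * (1 + τ) ^ 2 * y2 := by gcongr
      gcongr; linarith
    have f4 : c * p ≤ c * Ao := by gcongr
    have f5 := area (S := (1 + τ) ^ 2 * p) (x := x) (D := D) hε0 hε1 hc1 hR (by linarith)
    linarith

end Vale.Agent.P250
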