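import Vale.Agent.P250.AlgB
import Vale.Agent.P250.Num

open scoped ContDiff Topology ComplexConjugate
open Set Filter Complex Metric

noncomputable section

namespace Vale.Agent.P250

open Vale.Agent.P255

theorem alg_main (B : ℝ) (hB : 1 ≤ B) : ∃ c δ C : ℝ, 1 ≤ c ∧ 0 < δ ∧
    ∀ (o θ : B2 → B2 → ℂ) (T : B2 → B2 → B2 → ℂ) (U : B2 → B2 → B2 → B2 → ℂ) (τ : ℝ) (μ : ℂ),
      Dat o θ T U B → 0 ≤ τ → ‖μ‖ ^ 2 = τ * (1 + τ) → ∀ a b : E3, (o b.1 a.1).re = 0 →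
      ∀ Paa Pab Pbb : B2, (∀ Y, gg o θ c τ Paa Y = PP θ T τ μ a a Y) →
      (∀ Y, gg o θ c τ Pab Y = PP θ T τ μ a b Y) → (∀ Y, gg o θ c τ Pbb Y = PP θ T τ μ b b Y) →
      -C * ar (hh o θ c τ) a b ≤ (R0 o θ T U c τ μ a b a b + gg o θ c τ Pab Pab
        - R0 o θ T U c τ μ b b a a - gg o θ c τ Pbb Paa).re ∧
      (R0 o θ T U c τ μ a b a b + gg o θ c τ Pab Pab
        - R0 o θ T U c τ μ b b a a - gg o θ c τ Pbb Paa).re ≤ -δ * ar (hh o θ c τ) a b := by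
  obtain ⟨c, δ, C, hc, hδ, H⟩ := num_main B hB
  refine ⟨c, δ, C, hB.trans hc, hδ, ?_⟩
  intro o θ T U τ μ h hτ hμ a b hn Paa Pab Pbb haa hab hbb
  have hc0 : 0 < c := by linarith
  choose P hP using fun Z => (h.herm_gg c τ).solve (h.gg_pos hc0 hτ) (θ Z) (h.hθ.add_right Z)
    (fun c Y => h.hθ.smul_right c Z Y)
  choose Θ hΘ using fun X Z => (h.herm_gg c τ).solve (h.gg_pos hc0 hτ) (T X Z) (h.add3 X Z)
    (fun c Y => h.smul3 c X Z Y)
  rw [alg_id h hc0 hτ hμ hP hΘ a b haa hab hbb]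
  have o0 := AlgBX.o0 h
  have t0 := AlgBX.t0 h
  have sa := Real.sqrt_nonneg (qf o a.1)
  have sb := Real.sqrt_nonneg (qf o b.1)
  have sv := Real.sqrt_nonneg (qf o (VV a b))
  have hm : (√(qf o a.1) * √(qf o b.1)) ^ 2 = qf o a.1 * qf o b.1 := by
    rw [mul_pow, Real.sq_sqrt (o0 _), Real.sq_sqrt (o0 _)]
  have hv : √(qf o (VV a b)) ^ 2 = qf o (VV a b) := Real.sq_sqrt (o0 _)
  have hao : ar o a.1 b.1 = qf o a.1 * qf o b.1 := by rw [ar, hn]; ring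
  have hx0 : τ * (1 + τ) / (c + τ) ≤ τ := by
    rw [div_le_iff₀ (by linarith)]
    nlinarith
  have hx1 : 0 ≤ τ * (1 + τ) / (c + τ) := by positivity
  refine H τ (√(qf o a.1) * √(qf o b.1)) √(qf o (VV a b)) (b.2 * conj a.2).im _ _ _ _
    (EE θ P τ b.1 a.1).im _ _ _ hτ (by positivity) sv ?_ ?_ ?_ ?_ ?_ ?_ ?_ ?_ ?_ ?_ ?_ ?_
  · rw [hm, hao]
    nlinarith [sq_nonneg (o b.1 a.1).im]
  · have := h.ho.im_sq_le o0 a.1 b.1
    rw [hm]
    linarith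
  · have := h.ho.ar_mono h.hθ o0 h.lo a.1 b.1
    rw [hm]
    nlinarith [sq_nonneg (θ b.1 a.1).im]
  · have h1 := h.hθ.im_sq_le t0 a.1 b.1
    have h2 : ar θ a.1 b.1 ≤ qf θ a.1 * qf θ b.1 := sub_le_self _ (sq_nonneg _)
    have h3 := mul_le_mul (h.hi a.1) (h.hi b.1) (t0 _) ((t0 _).trans (h.hi a.1))
    rw [hm]
    nlinarith
  · refine (abs_re_le_norm _).trans ((norm_sub_le _ _).trans ?_)
    nlinarith [h.bU a.1 b.1 a.1 b.1, h.bU b.1 b.1 a.1 a.1]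
  · rw [abs_mul, abs_of_nonneg (sq_nonneg τ)]
    refine (mul_le_mul_of_nonneg_left ((abs_re_le_norm _).trans (norm_sub_le _ _))
      (sq_nonneg τ)).trans ?_
    nlinarith [Th_bound h hc hτ hΘ a.1 b.1 a.1 b.1, Th_bound h hc hτ hΘ b.1 b.1 a.1 a.1]
  · refine h.hθ.half (h.herm_EE hP) t0 (by linarith) (fun X => ?_) (EE_hi h hc hτ hP) a.1 b.1
    exact (mul_le_mul_of_nonneg_right (by linarith) (t0 X)).trans (EE_lo h hc hτ hP X)
  · rw [hv]
    exact (mul_le_mul_of_nonneg_left (h.lo _) (by linarith)).trans (EE_lo h hc hτ hP _)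
  · rw [hv, mul_assoc]
    exact (EE_hi h hc hτ hP _).trans (mul_le_mul (by linarith) (h.hi _) (t0 _) (by linarith))
  · have hB0 : 0 ≤ B := by linarith
    have h1 := (h.bT (VV a b) b.1 (a.1 - (τ : ℂ) • P a.1)).trans
      (mul_le_mul_of_nonneg_left (P_bound h hc hτ hP a.1) (by positivity))
    have h2 := (h.bT (VV a b) a.1 (b.1 - (τ : ℂ) • P b.1)).trans
      (mul_le_mul_of_nonneg_left (P_bound h hc hτ hP b.1) (by positivity))
    have h3 := (norm_sub_le _ _).trans (add_le_add h1 h2)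
    have h4 := (abs_re_le_norm (conj μ * (T (VV a b) b.1 (a.1 - (τ : ℂ) • P a.1)
      - T (VV a b) a.1 (b.1 - (τ : ℂ) • P b.1))))
    rw [norm_mul, RCLike.norm_conj] at h4
    have h5 := pow_le_pow_left₀ (abs_nonneg _)
      (h4.trans (mul_le_mul_of_nonneg_left h3 (norm_nonneg μ))) 2
    rw [sq_abs] at h5
    rw [← hμ]
    nlinarith
  · rw [hm, hv]
    exact area_lo h hc hτ a b hn
  · rw [hm, hv]
    exact area_hi h hc hτ a b

end Vale.Agent.P250
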