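import Vale.Agent.P255.LocA

/-! Definitions shared by all files of P250 (nothing to prove here). See notes/P250.md. -/

open scoped ContDiff Topology ComplexConjugate
open Set Filter Complex

noncomputable section

namespace Vale.Agent.P250

abbrev B2 : Type := ℂ × ℂ
abbrev E3 : Type := (ℂ × ℂ) × ℂ

section Wirt
variable {E : Type} [NormedAddCommGroup E] [NormedSpace ℝ E] [NormedSpace ℂ E]

/-- Wirtinger operators: `ε = -I` gives `∂_u`, `ε = I` gives `∂bar_u`. -/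
def W (ε : ℂ) (u : E) (f : E → ℂ) (y : E) : ℂ :=
  (fderiv ℝ f y u + ε * fderiv ℝ f y (I • u)) / 2

abbrev dz (u : E) (f : E → ℂ) : E → ℂ := W (-I) u f
abbrev db (u : E) (f : E → ℂ) : E → ℂ := W I u f

/-- a real function viewed as a complex one -/
def cx (f : E → ℝ) : E → ℂ := fun y => (f y : ℂ)

def j2 (f : E → ℂ) (y X Y : E) : ℂ := dz X (db Y f) y
def j3 (f : E → ℂ) (y X Z Y : E) : ℂ := dz X (dz Z (db Y f)) y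
def j4 (f : E → ℂ) (y X Z Y V : E) : ℂ := dz X (dz Z (db Y (db V f))) y

end Wirt

/-- second directional derivative -/
def D2 {E : Type} [NormedAddCommGroup E] [NormedSpace ℝ E] (g : E → ℝ) (y a b : E) : ℝ :=
  fderiv ℝ (fun x => fderiv ℝ g x b) y a

/-- multiplication by `I` as a real linear map -/
def Jm : E3 →L[ℝ] E3 := (I • ContinuousLinearMap.id ℂ E3).restrictScalars ℝ

/-- the metric with potential `Φ`: `D²Φ(u,v) + D²Φ(iu,iv)` -/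
def pot (Φ : E3 → ℝ) (y : E3) : E3 →L[ℝ] E3 →L[ℝ] ℝ :=
  fderiv ℝ (fderiv ℝ Φ) y + (fderiv ℝ (fderiv ℝ Φ) y).bilinearComp Jm Jm

/-! ### Hermitian forms -/

structure Herm {H : Type} [AddCommGroup H] [Module ℂ H] (k : H → H → ℂ) : Prop where
  add : ∀ X X' Y, k (X + X') Y = k X Y + k X' Y
  smul : ∀ (c : ℂ) X Y, k (c • X) Y = c * k X Y
  cj : ∀ X Y, k Y X = conj (k X Y)

def qf {H : Type} (k : H → H → ℂ) (X : H) : ℝ := (k X X).re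
def ar {H : Type} (k : H → H → ℂ) (a b : H) : ℝ := qf k a * qf k b - (k b a).re ^ 2

/-- pointwise algebraic data on the horizontal space -/
structure Dat (o θ : B2 → B2 → ℂ) (T : B2 → B2 → B2 → ℂ) (U : B2 → B2 → B2 → B2 → ℂ)
    (B : ℝ) : Prop where
  ho : Herm o
  hθ : Herm θ
  pos : ∀ X, X ≠ 0 → 0 < qf o X
  one : 1 ≤ B
  lo : ∀ X, qf o X ≤ qf θ X
  hi : ∀ X, qf θ X ≤ B * qf o X
  add1 : ∀ X X' Z Y, T (X + X') Z Y = T X Z Y + T X' Z Y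
  smul1 : ∀ (c : ℂ) X Z Y, T (c • X) Z Y = c * T X Z Y
  sym : ∀ X Z Y, T X Z Y = T Z X Y
  add3 : ∀ X Z Y Y', T X Z (Y + Y') = T X Z Y + T X Z Y'
  smul3 : ∀ (c : ℂ) X Z Y, T X Z (c • Y) = conj c * T X Z Y
  bT : ∀ X Z Y, ‖T X Z Y‖ ≤ B * √(qf o X) * √(qf o Z) * √(qf o Y)
  bU : ∀ X Z Y V, ‖U X Z Y V‖ ≤ B * √(qf o X) * √(qf o Z) * √(qf o Y) * √(qf o V)

def gg (o θ : B2 → B2 → ℂ) (c τ : ℝ) (X Y : B2) : ℂ := c * o X Y + τ * θ X Y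
/-- the full metric; second components are normalised vertical components -/
def hh (o θ : B2 → B2 → ℂ) (c τ : ℝ) (X Y : E3) : ℂ := gg o θ c τ X.1 Y.1 + X.2 * conj Y.2
def PP (θ : B2 → B2 → ℂ) (T : B2 → B2 → B2 → ℂ) (τ : ℝ) (μ : ℂ) (X Z : E3) (Y : B2) : ℂ :=
  τ * T X.1 Z.1 Y + μ * (X.2 * θ Z.1 Y + Z.2 * θ X.1 Y)
def R0 (o θ : B2 → B2 → ℂ) (T : B2 → B2 → B2 → ℂ) (U : B2 → B2 → B2 → B2 → ℂ) (c τ : ℝ) (μ : ℂ)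
    (X Z Y V : E3) : ℂ :=
  -(c * (o X.1 Y.1 * o Z.1 V.1 + o X.1 V.1 * o Z.1 Y.1)) - τ * U X.1 Z.1 Y.1 V.1
  - τ * (1 + τ) * (θ X.1 Y.1 * θ Z.1 V.1 + θ X.1 V.1 * θ Z.1 Y.1)
  - (μ * X.2 * conj (T Y.1 V.1 Z.1) + μ * Z.2 * conj (T Y.1 V.1 X.1)
      + conj μ * conj Y.2 * T X.1 Z.1 V.1 + conj μ * conj V.2 * T X.1 Z.1 Y.1)
  - (1 + 2 * τ) * (θ X.1 Y.1 * Z.2 * conj V.2 + θ X.1 V.1 * Z.2 * conj Y.2
      + θ Z.1 Y.1 * X.2 * conj V.2 + θ Z.1 V.1 * X.2 * conj Y.2)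
  - 2 * X.2 * Z.2 * conj Y.2 * conj V.2
/-- `V = conj α • b - conj β • a` -/
def VV (a b : E3) : B2 := conj a.2 • b.1 - conj b.2 • a.1
/-- `E' = (1+2τ) θ - τ(1+τ) θ g⁻¹ θ` -/
def EE (θ : B2 → B2 → ℂ) (P : B2 → B2) (τ : ℝ) (X Y : B2) : ℂ :=
  (1 + 2 * τ : ℝ) * θ X Y + (-(τ * (1 + τ)) : ℝ) * θ X (P Y)

/-! ### the base domain -/

def rho (q : B2) : ℝ := q.2.im - q.1.im ^ 2
def SS : Set B2 := {q | 0 < rho q}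
def lam (q X : B2) : ℂ := X.2 - 2 * (q.1.im : ℂ) * X.1
def om (q X Y : B2) : ℂ :=
  X.1 * conj Y.1 / (2 * (rho q : ℂ)) + lam q X * conj (lam q Y) / (4 * (rho q : ℂ) ^ 2)
def nw (q X : B2) : ℝ := √(qf (om q) X)
def pp (q X : B2) : ℂ := I * lam q X / (2 * (rho q : ℂ))
def G0 (q X Z : B2) : B2 := pp q Z • X + pp q X • Z + (0, I * X.1 * Z.1)
def phi0 (q : B2) : ℝ := -Real.log (rho q)

/-- admissible weights -/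
structure Adm (φ : B2 → ℝ) (B : ℝ) : Prop where
  one : 1 ≤ B
  sm : ContDiffOn ℝ ∞ φ SS
  lo : ∀ q ∈ SS, ∀ X, qf (om q) X ≤ qf (j2 (cx φ) q) X
  hi : ∀ q ∈ SS, ∀ X, qf (j2 (cx φ) q) X ≤ B * qf (om q) X
  b3 : ∀ q ∈ SS, ∀ X Z Y, ‖j3 (cx φ) q X Z Y‖ ≤ B * nw q X * nw q Z * nw q Y
  b4 : ∀ q ∈ SS, ∀ X Z Y V, ‖j4 (cx φ) q X Z Y V‖ ≤ B * nw q X * nw q Z * nw q Y * nw q V

def TT (φ : B2 → ℝ) (q X Z Y : B2) : ℂ := j3 (cx φ) q X Z Y - j2 (cx φ) q (G0 q X Z) Y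
def UU (φ : B2 → ℝ) (q X Z Y V : B2) : ℂ :=
  j4 (cx φ) q X Z Y V - TT φ q X Z (G0 q Y V) - conj (TT φ q Y V (G0 q X Z))
    - j2 (cx φ) q (G0 q X Z) (G0 q Y V)

/-! ### the disc bundle -/

def rr (φ : B2 → ℝ) (y : E3) : ℝ := ‖y.2‖ ^ 2 * Real.exp (φ y.1)
def DD (φ : B2 → ℝ) : Set E3 := {y | y.1 ∈ SS ∧ rr φ y < 1}
def Phi (φ : B2 → ℝ) (c : ℝ) (y : E3) : ℝ := c * phi0 y.1 - Real.log (1 - rr φ y)
def ss (φ : B2 → ℝ) (y : E3) : ℝ := (1 - rr φ y)⁻¹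
def ta (φ : B2 → ℝ) (y : E3) : ℝ := rr φ y * ss φ y
def ka (φ : B2 → ℝ) (y : E3) : ℝ := Real.exp (φ y.1 / 2)
def nn (φ : B2 → ℝ) (y X : E3) : ℂ :=
  (ss φ y : ℂ) * (ka φ y : ℂ) * (X.2 + y.2 * dz X.1 (cx φ) y.1)
def mu (φ : B2 → ℝ) (y : E3) : ℂ := (ss φ y : ℂ) * (ka φ y : ℂ) * conj y.2
def mm (φ : B2 → ℝ) (y X Z : E3) : ℂ :=
  2 * (ka φ y : ℂ) * conj y.2 * nn φ y X * nn φ y Z + (ss φ y : ℂ) * (ka φ y : ℂ) *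
    (dz Z.1 (cx φ) y.1 * X.2 + Z.2 * dz X.1 (cx φ) y.1
      + y.2 * (dz X.1 (cx φ) y.1 * dz Z.1 (cx φ) y.1 + dz X.1 (dz Z.1 (cx φ)) y.1))
/-- the exhaustion function -/
def Psi (φ : B2 → ℝ) (y : E3) : ℝ :=
  phi0 y.1 + Real.log (‖y.1.2 + I * y.1.1 ^ 2 / 2 + I‖ ^ 2) - Real.log (1 - rr φ y)

/-! ### the weight -/

structure U0 (u : ℂ → ℝ) : Prop where
  sm : ContDiff ℝ ∞ u
  per : ∀ w, u (w + 1 / 2) = u w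
  van : ∀ w : ℂ, 1 / 2 ≤ w.im → u w = 0
  sh : ∀ w : ℂ, 0 ≤ w.im → 0 ≤ (j2 (cx u) w 1 1).re
  neg : u (1 / 4 + I / 4) < 0

structure U1 (u : ℂ → ℝ) (C : ℝ) : Prop where
  one : 1 ≤ C
  b0 : ∀ w : ℂ, 0 ≤ w.im → |u w| ≤ C
  b2 : ∀ w : ℂ, 0 ≤ w.im → ‖j2 (cx u) w 1 1‖ ≤ C
  b3 : ∀ w : ℂ, 0 ≤ w.im → ‖j3 (cx u) w 1 1 1‖ ≤ C
  b4 : ∀ w : ℂ, 0 ≤ w.im → ‖j4 (cx u) w 1 1 1 1‖ ≤ C
  tay : ∀ c : ℂ, 0 ≤ c.im → ∃ γ : ℂ, ∀ s : ℂ, 0 ≤ (c + s).im →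
    u (c + s) ≤ u c + (γ * s).re + C * ‖s‖ ^ 2

def ell (a : ℝ) (q : B2) : ℂ := q.2 - 2 * (a : ℂ) * q.1 + I * (a : ℂ) ^ 2
def chi0 (u : ℂ → ℝ) (q : B2) : ℝ := u (ell (8 * (round (q.1.im / 8) : ℤ)) q)
def dil (m : ℝ) (q : B2) : B2 := ((m : ℂ) * q.1, (m : ℂ) ^ 2 * q.2)
def chi (u : ℂ → ℝ) (m : ℝ) (q : B2) : ℝ := ∑' n : ℕ, chi0 u (dil (m ^ n) q)
def phi (u : ℂ → ℝ) (m l : ℝ) (q : B2) : ℝ := phi0 q + l * chi u m q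
def XX (u : ℂ → ℝ) (η : ℝ) (n : ℕ) (q : B2) : ℝ :=
  ∑ i ∈ Finset.range (n + 1), chi0 u (dil (η ^ i) q)

/-- holomorphic along complex lines in `SS` -/
def LH (J : B2 → ℂ) : Prop :=
  ∀ q v : B2, DifferentiableOn ℂ (fun s : ℂ => J (q + s • v)) {s | q + s • v ∈ SS}

/-- the inductive bound on the level `rho = σ²` -/
def Lev (X : B2 → ℝ) (l : ℝ) (J : B2 → ℂ) (A c₀ σ : ℝ) : Prop :=
  (∀ q, rho q = σ ^ 2 → ‖J q‖ ≤ Real.exp (l * (X q - A))) ∧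
  ∀ q, rho q = σ ^ 2 → (∃ j : ℤ, q.1.im = 8 * j * σ) → ‖J q‖ ≤ Real.exp (l * (X q - A - c₀))

end Vale.Agent.P250
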