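import Vale.Agent.P250.RhoA

open scoped ContDiff Topology ComplexConjugate
open Set Filter Complex Metric

noncomputable section

namespace Vale.Agent.P250

open Vale.Agent.P255

variable {u : ℂ → ℝ} {m : ℝ} {q : B2}

theorem chi0_eq (h : U0 u) (hq : 0 ≤ rho q) (j : ℤ) (hj : |q.1.im - 8 * j| ≤ 7) :
    chi0 u q = u (ell (8 * j) q) := by
  unfold chi0
  obtain ⟨k, hk⟩ : ∃ k : ℤ, k = round (q.1.im / 8) := ⟨_, rfl⟩
  have h1 : |q.1.im / 8 - k| ≤ 1 / 2 := by rw [hk]; exact abs_sub_round _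
  rw [← hk]
  by_cases hkj : k = j
  · rw [hkj]
  have h2 : (1 : ℝ) ≤ |(k : ℝ) - j| := by
    have : (1 : ℤ) ≤ |k - j| := Int.one_le_abs (sub_ne_zero.2 hkj)
    exact_mod_cast this
  have h3 := abs_le.1 h1
  have h4 := abs_le.1 hj
  have h5 : 1 ≤ (q.1.im - 8 * k) ^ 2 ∧ 1 ≤ (q.1.im - 8 * j) ^ 2 := by
    rcases le_abs.1 h2 with h6 | h6
    · constructor <;> nlinarith [h3.1, h3.2, h4.1, h4.2]
    · constructor <;> nlinarith [h3.1, h3.2, h4.1, h4.2]
  rw [h.van _ (by rw [im_ell]; linarith [h5.1]), h.van _ (by rw [im_ell]; linarith [h5.2])]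

theorem chi0_zero (h : U0 u) (hq : 1 / 2 ≤ rho q) : chi0 u q = 0 := by
  unfold chi0
  exact h.van _ (by rw [im_ell]; exact hq.trans (le_add_of_nonneg_right (sq_nonneg _)))

theorem chi0_abs {C : ℝ} (h : U1 u C) (hq : 0 ≤ rho q) : |chi0 u q| ≤ C := by
  unfold chi0
  exact h.b0 _ (by rw [im_ell]; positivity)

theorem chi_eq_sum (h : U0 u) (hm : 1 ≤ m) (N : ℕ) (hN : 1 / 2 ≤ m ^ (2 * N) * rho q) :
    chi u m q = ∑ n ∈ Finset.range N, chi0 u (dil (m ^ n) q) := by
  unfold chi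
  refine tsum_eq_sum fun n hn => chi0_zero h ?_
  rw [Finset.mem_range, not_lt] at hn
  have hp : 0 < m ^ (2 * N) := by positivity
  have hr : 0 < rho q := by
    by_contra hc
    have := mul_nonpos_of_nonneg_of_nonpos hp.le (not_lt.1 hc)
    linarith
  rw [rho_dil, ← pow_mul, mul_comm n 2]
  exact hN.trans (mul_le_mul_of_nonneg_right (pow_le_pow_right₀ hm (by omega)) hr.le)

theorem chi_local (h : U0 u) (hm : 2 ≤ m) (hq : q ∈ SS) : ∃ (N : ℕ) (j : ℕ → ℤ),
    chi u m =ᶠ[𝓝 q] fun x => ∑ n ∈ Finset.range N, u (ell (8 * j n) (dil (m ^ n) x)) := by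
  have hq' : 0 < rho q := hq
  have hc : Continuous rho := by unfold rho; fun_prop
  obtain ⟨N, hN⟩ := pow_unbounded_of_one_lt (1 / rho q) (by linarith : (1 : ℝ) < m)
  refine ⟨N, fun n => round ((dil (m ^ n) q).1.im / 8), ?_⟩
  have h1 : ∀ᶠ x in 𝓝 q, rho q / 2 < rho x :=
    hc.continuousAt.eventually (lt_mem_nhds (by linarith))
  have h2 : ∀ᶠ x in 𝓝 q, ∀ n ∈ Finset.range N,
      |(dil (m ^ n) x).1.im - 8 * (round ((dil (m ^ n) q).1.im / 8) : ℤ)| < 7 := by
    rw [Filter.eventually_all_finset]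
    intro n _
    have hc2 : Continuous fun x : B2 =>
        |(dil (m ^ n) x).1.im - 8 * (round ((dil (m ^ n) q).1.im / 8) : ℤ)| := by
      unfold dil; fun_prop
    refine hc2.continuousAt.eventually (gt_mem_nhds ?_)
    have h3 := abs_le.1 (abs_sub_round ((dil (m ^ n) q).1.im / 8))
    rw [abs_lt]
    constructor <;> linarith [h3.1, h3.2]
  filter_upwards [h1, h2] with x hx1 hx2
  have hx0 : 0 < rho x := by linarith
  rw [chi_eq_sum h (by linarith) N]
  · refine Finset.sum_congr rfl fun n hn => chi0_eq h ?_ _ (hx2 n hn).le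
    rw [rho_dil]; positivity
  · have h3 : m ^ N ≤ m ^ (2 * N) := pow_le_pow_right₀ (by linarith) (by omega)
    rw [div_lt_iff₀ hq'] at hN
    have h4 : 0 < m ^ N := by positivity
    nlinarith

theorem chi_smooth (h : U0 u) (hm : 2 ≤ m) : ContDiffOn ℝ ∞ (chi u m) SS := by
  intro q hq
  obtain ⟨N, j, hj⟩ := chi_local h hm hq
  refine (ContDiffAt.congr_of_eventuallyEq ?_ hj).contDiffWithinAt
  refine ContDiff.contDiffAt (ContDiff.sum fun n _ => h.sm.comp ?_)
  unfold ell dil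
  fun_prop

theorem XX_eq (h : U0 u) {η : ℝ} (h0 : 0 < η) (h1 : η ≤ 1) (n : ℕ) (hq : η ^ 2 ≤ rho q) :
    XX u η n q = chi u η⁻¹ (dil (η ^ n) q) := by
  have hm : 1 ≤ η⁻¹ := (one_le_inv₀ h0).2 h1
  rw [chi_eq_sum h hm (n + 1)]
  · unfold XX
    rw [← Finset.sum_range_reflect]
    refine Finset.sum_congr rfl fun i hi => ?_
    rw [Finset.mem_range] at hi
    rw [dil_dil]
    congr 2
    obtain ⟨k, rfl⟩ : ∃ k, n = i + k := ⟨n - i, by omega⟩
    have : i + k + 1 - 1 - i = k := by omega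
    rw [this, pow_add, inv_pow]
    field_simp
  · rw [rho_dil]
    have e : η⁻¹ ^ (2 * (n + 1)) * ((η ^ n) ^ 2 * rho q) = rho q / η ^ 2 := by
      rw [inv_pow, ← pow_mul, show 2 * (n + 1) = n * 2 + 2 by ring, pow_add]
      field_simp
    rw [e, le_div_iff₀ (by positivity)]
    nlinarith [sq_nonneg η]

theorem XX_abs {C : ℝ} (h : U1 u C) (η : ℝ) (n : ℕ) (hq : 0 ≤ rho q) :
    |XX u η n q| ≤ (n + 1) * C := by
  unfold XX
  refine (Finset.abs_sum_le_sum_abs _ _).trans ?_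
  have := Finset.sum_le_card_nsmul (Finset.range (n + 1)) (fun i => |chi0 u (dil (η ^ i) q)|) C
    (fun i _ => chi0_abs h (by rw [rho_dil]; positivity))
  simpa using this

theorem LH.dil {J : B2 → ℂ} (h : LH J) (hm : 0 < m) : LH fun q => J (dil m q) := by
  intro q v
  have h1 := h (Vale.Agent.P250.dil m q) (Vale.Agent.P250.dil m v)
  simp only [dil_add_smul]
  refine h1.mono fun s hs => ?_
  have hs' : 0 < rho (q + s • v) := hs
  show 0 < rho _
  rw [← dil_add_smul, rho_dil]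
  positivity

end Vale.Agent.P250
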