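import Vale.Agent.P250.OdeA

open scoped ContDiff Topology ComplexConjugate
open Set Filter Complex Metric

noncomputable section

namespace Vale.Agent.P250

open Vale.Agent.P255

namespace OdeBX

open LocX

variable {E : Type} [NormedAddCommGroup E] [NormedSpace ℝ E] [FiniteDimensional ℝ E]
  {G : E → E →L[ℝ] E →L[ℝ] ℝ} {U : Set E}

theorem energy (h : LM G U) {z : ℝ → E × E} {σ t : ℝ} (hz : (z t).1 ∈ U)
    (hd : HasDerivAt z (σ • spray G (z t)) t) :
    HasDerivAt (fun s => G (z s).1 (z s).2 (z s).2) 0 t := by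
  have h1 := bil_deriv (dAt h.op h.sm hz) (d_fst hd) (d_snd hd) (d_snd hd)
  refine h1.congr_deriv ?_
  simp only [spray, Prod.smul_mk, map_neg, neg_apply, map_smul, smul_apply, smul_eq_mul]
  rw [compat h hz]
  ring

theorem coer (h : LM G U) {K : Set E} (hK : IsCompact K) (hKU : K ⊆ U) :
    ∃ c > 0, ∀ y ∈ K, ∀ a, c * ‖a‖ ^ 2 ≤ G y a a := by
  have : ProperSpace E := FiniteDimensional.proper ℝ E
  have hc : ContinuousOn (fun q : E × E => G q.1 q.2 q.2) (K ×ˢ sphere (0 : E) 1) :=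
    (((h.sm.continuousOn.comp continuousOn_fst fun q hq => hKU hq.1).clm_apply
      continuousOn_snd).clm_apply continuousOn_snd)
  obtain ⟨c, hc0, hcs⟩ := (hK.prod (isCompact_sphere (0 : E) 1)).exists_forall_le' hc (a := 0)
    (fun q hq => h.pos _ (hKU hq.1) _ fun h0 => by
      have := hq.2
      rw [h0] at this
      simp at this)
  refine ⟨c, hc0, fun y hy a => ?_⟩
  by_cases ha : a = 0
  · simp [ha]
  · have hn : 0 < ‖a‖ := norm_pos_iff.2 ha
    have h1 := hcs (y, ‖a‖⁻¹ • a) ⟨hy, by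
      rw [mem_sphere_zero_iff_norm, norm_smul, norm_inv, norm_norm, inv_mul_cancel₀ hn.ne']⟩
    simp only [map_smul, smul_apply, smul_eq_mul] at h1
    have h2 := mul_le_mul_of_nonneg_right h1 (sq_nonneg ‖a‖)
    have h3 : ‖a‖⁻¹ * (‖a‖⁻¹ * G y a a) * ‖a‖ ^ 2 = G y a a := by field_simp
    rwa [h3] at h2

end OdeBX

/-- a proper function with bounded gradient gives geodesic completeness -/
theorem complete_of {E : Type} [NormedAddCommGroup E] [NormedSpace ℝ E] [FiniteDimensional ℝ E]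
    {G : E → E →L[ℝ] E →L[ℝ] ℝ} {U : Set E} (h : LM G U) (Ψ : E → ℝ) (C : ℝ)
    (hΨ : ∀ y ∈ U, DifferentiableAt ℝ Ψ y)
    (hb : ∀ y ∈ U, ∀ v, |fderiv ℝ Ψ y v| ≤ C * √(G y v v))
    (hK : ∀ M : ℝ, ∃ K, IsCompact K ∧ K ⊆ U ∧ ∀ y ∈ U, Ψ y ≤ M → y ∈ K) :
    ∀ p ∈ U, ∀ v, ∃ γ : ℝ → E, ContDiff ℝ 2 γ ∧ (∀ t, γ t ∈ U) ∧ γ 0 = p ∧ deriv γ 0 = v ∧
      ∀ t, cov G γ (deriv γ) t = 0 := by
  intro p hp v
  have hO : IsOpen (U ×ˢ (univ : Set E)) := h.op.prod isOpen_univ
  obtain ⟨z, hz0, hz⟩ := ode_global hO (contDiffOn_spray h) (z₀ := (p, v)) ⟨hp, mem_univ _⟩ (by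
    intro T hT
    have : ProperSpace E := FiniteDimensional.proper ℝ E
    obtain ⟨K, hKc, hKU, hKm⟩ := hK (Ψ p + |C| * √(G p v v) * T)
    obtain ⟨c, hc, hco⟩ := OdeBX.coer h hKc hKU
    refine ⟨K ×ˢ closedBall 0 (G p v v / c + 1), hKc.prod (isCompact_closedBall _ _),
      fun q hq => ⟨hKU hq.1, mem_univ _⟩, fun σ z hz0 hσ hz t ht => ?_⟩
    have hen : ∀ s, G (z s).1 (z s).2 (z s).2 = G p v v := by
      intro s
      have h1 := fun s => OdeBX.energy h (hz s).1.1 (hz s).2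
      have h2 := is_const_of_deriv_eq_zero (fun s => (h1 s).differentiableAt)
        (fun s => (h1 s).deriv) s 0
      rw [h2, hz0]
    have hd : ∀ s, HasDerivAt (fun s => Ψ (z s).1) (σ s * fderiv ℝ Ψ (z s).1 (z s).2) s := by
      intro s
      have h1 := (hΨ _ (hz s).1.1).hasFDerivAt.comp_hasDerivAt s (LocX.d_fst (hz s).2)
      refine h1.congr_deriv ?_
      simp only [spray, Prod.smul_mk, map_smul, smul_eq_mul]
    have hm := (convex_univ (𝕜 := ℝ) (E := ℝ)).norm_image_sub_le_of_norm_hasDerivWithin_le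
      (f := fun s => Ψ (z s).1) (C := |C| * √(G p v v)) (fun s _ => (hd s).hasDerivWithinAt)
      (fun s _ => by
        rw [Real.norm_eq_abs, abs_mul]
        have h1 := hb _ (hz s).1.1 (z s).2
        rw [hen s] at h1
        have h2 := mul_le_mul_of_nonneg_right (le_abs_self C) (Real.sqrt_nonneg (G p v v))
        have h3 := mul_le_mul_of_nonneg_right (hσ s) (abs_nonneg (fderiv ℝ Ψ (z s).1 (z s).2))
        linarith) (mem_univ 0) (mem_univ t)
    rw [hz0, sub_zero, Real.norm_eq_abs, Real.norm_eq_abs] at hm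
    have h4 := mul_le_mul_of_nonneg_left (abs_le.2 ht)
      (mul_nonneg (abs_nonneg C) (Real.sqrt_nonneg (G p v v)))
    have h5 : (z t).1 ∈ K := hKm _ (hz t).1.1 (by linarith [(abs_le.1 hm).2])
    refine ⟨h5, ?_⟩
    rw [mem_closedBall_zero_iff]
    have h6 : ‖(z t).2‖ ^ 2 ≤ G p v v / c := by
      rw [le_div_iff₀ hc, ← hen t]
      linarith [hco _ h5 (z t).2]
    nlinarith [sq_nonneg (‖(z t).2‖ - 1), norm_nonneg (z t).2])
  have h1 : ∀ t, HasDerivAt (fun s => (z s).1) (z t).2 t := fun t => LocX.d_fst (hz t).2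
  have h2 : ∀ t, HasDerivAt (fun s => (z s).2) (-chris G (z t).1 (z t).2 (z t).2) t := fun t =>
    LocX.d_snd (hz t).2
  have hd1 : deriv (fun s => (z s).1) = fun s => (z s).2 := funext fun t => (h1 t).deriv
  have hdz : Differentiable ℝ z := fun t => (hz t).2.differentiableAt
  have hz1 : ContDiff ℝ 1 z := by
    refine contDiff_one_iff_deriv.2 ⟨hdz, ?_⟩
    have h3 : deriv z = spray G ∘ z := funext fun t => (hz t).2.deriv
    rw [h3]
    exact (contDiffOn_spray h).continuousOn.comp_continuous hdz.continuous fun t => (hz t).1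
  refine ⟨fun s => (z s).1, ?_, fun t => (hz t).1.1, by beta_reduce; rw [hz0], ?_, fun t => ?_⟩
  · rw [← one_add_one_eq_two]
    refine contDiff_succ_iff_deriv.2 ⟨fun t => (h1 t).differentiableAt, by simp, ?_⟩
    rw [hd1]
    exact hz1.snd
  · rw [hd1]
    beta_reduce
    rw [hz0]
  · rw [cov, hd1, (h2 t).deriv]
    exact neg_add_cancel _

end Vale.Agent.P250
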