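import Vale.Agent.P250.PinA
import Vale.Agent.P250.OdeB

open scoped ContDiff Topology ComplexConjugate
open Set Filter Complex Metric

noncomputable section

namespace Vale.Agent.P250

open Vale.Agent.P255

variable {φ : B2 → ℝ} {B c : ℝ} {y : E3}

namespace CmpX

def AA (y : E3) : ℂ := y.1.2 + I * y.1.1 ^ 2 / 2 + I

theorem AA_im (y : E3) : (AA y).im = 1 + rho y.1 + ‖y.1.1‖ ^ 2 / 2 := by
  rw [Complex.sq_norm, normSq_apply]
  simp [AA, rho, pow_two]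
  ring

theorem AA_low (y : E3) : 1 + rho y.1 + ‖y.1.1‖ ^ 2 / 2 ≤ ‖AA y‖ := by
  rw [← AA_im]
  exact im_le_norm _

theorem AA_pos (hy : y.1 ∈ SS) : 0 < ‖AA y‖ := by
  have h : 0 < rho y.1 := hy
  exact lt_of_lt_of_le (by positivity) (AA_low y)

theorem AA_fd (y : E3) : ∃ L : E3 →L[ℝ] ℂ, HasFDerivAt AA L y ∧
    ∀ v, L v = lam y.1 v.1 + I * conj y.1.1 * v.1.1 := by
  have h1 : HasFDerivAt (fun x : E3 => x.1.1)
      ((ContinuousLinearMap.fst ℝ ℂ ℂ).comp (ContinuousLinearMap.fst ℝ B2 ℂ)) y :=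
    ((ContinuousLinearMap.fst ℝ ℂ ℂ).comp (ContinuousLinearMap.fst ℝ B2 ℂ)).hasFDerivAt
  have h2 : HasFDerivAt (fun x : E3 => x.1.2)
      ((ContinuousLinearMap.snd ℝ ℂ ℂ).comp (ContinuousLinearMap.fst ℝ B2 ℂ)) y :=
    ((ContinuousLinearMap.snd ℝ ℂ ℂ).comp (ContinuousLinearMap.fst ℝ B2 ℂ)).hasFDerivAt
  have h3 := (h2.add ((h1.mul h1).const_mul (I / 2))).add_const I
  have h4 : AA = fun x : E3 => ((fun x : E3 => x.1.2) + fun x : E3 =>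
      I / 2 * ((fun x : E3 => x.1.1) * fun x : E3 => x.1.1) x) x + I := by
    funext x
    simp only [AA, Pi.add_apply, Pi.mul_apply]
    ring
  refine ⟨_, h4 ▸ h3, fun v => ?_⟩
  have h5 : conj y.1.1 = y.1.1 - 2 * (y.1.1.im : ℂ) * I := by
    apply Complex.ext
    · simp
    · simp
      ring
  simp only [add_apply, smul_apply, ContinuousLinearMap.comp_apply, ContinuousLinearMap.coe_fst',
    ContinuousLinearMap.coe_snd', smul_eq_mul, lam, h5]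
  linear_combination (2 * (y.1.1.im : ℂ) * v.1.1) * I_mul_I

theorem lg_fd (hy : y.1 ∈ SS) : ∃ L : E3 →L[ℝ] ℝ,
    HasFDerivAt (fun x => Real.log (‖AA x‖ ^ 2)) L y ∧ ∀ v, |L v| ≤ 6 * nw y.1 v.1 := by
  obtain ⟨L, hL, hv⟩ := AA_fd y
  have hp := AA_pos hy
  have hr : 0 < rho y.1 := hy
  refine ⟨_, hL.norm_sq.log (by positivity), fun v => ?_⟩
  have h1 : ‖L v‖ ≤ 3 * ‖AA y‖ * nw y.1 v.1 := by
    have h2 := norm_lam_le hy v.1
    have h3 := norm_fst_le hy v.1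
    have h4 : ‖I * conj y.1.1 * v.1.1‖ = ‖y.1.1‖ * ‖v.1.1‖ := by
      rw [norm_mul, norm_mul, norm_I, one_mul, RCLike.norm_conj]
    have h5 := norm_add_le (lam y.1 v.1) (I * conj y.1.1 * v.1.1)
    have h6 := mul_le_mul_of_nonneg_left h3 (norm_nonneg y.1.1)
    have h7 : ‖y.1.1‖ * √(2 * rho y.1) ≤ ‖y.1.1‖ ^ 2 / 2 + rho y.1 := by
      nlinarith [sq_nonneg (‖y.1.1‖ - √(2 * rho y.1)),
        Real.sq_sqrt (by positivity : 0 ≤ 2 * rho y.1)]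
    have h8 := nw_nonneg y.1 v.1
    have h9 := mul_le_mul_of_nonneg_right h7 h8
    have h10 := mul_le_mul_of_nonneg_right (AA_low y) h8
    have h11 := mul_nonneg (sq_nonneg ‖y.1.1‖) h8
    rw [hv, ← mul_assoc] at *
    nlinarith
  have h2 := abs_real_inner_le_norm (AA y) (L v)
  have h3 := mul_le_mul_of_nonneg_left h1 hp.le
  simp only [smul_apply, ContinuousLinearMap.comp_apply, innerSL_apply_apply, smul_eq_mul,
    nsmul_eq_mul, Nat.cast_ofNat]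
  rw [abs_mul, abs_mul, abs_of_pos (by positivity : 0 < (‖AA y‖ ^ 2)⁻¹), abs_two,
    inv_mul_le_iff₀ (by positivity)]
  nlinarith

theorem p0_fd (hy : y.1 ∈ SS) : ∃ L : E3 →L[ℝ] ℝ,
    HasFDerivAt (fun x : E3 => phi0 x.1) L y ∧ ∀ v, |L v| ≤ 2 * nw y.1 v.1 := by
  have h1 : DifferentiableAt ℝ phi0 y.1 :=
    (phi0_smooth.contDiffAt (isOpen_SS.mem_nhds hy)).differentiableAt (by simp)
  refine ⟨_, h1.hasFDerivAt.comp y (ContinuousLinearMap.fst ℝ B2 ℂ).hasFDerivAt, fun v => ?_⟩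
  change |fderiv ℝ phi0 y.1 v.1| ≤ _
  rw [fderiv_real, dz_phi0 hy, abs_mul, abs_two]
  linarith [abs_re_le_norm (pp y.1 v.1), norm_pp_le hy v.1]

theorem nl_fd (hφ : ContDiffOn ℝ ∞ φ SS) (hy : y ∈ DD φ) : ∃ L : E3 →L[ℝ] ℝ,
    HasFDerivAt (fun x : E3 => -Real.log (1 - rr φ x)) L y ∧ ∀ v, |L v| ≤ 2 * ‖nn φ y v‖ := by
  have h1 : DifferentiableAt ℝ (fun x : E3 => -Real.log (1 - rr φ x)) y :=
    ((nl_smooth hφ).contDiffAt ((isOpen_DD hφ.continuousOn).mem_nhds hy)).differentiableAt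
      (by simp)
  refine ⟨_, h1.hasFDerivAt, fun v => ?_⟩
  rw [fderiv_real, nl_dz hφ hy, abs_mul, abs_two]
  have h2 := abs_re_le_norm ((ka φ y : ℂ) * conj y.2 * nn φ y v)
  have h3 : ‖(ka φ y : ℂ) * conj y.2‖ ≤ 1 := by
    have h4 : ‖(ka φ y : ℂ) * conj y.2‖ ^ 2 = rr φ y := by
      rw [norm_mul, RCLike.norm_conj, norm_real, mul_pow, Real.norm_eq_abs, sq_abs, JetBX.ka_sq,
        rr, mul_comm]
    have h5 : rr φ y < 1 := hy.2
    nlinarith [norm_nonneg ((ka φ y : ℂ) * conj y.2)]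
  rw [norm_mul] at h2
  nlinarith [norm_nonneg (nn φ y v)]

theorem Psi_fd (hφ : ContDiffOn ℝ ∞ φ SS) (hy : y ∈ DD φ) : ∃ L : E3 →L[ℝ] ℝ,
    HasFDerivAt (Psi φ) L y ∧ ∀ v, |L v| ≤ 8 * (nw y.1 v.1 + ‖nn φ y v‖) := by
  obtain ⟨L1, h1, b1⟩ := p0_fd hy.1
  obtain ⟨L2, h2, b2⟩ := lg_fd hy.1
  obtain ⟨L3, h3, b3⟩ := nl_fd hφ hy
  have h4 : Psi φ = ((fun x : E3 => phi0 x.1) + fun x => Real.log (‖AA x‖ ^ 2)) +
      fun x : E3 => -Real.log (1 - rr φ x) := by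
    funext x
    simp only [Psi, AA, Pi.add_apply]
    ring
  refine ⟨L1 + L2 + L3, h4 ▸ (h1.add h2).add h3, fun v => ?_⟩
  simp only [add_apply]
  have h5 := abs_add_three (L1 v) (L2 v) (L3 v)
  linarith [b1 v, b2 v, b3 v, norm_nonneg (nn φ y v)]

end CmpX

theorem Psi_diff (hφ : ContDiffOn ℝ ∞ φ SS) (hy : y ∈ DD φ) : DifferentiableAt ℝ (Psi φ) y := by
  obtain ⟨L, hL, -⟩ := CmpX.Psi_fd hφ hy
  exact hL.differentiableAt

theorem Psi_grad (hφ : ContDiffOn ℝ ∞ φ SS) (hy : y ∈ DD φ) (v : E3) :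
    |fderiv ℝ (Psi φ) y v| ≤ 8 * (nw y.1 v.1 + ‖nn φ y v‖) := by
  obtain ⟨L, hL, hb⟩ := CmpX.Psi_fd hφ hy
  rw [hL.fderiv]
  exact hb v

theorem complete_DD (h : Adm φ B) (hc : 1 ≤ c) :
    ∀ p ∈ DD φ, ∀ v, ∃ γ : ℝ → E3, ContDiff ℝ 2 γ ∧ (∀ t, γ t ∈ DD φ) ∧ γ 0 = p ∧
      deriv γ 0 = v ∧ ∀ t, cov (pot (Phi φ c)) γ (deriv γ) t = 0 := by
  refine complete_of (lm_pot h hc) (Psi φ) 8 (fun y hy => Psi_diff h.sm hy) (fun y hy v => ?_)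
    (Psi_proper h.sm.continuousOn)
  refine (Psi_grad h.sm hy v).trans (mul_le_mul_of_nonneg_left ?_ (by norm_num))
  refine Real.le_sqrt_of_sq_le (le_trans ?_ (pot_lower h hc hy v))
  nlinarith [sq_nonneg (nw y.1 v.1 - ‖nn φ y v‖), sq_nonneg (nw y.1 v.1), sq_nonneg ‖nn φ y v‖]

end Vale.Agent.P250
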