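import Vale.Agent.P250.Base

open scoped ContDiff Topology ComplexConjugate
open Set Filter Complex Metric

noncomputable section

namespace Vale.Agent.P250

open Vale.Agent.P255

variable {E : Type} [NormedAddCommGroup E] [NormedSpace ℝ E] [FiniteDimensional ℝ E]
  {G : E → E →L[ℝ] E →L[ℝ] ℝ} {U : Set E} {y : E}

namespace CurX

open LocX

theorem d_pair (h : LM G U) (hy : y ∈ U) (a b c w : E) :
    fderiv ℝ (fun z => G z (chris G z a b) c) y w = G y (fderiv ℝ (fun z => chris G z a b) y w) c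
      + G y (chris G y w (chris G y a b)) c + G y (chris G y a b) (chris G y w c) := by
  have h1 := (((diffAt h hy).hasFDerivAt.clm_apply
    (dAt h.op (smooth_chris h a b) hy).hasFDerivAt).clm_apply (hasFDerivAt_const c y)).fderiv
  rw [h1, add_assoc, ← compat h hy]
  simp

omit [FiniteDimensional ℝ E] in
theorem d_ev (h : LM G U) (hy : y ∈ U) (u v b : E) :
    DifferentiableAt ℝ (fun x => fderiv ℝ (fun z => G z u v) x b) y :=
  dAt h.op ((((h.sm.clm_apply contDiffOn_const).clm_apply contDiffOn_const).fderiv_of_isOpen h.op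
    (m := ∞) (by simp)).clm_apply contDiffOn_const) hy

omit [FiniteDimensional ℝ E] in
theorem exists_S (h : LM G U) (hy : y ∈ U) (u v : E) : ∃ S : E →L[ℝ] E →L[ℝ] ℝ,
    (∀ a b, D2 (fun z => G z u v) y a b = S a b) ∧ ∀ a b, S a b = S b a := by
  have h2 : ContDiffAt ℝ 2 (fun z => G z u v) y :=
    (((h.sm.clm_apply contDiffOn_const).clm_apply contDiffOn_const).contDiffAt
      (h.op.mem_nhds hy)).of_le (WithTop.coe_le_coe.2 le_top : ((2 : ℕ∞) : WithTop ℕ∞) ≤ _)
  refine ⟨fderiv ℝ (fderiv ℝ fun z => G z u v) y, fun a b => ?_, h2.isSymmSndFDerivAt (by simp)⟩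
  have h3 := ((h2.fderiv_right (m := 1) (by norm_num)).differentiableAt (by simp)).hasFDerivAt
  rw [D2, (h3.clm_apply (hasFDerivAt_const b y)).fderiv]
  simp

omit [FiniteDimensional ℝ E] in
theorem D2_left (h : LM G U) (hy : y ∈ U) (u u' v a b : E) (t : ℝ) :
    D2 (fun z => G z (u + t • u') v) y a b =
      D2 (fun z => G z u v) y a b + t * D2 (fun z => G z u' v) y a b := by
  have h1 : (fun x => fderiv ℝ (fun z => G z (u + t • u') v) x b) =ᶠ[𝓝 y] fun x =>
      fderiv ℝ (fun z => G z u v) x b + t * fderiv ℝ (fun z => G z u' v) x b := by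
    filter_upwards [h.op.mem_nhds hy] with x hx
    simp only [fderiv_ev2 (diffAt h hx)]
    simp only [map_add, map_smul, add_apply, smul_apply, smul_eq_mul]
  rw [D2, h1.fderiv_eq, fderiv_fun_add (d_ev h hy _ _ _) ((d_ev h hy _ _ _).const_mul _),
    fderiv_const_mul (d_ev h hy _ _ _)]
  rfl

omit [FiniteDimensional ℝ E] in
theorem D2_swap (h : LM G U) (hy : y ∈ U) (u v a b : E) :
    D2 (fun z => G z u v) y a b = D2 (fun z => G z v u) y a b := by
  refine congrArg (fun L : E →L[ℝ] ℝ => L a) (EventuallyEq.fderiv_eq ?_)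
  have h4 : (fun z => G z u v) =ᶠ[𝓝 y] fun z => G z v u := by
    filter_upwards [h.op.mem_nhds hy] with z hz using h.symm z hz u v
  filter_upwards [h4.fderiv (𝕜 := ℝ)] with z hz
  rw [hz]

end CurX

open CurX LocX

theorem curv_formula (h : LM G U) (hy : y ∈ U) (a b : E) :
    G y (curv G y a b b) a = D2 (fun z => G z b a) y a b
      - 1 / 2 * D2 (fun z => G z b b) y a a - 1 / 2 * D2 (fun z => G z a a) y b b
      + G y (chris G y a b) (chris G y a b) - G y (chris G y b b) (chris G y a a) := by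
  have h1 : (fun z => G z (chris G z b b) a) =ᶠ[𝓝 y] fun z =>
      fderiv ℝ (fun z => G z b a) z b - 1 / 2 * fderiv ℝ (fun z => G z b b) z a := by
    filter_upwards [h.op.mem_nhds hy] with z hz
    rw [chris_spec h hz, fderiv_ev2 (diffAt h hz), fderiv_ev2 (diffAt h hz)]
    ring
  have h2 : (fun z => G z (chris G z a b) a) =ᶠ[𝓝 y] fun z =>
      1 / 2 * fderiv ℝ (fun z => G z a a) z b := by
    filter_upwards [h.op.mem_nhds hy] with z hz
    rw [chris_spec h hz, fderiv_ev2 (diffAt h hz), fderiv_symm h hz a b a]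
    ring
  have h3 := d_pair h hy b b a a
  have h4 := d_pair h hy a b a b
  rw [h1.fderiv_eq, fderiv_fun_sub (d_ev h hy _ _ _) ((d_ev h hy _ _ _).const_mul _),
    fderiv_const_mul (d_ev h hy _ _ _)] at h3
  rw [h2.fderiv_eq, fderiv_const_mul (d_ev h hy _ _ _), chris_symm h hy b a] at h4
  simp only [sub_apply, smul_apply, smul_eq_mul] at h3 h4
  simp only [curv, D2, map_add, map_sub, add_apply, sub_apply]
  linarith

theorem curv_shear (h : LM G U) (hy : y ∈ U) (a b : E) (t : ℝ) :
    G y (curv G y a (b + t • a) (b + t • a)) a = G y (curv G y a b b) a := by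
  obtain ⟨S, h1, h2⟩ := exists_S h hy a a
  obtain ⟨S', h3, -⟩ := exists_S h hy b a
  obtain ⟨Γ, -, hΓ⟩ := exists_chrisL h
  have h4 : Γ y b a = Γ y a b := by rw [← hΓ y hy, ← hΓ y hy, chris_symm h hy]
  have h5 := h.symm y hy (Γ y a a) (Γ y a b)
  rw [curv_formula h hy, curv_formula h hy, D2_left h hy, D2_left h hy, D2_swap h hy b (b + t • a),
    D2_swap h hy a (b + t • a), D2_left h hy, D2_left h hy, D2_swap h hy a b]
  simp only [h1, h3, hΓ y hy, map_add, map_smul, add_apply, smul_apply, smul_eq_mul, h2 b a, h4, h5]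
  ring

theorem area_shear (h : LM G U) (hy : y ∈ U) (a b : E) (t : ℝ) :
    G y a a * G y (b + t • a) (b + t • a) - G y a (b + t • a) ^ 2
      = G y a a * G y b b - G y a b ^ 2 := by
  simp only [map_add, map_smul, add_apply, smul_apply, smul_eq_mul, h.symm y hy b a]
  ring

end Vale.Agent.P250
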