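import Vale.Agent.P250.RhoA
import Vale.Agent.P250.Wc

open scoped ContDiff Topology ComplexConjugate
open Set Filter Complex Metric

noncomputable section

namespace Vale.Agent.P250

open Vale.Agent.P255

/-- the pointwise algebraic data of an admissible weight -/
theorem Adm.dat {φ : B2 → ℝ} {B : ℝ} (h : Adm φ B) {q : B2} (hq : q ∈ SS) :
    Dat (om q) (j2 (cx φ) q) (TT φ q) (UU φ q) (34 * B) := by
  have hθ := herm_j2 isOpen_SS h.sm hq
  have hs := cx_smooth h.sm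
  have B1 := h.one
  have B0 : 0 ≤ B := by linarith
  have n0 := nw_nonneg q
  have a1 : ∀ X, √(qf (j2 (cx φ) q) X) ≤ √B * nw q X := fun X => by
    rw [nw, ← Real.sqrt_mul B0]
    exact Real.sqrt_le_sqrt (h.hi q hq X)
  have a2 : ∀ X Y, ‖j2 (cx φ) q X Y‖ ≤ B * nw q X * nw q Y := fun X Y => by
    refine (hθ.cs' (fun X => (om_nonneg hq X).trans (h.lo q hq X)) X Y).trans
      ((mul_le_mul (a1 X) (a1 Y) (Real.sqrt_nonneg _) (mul_nonneg (Real.sqrt_nonneg _)
        (n0 X))).trans (le_of_eq ?_))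
    linear_combination nw q X * nw q Y * Real.mul_self_sqrt B0
  have a3 : ∀ X Z Y, ‖TT φ q X Z Y‖ ≤ 4 * B * nw q X * nw q Z * nw q Y := fun X Z Y => by
    have h1 := h.b3 q hq X Z Y
    have h2 := a2 (G0 q X Z) Y
    have h3 := mul_le_mul_of_nonneg_left (nw_G0_le hq X Z) (mul_nonneg B0 (n0 Y))
    have h4 := norm_sub_le (j3 (cx φ) q X Z Y) (j2 (cx φ) q (G0 q X Z) Y)
    unfold TT
    linarith
  refine ⟨herm_om q, hθ, om_pos hq, by linarith, h.lo q hq, fun X => ?_, fun X X' Z Y => ?_,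
    fun c X Z Y => ?_, fun X Z Y => ?_, fun X Z Y Y' => ?_, fun c X Z Y => ?_, fun X Z Y => ?_,
    fun X Z Y V => ?_⟩
  · nlinarith [h.hi q hq X, mul_nonneg B0 (om_nonneg hq X)]
  · simp only [TT, j3_add1, G0_add, hθ.add]
    ring
  · simp only [TT, j3_smul1, G0_smul, hθ.smul]
    ring
  · simp only [TT]
    rw [j3_symm isOpen_SS hs hq, G0_symm]
  · simp only [TT, j3_add3 isOpen_SS hs hq, hθ.add_right]
    ring
  · simp only [TT, j3_smul3, hθ.smul_right]
    ring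
  · have h1 := mul_nonneg (mul_nonneg (mul_nonneg B0 (n0 X)) (n0 Z)) (n0 Y)
    have h2 := a3 X Z Y
    change _ ≤ 34 * B * nw q X * nw q Z * nw q Y
    linarith
  · have h1 := h.b4 q hq X Z Y V
    have h2 := a3 X Z (G0 q Y V)
    have h3 := a3 Y V (G0 q X Z)
    have h4 := a2 (G0 q X Z) (G0 q Y V)
    have h5 := mul_le_mul_of_nonneg_left (nw_G0_le hq Y V)
      (mul_nonneg (mul_nonneg B0 (n0 X)) (n0 Z))
    have h6 := mul_le_mul_of_nonneg_left (nw_G0_le hq X Z)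
      (mul_nonneg (mul_nonneg B0 (n0 Y)) (n0 V))
    have h7 := mul_le_mul_of_nonneg_left (nw_G0_le hq X Z) (mul_nonneg B0 (n0 (G0 q Y V)))
    have h8 := norm_sub_le (j4 (cx φ) q X Z Y V - TT φ q X Z (G0 q Y V)
      - conj (TT φ q Y V (G0 q X Z))) (j2 (cx φ) q (G0 q X Z) (G0 q Y V))
    have h9 := norm_sub_le (j4 (cx φ) q X Z Y V - TT φ q X Z (G0 q Y V))
      (conj (TT φ q Y V (G0 q X Z)))
    have h10 := norm_sub_le (j4 (cx φ) q X Z Y V) (TT φ q X Z (G0 q Y V))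
    rw [Complex.norm_conj] at h9
    change _ ≤ 34 * B * nw q X * nw q Z * nw q Y * nw q V
    unfold UU
    linarith

end Vale.Agent.P250
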