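import Vale.Agent.P250.Base

open scoped ContDiff Topology ComplexConjugate
open Set Filter Complex Metric

noncomputable section

namespace Vale.Agent.P250

open Vale.Agent.P255

variable {H : Type} [AddCommGroup H] [Module ℂ H] {k k' : H → H → ℂ}

theorem Herm.add_right (hk : Herm k) (X Y Y' : H) : k X (Y + Y') = k X Y + k X Y' := by
  rw [hk.cj, hk.add, map_add, ← hk.cj, ← hk.cj]
theorem Herm.smul_right (hk : Herm k) (c : ℂ) (X Y : H) : k X (c • Y) = conj c * k X Y := by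
  rw [hk.cj, hk.smul, map_mul, ← hk.cj]
theorem Herm.sub (hk : Herm k) (X X' Y : H) : k (X - X') Y = k X Y - k X' Y := by
  rw [sub_eq_add_neg, ← neg_one_smul ℂ X', hk.add, hk.smul]; ring
theorem Herm.sub_right (hk : Herm k) (X Y Y' : H) : k X (Y - Y') = k X Y - k X Y' := by
  rw [hk.cj, hk.sub, map_sub, ← hk.cj, ← hk.cj]
theorem Herm.zero (hk : Herm k) (Y : H) : k 0 Y = 0 := by
  simpa using hk.smul 0 0 Y
theorem Herm.zero_right (hk : Herm k) (X : H) : k X 0 = 0 := by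
  rw [hk.cj, hk.zero, map_zero]
theorem Herm.self (hk : Herm k) (X : H) : k X X = (qf k X : ℂ) := by
  exact (conj_eq_iff_re.1 (hk.cj X X).symm).symm
theorem Herm.qf_smul (hk : Herm k) (c : ℂ) (X : H) : qf k (c • X) = ‖c‖ ^ 2 * qf k X := by
  rw [qf, hk.smul, hk.smul_right, ← mul_assoc, mul_conj', hk.self, ← ofReal_pow, ← ofReal_mul,
    ofReal_re]

theorem Herm.lin (hk : Herm k) (hk' : Herm k') (s t : ℝ) :
    Herm fun X Y => (s : ℂ) * k X Y + (t : ℂ) * k' X Y := by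
  refine ⟨fun X X' Y => ?_, fun c X Y => ?_, fun X Y => ?_⟩
  · rw [hk.add, hk'.add]; ring
  · rw [hk.smul, hk'.smul]; ring
  · rw [hk.cj, hk'.cj]; simp

theorem Herm.qf_add (hk : Herm k) (X Y : H) :
    qf k (X + Y) = qf k X + 2 * (k X Y).re + qf k Y := by
  rw [qf, hk.add, hk.add_right, hk.add_right, hk.cj X Y]
  simp only [qf, add_re, conj_re]
  ring

theorem Herm.cs (hk : Herm k) (h0 : ∀ X, 0 ≤ qf k X) (X Y : H) :
    ‖k X Y‖ ^ 2 ≤ qf k X * qf k Y := by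
  have h := discrim_le_zero (a := ‖k X Y‖ ^ 2 * qf k Y) (b := 2 * ‖k X Y‖ ^ 2) (c := qf k X)
    fun t => by
      have := h0 (X + ((t : ℂ) * k X Y) • Y)
      rw [hk.qf_add, hk.qf_smul, hk.smul_right, map_mul, mul_assoc, conj_mul', conj_ofReal,
        ← ofReal_pow, ← ofReal_mul, ofReal_re, norm_mul, mul_pow, norm_real, Real.norm_eq_abs,
        sq_abs] at this
      linarith
  rcases (sq_nonneg ‖k X Y‖).eq_or_lt with h1 | h1
  · rw [← h1]; exact mul_nonneg (h0 X) (h0 Y)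
  · rw [discrim] at h
    exact le_of_mul_le_mul_left (by linarith) h1

theorem Herm.cs' (hk : Herm k) (h0 : ∀ X, 0 ≤ qf k X) (X Y : H) :
    ‖k X Y‖ ≤ √(qf k X) * √(qf k Y) := by
  rw [← Real.sqrt_mul (h0 X)]
  exact Real.le_sqrt_of_sq_le (hk.cs h0 X Y)

theorem Herm.tri (hk : Herm k) (h0 : ∀ X, 0 ≤ qf k X) (X Y : H) :
    √(qf k (X + Y)) ≤ √(qf k X) + √(qf k Y) := by
  refine Real.sqrt_le_iff.2 ⟨by positivity, ?_⟩
  rw [hk.qf_add, add_sq, Real.sq_sqrt (h0 X), Real.sq_sqrt (h0 Y)]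
  linarith [hk.cs' h0 X Y, re_le_norm (k X Y)]

theorem Herm.im_sq_le (hk : Herm k) (h0 : ∀ X, 0 ≤ qf k X) (a b : H) :
    (k b a).im ^ 2 ≤ ar k a b := by
  have := hk.cs h0 b a
  rw [Complex.sq_norm, normSq_apply] at this
  unfold ar
  linarith

theorem Herm.shift (hk : Herm k) (h0 : ∀ X, 0 ≤ qf k X) (a b : H) :
    ∃ b', ar k a b = qf k a * qf k b' ∧
      ∀ k', Herm k' → ar k' a b' = ar k' a b ∧ (k' b' a).im = (k' b a).im := by
  have key : ∀ (t : ℝ) k', Herm k' → (k' (b + (t : ℂ) • a) a).re = (k' b a).re + t * qf k' a ∧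
      ar k' a (b + (t : ℂ) • a) = ar k' a b ∧ (k' (b + (t : ℂ) • a) a).im = (k' b a).im :=
    fun t k' h => by
      unfold ar
      rw [h.qf_add, h.qf_smul, h.add, h.smul, h.smul_right, h.self]
      simp
      ring
  obtain ⟨t, ht⟩ : ∃ t : ℝ, (k b a).re + t * qf k a = 0 := by
    rcases (h0 a).eq_or_lt with h | h
    · have := hk.cs h0 b a
      rw [← h, mul_zero] at this
      exact ⟨0, by simp [norm_eq_zero.1 (pow_eq_zero_iff two_ne_zero |>.1
        (le_antisymm this (sq_nonneg _)))]⟩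
    · exact ⟨-(k b a).re / qf k a, by field_simp; ring⟩
  refine ⟨_, ?_, fun k' h => (key t k' h).2⟩
  rw [← (key t k hk).2.1, ar, (key t k hk).1, ht]
  ring

theorem Herm.ar_mono (hk : Herm k) (hk' : Herm k') (h0 : ∀ X, 0 ≤ qf k X)
    (hle : ∀ X, qf k X ≤ qf k' X) (a b : H) : ar k a b ≤ ar k' a b := by
  obtain ⟨b', h1, h2⟩ := hk'.shift (fun X => (h0 X).trans (hle X)) a b
  rw [h1, ← (h2 k hk).1, ar]
  linarith [sq_nonneg (k b' a).re, mul_le_mul (hle a) (hle b') (h0 _) ((h0 a).trans (hle a))]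

/-- the half-pinching inequality -/
theorem Herm.half (hk : Herm k) (hk' : Herm k') (h0 : ∀ X, 0 ≤ qf k X) {e : ℝ} (he : 0 ≤ e)
    (h1 : ∀ X, e / 2 * qf k X ≤ qf k' X) (h2 : ∀ X, qf k' X ≤ e * qf k X) (a b : H) :
    4 * (k' b a).im ^ 2 ≤ e ^ 2 * (ar k a b + 3 * (k b a).im ^ 2) := by
  obtain ⟨b', e1, e2⟩ := hk.shift h0 a b
  rw [e1, ← (e2 k hk).2, ← (e2 k' hk').2]
  have q : ∀ (s t : ℝ) X, qf (fun X Y => (s : ℂ) * k X Y + (t : ℂ) * k' X Y) X =
    s * qf k X + t * qf k' X := fun s t X => by simp [qf]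
  have p1 : ∀ X, 0 ≤ -2 * e * qf k X + 4 * qf k' X := fun X => by linarith [h1 X]
  have p2 : ∀ X, 0 ≤ 4 * e * qf k X + -4 * qf k' X := fun X => by linarith [h2 X]
  have c1 := (hk.lin hk' (-2 * e) 4).im_sq_le (fun X => (q _ _ X).symm ▸ p1 X) a b'
  have c2 := (hk.lin hk' (4 * e) (-4)).im_sq_le (fun X => (q _ _ X).symm ▸ p2 X) a b'
  rw [ar, q, q] at c1 c2
  replace c1 := c1.trans (sub_le_self _ (sq_nonneg _))
  replace c2 := c2.trans (sub_le_self _ (sq_nonneg _))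
  simp only [add_im, mul_im, ofReal_re, ofReal_im, zero_mul, add_zero] at c1 c2
  have c3 := mul_le_mul c1 c2 (sq_nonneg _) (mul_nonneg (p1 a) (p1 b'))
  have c4 := le_of_sq_le_sq (a := -2 * (-2 * e * (k b' a).im + 4 * (k' b' a).im) *
    (4 * e * (k b' a).im + -4 * (k' b' a).im)) (by
      linarith [sq_nonneg ((-2 * e * qf k a + 4 * qf k' a) * (4 * e * qf k b' + -4 * qf k' b') -
        (4 * e * qf k a + -4 * qf k' a) * (-2 * e * qf k b' + 4 * qf k' b'))])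
    (add_nonneg (mul_nonneg (p1 a) (p2 b')) (mul_nonneg (p2 a) (p1 b')))
  linarith [sq_nonneg (4 * (k' b' a).im - 4 * e * (k b' a).im)]

theorem Herm.ext (hk : Herm k) (hp : ∀ X, X ≠ 0 → 0 < qf k X) {P P' : H}
    (h : ∀ Y, k P Y = k P' Y) : P = P' := by
  by_contra hne
  have := hp _ (sub_ne_zero.2 hne)
  rw [qf, hk.sub, h, sub_self] at this
  exact lt_irrefl _ this

theorem Herm.solve {k : B2 → B2 → ℂ} (hk : Herm k) (hp : ∀ X, X ≠ 0 → 0 < qf k X) (f : B2 → ℂ)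
    (ha : ∀ Y Y', f (Y + Y') = f Y + f Y') (hs : ∀ (c : ℂ) Y, f (c • Y) = conj c * f Y) :
    ∃ P, ∀ Y, k P Y = f Y := by
  have dec : ∀ g : B2 → ℂ, (∀ Y Y', g (Y + Y') = g Y + g Y') →
      (∀ (c : ℂ) Y, g (c • Y) = conj c * g Y) →
      ∀ Y, g Y = conj Y.1 * g (1, 0) + conj Y.2 * g (0, 1) := fun g h1 h2 Y => by
    rw [← h2, ← h2, ← h1]
    simp
  have d := fun P => dec (k P) (hk.add_right P) fun c => hk.smul_right c P
  obtain ⟨P, hP⟩ := LinearMap.surjective_of_injective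
    (f := (⟨⟨fun P => (k P (1, 0), k P (0, 1)), fun X Y => by simp [hk.add]⟩,
      fun c X => by simp [hk.smul]⟩ : B2 →ₗ[ℂ] B2))
    (fun X Y h => hk.ext hp fun Z => by
      rw [d X, d Y, show k X (1, 0) = k Y (1, 0) from congrArg Prod.fst h,
        show k X (0, 1) = k Y (0, 1) from congrArg Prod.snd h]) (f (1, 0), f (0, 1))
  exact ⟨P, fun Y => by
    rw [d P, dec f ha hs, show k P (1, 0) = f (1, 0) from congrArg Prod.fst hP,
      show k P (0, 1) = f (0, 1) from congrArg Prod.snd hP]⟩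

end Vale.Agent.P250
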