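import Vale.Agent.P250.Base

open scoped ContDiff Topology ComplexConjugate
open Set Filter Complex Metric

noncomputable section

namespace Vale.Agent.P250

open Vale.Agent.P255

namespace HolX

variable {F : E3 → E3} {D : Set E3} {M : ℝ}

theorem line (hF : DifferentiableOn ℂ F D) (p v : E3) {S : Set ℂ} (h : ∀ s ∈ S, p + s • v ∈ D) :
    DifferentiableOn ℂ (fun s : ℂ => F (p + s • v)) S :=
  hF.comp (by fun_prop) h

theorem der (hD : IsOpen D) (hF : DifferentiableOn ℂ F D) {p : E3} (hp : p ∈ D) (v : E3) :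
    deriv (fun s : ℂ => F (p + s • v)) 0 = fderiv ℂ F p v := by
  have h1 : HasFDerivAt F (fderiv ℂ F p) (p + (0 : ℂ) • v) := by
    simpa using (hF.differentiableAt (hD.mem_nhds hp)).hasFDerivAt
  simpa [Function.comp_def] using (h1.comp_hasDerivAt (0 : ℂ)
    (((hasDerivAt_id' (0 : ℂ)).smul_const v).const_add p)).deriv

theorem maps {f : ℂ → E3} {ρ : ℝ} (hρ : 0 < ρ) (h : ∀ s ∈ ball (0 : ℂ) ρ, ‖f s‖ ≤ M) :
    MapsTo f (ball 0 ρ) (closedBall (f 0) (2 * M)) := fun s hs =>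
  mem_closedBall_iff_norm.2 ((norm_sub_le _ _).trans
    (by linarith [h s hs, h 0 (mem_ball_self hρ)]))

end HolX
open HolX

/-- the derivative of a bounded holomorphic map is holomorphic along complex lines -/
theorem fderiv_line {F : E3 → E3} {D : Set E3} (hD : IsOpen D) (hF : DifferentiableOn ℂ F D)
    {M : ℝ} (hM : ∀ y ∈ D, ‖F y‖ ≤ M) (p v e : E3) :
    DifferentiableOn ℂ (fun s : ℂ => fderiv ℂ F (p + s • v) e) {s | p + s • v ∈ D} := by
  intro s₀ hs₀
  have hc : ContinuousAt (fun z : ℂ × ℂ => p + z.1 • v + z.2 • e) (s₀, 0) := by fun_prop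
  obtain ⟨ρ, hρ, hb⟩ := Metric.mem_nhds_iff.1
    (hc.preimage_mem_nhds (hD.mem_nhds (by simpa using hs₀)))
  have hb' : ∀ s ∈ ball s₀ ρ, ∀ t ∈ ball (0 : ℂ) ρ, p + s • v + t • e ∈ D := fun s hs t ht =>
    hb (a := (s, t)) (by rw [← ball_prod_same]; exact ⟨hs, ht⟩)
  have h0 : ∀ s ∈ ball s₀ ρ, p + s • v ∈ D := fun s hs => by
    simpa using hb' s hs 0 (mem_ball_self hρ)
  have key : ∀ s ∈ ball s₀ ρ, ∀ t ∈ ball (0 : ℂ) ρ,
      dist (dslope (fun t : ℂ => F (p + s • v + t • e)) 0 t) (fderiv ℂ F (p + s • v) e) ≤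
        2 * (2 * M / ρ) / ρ * dist t 0 := fun s hs t ht => by
    have h1 := line hF (p + s • v) e (hb' s hs)
    rw [← der hD hF (h0 s hs) e, ← dslope_same]
    exact dist_le_div_mul_dist_of_mapsTo_ball
      ((differentiableOn_dslope (ball_mem_nhds 0 hρ)).2 h1) (maps hρ fun t ht =>
        norm_dslope_le_div_of_mapsTo_ball h1 (maps hρ fun t ht => hM _ (hb' s hs t ht)) ht) ht
  have hU : TendstoUniformlyOn (fun (t s : ℂ) => dslope (fun t : ℂ => F (p + s • v + t • e)) 0 t)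
      (fun s => fderiv ℂ F (p + s • v) e) (𝓝[≠] 0) (ball s₀ ρ) := by
    refine Metric.tendstoUniformlyOn_iff.2 fun ε hε => Eventually.filter_mono nhdsWithin_le_nhds ?_
    filter_upwards [ball_mem_nhds (0 : ℂ) hρ, ContinuousAt.eventually_lt
      (f := fun t : ℂ => 2 * (2 * M / ρ) / ρ * dist t 0) (by fun_prop) continuousAt_const
      (show 2 * (2 * M / ρ) / ρ * dist (0 : ℂ) 0 < ε by simpa using hε)] with t ht h s hs
    rw [dist_comm]
    exact (key s hs t ht).trans_lt h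
  refine ((hU.tendstoLocallyUniformlyOn.differentiableOn ?_ isOpen_ball).differentiableAt
    (ball_mem_nhds s₀ hρ)).differentiableWithinAt
  filter_upwards [self_mem_nhdsWithin, mem_nhdsWithin_of_mem_nhds (ball_mem_nhds (0 : ℂ) hρ)]
    with t ht ht'
  simp only [dslope_of_ne _ (show t ≠ 0 from ht), slope, vsub_eq_sub]
  exact ((hF.comp (by fun_prop) fun s hs => hb' s hs t ht').sub
    (hF.comp (by fun_prop) fun s hs => hb' s hs 0 (mem_ball_self hρ))).const_smul (t - 0)⁻¹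

/-- Cauchy estimate along a disc -/
theorem fderiv_le {F : E3 → E3} {D : Set E3} (hD : IsOpen D) (hF : DifferentiableOn ℂ F D)
    {M : ℝ} (hM : ∀ y ∈ D, ‖F y‖ ≤ M) (p v : E3) (hv : ∀ s : ℂ, ‖s‖ < 1 → p + s • v ∈ D) :
    ‖fderiv ℂ F p v‖ ≤ 2 * M + 1 := by
  have h : ∀ s ∈ ball (0 : ℂ) 1, p + s • v ∈ D := fun s hs => hv s (mem_ball_zero_iff.1 hs)
  have := norm_deriv_le_div_of_mapsTo_ball (line hF p v h)
    (maps one_pos fun s hs => hM _ (h s hs)) one_pos
  rw [der hD hF (by simpa using hv 0 (by simp))] at this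
  linarith

end Vale.Agent.P250
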