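import Vale.Agent.P250.StC

open scoped ContDiff Topology ComplexConjugate
open Set Filter Complex Metric

noncomputable section

namespace Vale.Agent.P250

open Vale.Agent.P255

namespace IndX

theorem XX_dil {u : ℂ → ℝ} (h : U0 u) (η : ℝ) (n : ℕ) {q : B2} (hq : rho q = 1) :
    XX u η n (dil η q) = XX u η (n + 1) q := by
  unfold XX
  rw [Finset.sum_range_succ' _ (n + 1), pow_zero, dil_one, chi0_zero h (by rw [hq]; norm_num),
    add_zero]
  refine Finset.sum_congr rfl fun i _ => ?_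
  rw [dil_dil, pow_succ]

theorem down {u : ℂ → ℝ} (h : U0 u) {η l A c₀ : ℝ} (h0 : 0 < η) {n : ℕ} {J : B2 → ℂ}
    (hL : Lev (XX u η (n + 1)) l (fun q => J (dil (η ^ (n + 1)) q)) A c₀ 1) :
    Lev (XX u η n) l (fun q => J (dil (η ^ n) q)) A c₀ η := by
  have key : ∀ q : B2, rho q = η ^ 2 → rho (dil η⁻¹ q) = 1 ∧ dil η (dil η⁻¹ q) = q := by
    intro q hq
    constructor
    · rw [rho_dil, hq]; field_simp
    · rw [dil_dil, mul_inv_cancel₀ h0.ne', dil_one]
  have e : ∀ q : B2, rho q = η ^ 2 → dil (η ^ (n + 1)) (dil η⁻¹ q) = dil (η ^ n) q ∧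
      XX u η (n + 1) (dil η⁻¹ q) = XX u η n q := by
    intro q hq
    constructor
    · rw [pow_succ, ← dil_dil, (key q hq).2]
    · rw [← XX_dil h η n (key q hq).1, (key q hq).2]
  constructor
  · intro q hq
    have := hL.1 (dil η⁻¹ q) (by rw [(key q hq).1]; norm_num)
    simp only at this
    rwa [(e q hq).1, (e q hq).2] at this
  · rintro q hq ⟨j, hj⟩
    have := hL.2 (dil η⁻¹ q) (by rw [(key q hq).1]; norm_num)
      ⟨j, by rw [TayX.dil_im, hj]; field_simp⟩
    simp only at this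
    rwa [(e q hq).1, (e q hq).2] at this

end IndX

theorem no_J {u : ℂ → ℝ} {C : ℝ} (h : U0 u) (h' : U1 u C) : ∃ m l : ℝ, 2 ≤ m ∧ 0 ≤ l ∧
    ¬ ∃ (J : B2 → ℂ) (C₀ : ℝ), LH J ∧ (∀ q ∈ SS, J q ≠ 0) ∧
      ∀ q ∈ SS, ‖J q‖ ^ 2 * rho q ^ 3 ≤ C₀ * Real.exp (phi u m l q) := by
  obtain ⟨c₀, γ, η, hc₀, hγ, h0, h1, hstep⟩ := step h h'
  obtain ⟨l, hl⟩ : ∃ l : ℝ, l = (1 - 4 * Real.log η) / γ := ⟨_, rfl⟩
  have hlog : Real.log η ≤ 0 := Real.log_nonpos h0.le (by linarith)
  have hl0 : 0 < l := by rw [hl]; apply div_pos _ hγ; linarith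
  have hlγ : l * γ = 1 - 4 * Real.log η := by rw [hl]; field_simp
  refine ⟨η⁻¹, 2 * l, by rw [le_inv_comm₀ (by norm_num) h0]; linarith, by positivity, ?_⟩
  rintro ⟨J, C₀, hJ, hne, hb⟩
  obtain ⟨q₀, hq₀⟩ : ∃ q₀ : B2, rho q₀ = 1 := ⟨(0, I), by simp [rho]⟩
  have hq₀' : q₀ ∈ SS := by show 0 < rho q₀; rw [hq₀]; norm_num
  have hJ0 : 0 < ‖J q₀‖ := norm_pos_iff.2 (hne q₀ hq₀')
  have hC₀ : 0 < C₀ := by
    have h2 := hb q₀ hq₀'
    rw [hq₀] at h2
    have h3 : 0 < C₀ * Real.exp (phi u η⁻¹ (2 * l) q₀) := lt_of_lt_of_le (by positivity) h2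
    exact (mul_pos_iff_of_pos_right (Real.exp_pos _)).1 h3
  have hbd : ∀ (n : ℕ) (q : B2), η ^ 2 ≤ rho q → ‖J (dil (η ^ n) q)‖
      ≤ √C₀ * Real.exp (l * XX u η n q) / ((η ^ n) ^ 2 * rho q) ^ 2 := by
    intro n q hq
    have hr : 0 < rho q := lt_of_lt_of_le (by positivity) hq
    have hr' : 0 < rho (dil (η ^ n) q) := by rw [rho_dil]; positivity
    have h2 := hb _ hr'
    unfold phi phi0 at h2
    rw [← XX_eq h h0 (by linarith) n hq, Real.exp_add, Real.exp_neg, Real.exp_log hr'] at h2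
    rw [← rho_dil]
    obtain ⟨ρ, hρ⟩ : ∃ ρ, ρ = rho (dil (η ^ n) q) := ⟨_, rfl⟩
    rw [← hρ] at h2 hr' ⊢
    refine (pow_le_pow_iff_left₀ (norm_nonneg _) (by positivity) two_ne_zero).1 ?_
    have e : (√C₀ * Real.exp (l * XX u η n q) / ρ ^ 2) ^ 2
        = C₀ * (ρ⁻¹ * Real.exp (2 * l * XX u η n q)) / ρ ^ 3 := by
      rw [div_pow, mul_pow, Real.sq_sqrt hC₀.le, ← Real.exp_nat_mul]
      push_cast
      rw [mul_assoc 2 l]
      field_simp
    rw [e, le_div_iff₀ (by positivity)]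
    exact h2
  have hind : ∀ (n : ℕ) (A : ℝ), Lev (XX u η n) l (fun q => J (dil (η ^ n) q)) A c₀ 1 →
      ‖J q₀‖ ≤ Real.exp (-(l * (A + n * γ))) := by
    intro n
    induction n with
    | zero =>
      intro A hA
      have h2 := hA.1 q₀ (by rw [hq₀]; norm_num)
      simp only [pow_zero, dil_one] at h2
      rw [TayX.zero, chi0_zero h (by rw [hq₀]; norm_num)] at h2
      refine h2.trans_eq ?_
      congr 1
      push_cast; ring
    | succ n ih =>
      intro A hA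
      have h2 := hstep l A (√C₀ * Real.exp (l * ((n + 1) * C)) / ((η ^ n) ^ 2 * η ^ 2) ^ 2) n
        (fun q => J (dil (η ^ n) q)) hl0 (hJ.dil (by positivity))
        (fun q hq => hne _ (by
          have hq' : 0 < rho q := hq
          show 0 < rho _
          rw [rho_dil]; positivity))
        (fun q hq => (hbd n q hq).trans (by
          have hr : 0 < rho q := lt_of_lt_of_le (by positivity) hq
          have h3 := (abs_le.1 (XX_abs h' η n hr.le)).2
          gcongr))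
        (IndX.down h h0 hA)
      refine (ih _ h2).trans_eq ?_
      congr 1
      push_cast; ring
  have hfin : ∀ N : ℕ, ‖J q₀‖ ≤ √C₀ * Real.exp (l * c₀) * (Real.exp (-1)) ^ N := by
    intro N
    obtain ⟨K, hK⟩ : ∃ K : ℝ, K = √C₀ / ((η ^ N) ^ 2) ^ 2 := ⟨_, rfl⟩
    have hK0 : 0 < K := by rw [hK]; positivity
    have h2 : ∀ q : B2, rho q = 1 ^ 2 → ‖J (dil (η ^ N) q)‖
        ≤ Real.exp (l * (XX u η N q - (-Real.log K / l - c₀) - c₀)) := by
      intro q hq
      rw [one_pow] at hq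
      refine (hbd N q (by rw [hq]; nlinarith)).trans_eq ?_
      have e : l * (XX u η N q - (-Real.log K / l - c₀) - c₀) = Real.log K + l * XX u η N q := by
        field_simp; ring
      rw [e, Real.exp_add, Real.exp_log hK0, hK, hq]
      ring
    have h3 := hind N (-Real.log K / l - c₀) ⟨fun q hq => (h2 q hq).trans (by
      apply Real.exp_le_exp.2
      nlinarith), fun q hq _ => h2 q hq⟩
    refine h3.trans_eq ?_
    have e : -(l * (-Real.log K / l - c₀ + N * γ))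
        = Real.log K + l * c₀ + N * (-1) + (4 * N : ℕ) * Real.log η := by
      have e1 : l * (-Real.log K / l) = -Real.log K := by field_simp
      have e2 : l * (N * γ) = N * (1 - 4 * Real.log η) := by rw [← hlγ]; ring
      push_cast
      rw [mul_add, mul_sub, e1, e2]; ring
    rw [e, Real.exp_add, Real.exp_add, Real.exp_add, Real.exp_log hK0, Real.exp_nat_mul,
      Real.exp_nat_mul, Real.exp_log h0, hK, ← pow_mul, ← pow_mul, show N * (2 * 2) = 4 * N by ring]
    field_simp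
  have ht : Tendsto (fun N : ℕ => √C₀ * Real.exp (l * c₀) * (Real.exp (-1)) ^ N) atTop
      (𝓝 (√C₀ * Real.exp (l * c₀) * 0)) :=
    (tendsto_pow_atTop_nhds_zero_of_lt_one (Real.exp_pos _).le
      (Real.exp_lt_one_iff.2 (by norm_num))).const_mul _
  have := ge_of_tendsto' ht hfin
  rw [mul_zero] at this
  linarith

end Vale.Agent.P250
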