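import Vale.Agent.P250.RhoA

open scoped ContDiff Topology ComplexConjugate
open Set Filter Complex Metric

noncomputable section

namespace Vale.Agent.P250

open Vale.Agent.P255

variable {φ : B2 → ℝ}

namespace TopX

theorem sq_mul (η : ℂ) (t : ℝ) : ‖η * (Real.exp (t / 2) : ℂ)‖ ^ 2 = ‖η‖ ^ 2 * Real.exp t := by
  rw [norm_mul, Complex.norm_real, Real.norm_eq_abs, mul_pow, sq_abs, ← Real.exp_nat_mul]
  congr 2
  push_cast
  ring

theorem cancel (η : ℂ) (t : ℝ) : η * (Real.exp (-t / 2) : ℂ) * (Real.exp (t / 2) : ℂ) = η := by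
  rw [mul_assoc, ← Complex.ofReal_mul, ← Real.exp_add, show -t / 2 + t / 2 = 0 by ring]
  simp

theorem cancel' (η : ℂ) (t : ℝ) : η * (Real.exp (t / 2) : ℂ) * (Real.exp (-t / 2) : ℂ) = η := by
  rw [mul_right_comm, cancel]

theorem cont {ψ : B2 → ℝ} (h : ContinuousOn ψ SS) :
    ContinuousOn (fun y : E3 => (y.1, y.2 * (Real.exp (ψ y.1 / 2) : ℂ))) {y | y.1 ∈ SS} :=
  continuousOn_fst.prodMk (continuousOn_snd.mul (Complex.continuous_ofReal.comp_continuousOn
    (Real.continuous_exp.comp_continuousOn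
      ((h.comp continuousOn_fst fun _ hy => hy).div_const 2))))

theorem lt_one {η : ℂ} : η ∈ ball (0 : ℂ) 1 ↔ ‖η‖ ^ 2 < 1 := by
  rw [mem_ball_zero_iff, sq_lt_one_iff₀ (norm_nonneg _)]

theorem rr_back (q : B2) (ζ : ℂ) : rr φ (q, ζ * (Real.exp (-φ q / 2) : ℂ)) = ‖ζ‖ ^ 2 := by
  rw [rr, ← sq_mul, cancel]

end TopX

theorem isOpen_DD (hφ : ContinuousOn φ SS) : IsOpen (DD φ) := by
  have h : ContinuousOn (rr φ) {y | y.1 ∈ SS} :=
    (continuousOn_snd.norm.pow 2).mul (Real.continuous_exp.comp_continuousOn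
      (hφ.comp continuousOn_fst fun _ hy => hy))
  exact h.isOpen_inter_preimage (isOpen_SS.preimage continuous_fst) isOpen_Iio

theorem simply_DD (hφ : ContinuousOn φ SS) : SimplyConnectedSpace (DD φ) := by
  have hc : Convex ℝ (SS ×ˢ ball (0 : ℂ) 1) := convex_SS.prod (convex_ball _ _)
  have : ContractibleSpace (SS ×ˢ ball (0 : ℂ) 1 : Set E3) :=
    hc.contractibleSpace ⟨((0, I), 0), by simp [SS, rho], by simp⟩
  let e : DD φ ≃ₜ (SS ×ˢ ball (0 : ℂ) 1 : Set E3) :=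
    { toFun := fun y => ⟨(y.1.1, y.1.2 * (Real.exp (φ y.1.1 / 2) : ℂ)), y.2.1,
        TopX.lt_one.2 ((TopX.sq_mul _ _).trans_lt y.2.2)⟩
      invFun := fun y => ⟨(y.1.1, y.1.2 * (Real.exp (-φ y.1.1 / 2) : ℂ)), y.2.1,
        (TopX.rr_back _ _).trans_lt (TopX.lt_one.1 y.2.2)⟩
      left_inv := fun y => Subtype.ext (Prod.ext rfl (TopX.cancel' _ _))
      right_inv := fun y => Subtype.ext (Prod.ext rfl (TopX.cancel _ _))
      continuous_toFun := ((TopX.cont hφ).comp_continuous continuous_subtype_val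
        fun y => y.2.1).subtype_mk _
      continuous_invFun := ((TopX.cont hφ.neg).comp_continuous continuous_subtype_val
        fun y => y.2.1).subtype_mk _ }
  have := e.contractibleSpace
  infer_instance

/-- sublevel sets of `Psi` are relatively compact -/
theorem Psi_proper (hφ : ContinuousOn φ SS) (M : ℝ) :
    ∃ K, IsCompact K ∧ K ⊆ DD φ ∧ ∀ y ∈ DD φ, Psi φ y ≤ M → y ∈ K := by
  have δ0 := Real.exp_pos (-M)
  have rc : Continuous rho := by unfold rho; fun_prop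
  have k0 : IsCompact (closedBall (0 : B2) (2 * Real.exp M) ∩ {q | Real.exp (-M) ≤ rho q}) :=
    (isCompact_closedBall _ _).inter_right (isClosed_le continuous_const rc)
  have k1 : IsCompact (closedBall (0 : ℂ) 1 ∩ {ζ | ‖ζ‖ ^ 2 ≤ 1 - Real.exp (-M)}) :=
    (isCompact_closedBall _ _).inter_right (isClosed_le (by fun_prop) continuous_const)
  refine ⟨_, (k0.prod k1).image_of_continuousOn ((TopX.cont hφ.neg).mono
    fun y hy => δ0.trans_le hy.1.2), ?_, fun y hy h => ?_⟩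
  · rintro _ ⟨y, hy, rfl⟩
    exact ⟨δ0.trans_le hy.1.2, (TopX.rr_back _ _).trans_lt
      (lt_of_le_of_lt hy.2.2 (sub_lt_self _ δ0))⟩
  · have ρ0 : 0 < rho y.1 := hy.1
    have r1 : 0 < 1 - rr φ y := sub_pos.2 hy.2
    have r0 : 0 ≤ rr φ y := by unfold rr; positivity
    have z2 : ‖y.1.1‖ ^ 2 = y.1.1.re ^ 2 + y.1.1.im ^ 2 := by
      rw [Complex.sq_norm, Complex.normSq_apply]
      ring
    have a1 : 1 + rho y.1 + ‖y.1.1‖ ^ 2 / 2 ≤ ‖y.1.2 + I * y.1.1 ^ 2 / 2 + I‖ := by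
      refine le_trans (le_of_eq ?_) (Complex.im_le_norm _)
      rw [z2]
      simp [rho, sq]
      ring
    have a2 : ‖y.1.2‖ ≤ ‖y.1.2 + I * y.1.1 ^ 2 / 2 + I‖ + ‖y.1.1‖ ^ 2 / 2 + 1 := by
      have h1 := norm_sub_le (y.1.2 + I * y.1.1 ^ 2 / 2 + I) I
      have h2 := norm_sub_le (y.1.2 + I * y.1.1 ^ 2 / 2) (I * y.1.1 ^ 2 / 2)
      simp only [add_sub_cancel_right, norm_div, norm_mul, norm_I, norm_pow, one_mul,
        Complex.norm_ofNat] at h1 h2
      linarith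
    unfold Psi phi0 at h
    rw [Real.log_pow, Nat.cast_ofNat] at h
    generalize ‖y.1.2 + I * y.1.1 ^ 2 / 2 + I‖ = a at *
    have z0 := sq_nonneg ‖y.1.1‖
    have l1 : Real.log (rho y.1) ≤ Real.log a := Real.log_le_log ρ0 (by linarith)
    have l2 : 0 ≤ Real.log a := Real.log_nonneg (by linarith)
    have l3 : Real.log (1 - rr φ y) ≤ 0 := Real.log_nonpos r1.le (by linarith)
    have b1 : a ≤ Real.exp M := (Real.log_le_iff_le_exp (by linarith)).1 (by linarith)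
    have b2 : Real.exp (-M) ≤ rho y.1 := (Real.le_log_iff_exp_le ρ0).1 (by linarith)
    have b3 : Real.exp (-M) ≤ 1 - rr φ y := (Real.le_log_iff_exp_le r1).1 (by linarith)
    have b4 : ‖y.2 * (Real.exp (φ y.1 / 2) : ℂ)‖ ^ 2 = rr φ y := TopX.sq_mul _ _
    refine ⟨(y.1, y.2 * (Real.exp (φ y.1 / 2) : ℂ)), ⟨⟨?_, b2⟩, ?_, ?_⟩,
      Prod.ext rfl (TopX.cancel' _ _)⟩
    · rw [mem_closedBall_zero_iff, Prod.norm_def]
      exact max_le (by nlinarith [sq_nonneg (‖y.1.1‖ - 1)]) (by linarith)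
    · exact ball_subset_closedBall (TopX.lt_one.2 (b4.trans_lt hy.2))
    · exact b4.trans_le (by linarith)

end Vale.Agent.P250
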