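import Vale.Agent.P250.Hol
import Vale.Agent.P250.Top

open scoped ContDiff Topology ComplexConjugate
open Set Filter Complex Metric

noncomputable section

namespace Vale.Agent.P250

open Vale.Agent.P255

namespace JacX

def det3 (a b c : E3) : ℂ :=
  a.1.1 * (b.1.2 * c.2 - b.2 * c.1.2) - a.1.2 * (b.1.1 * c.2 - b.2 * c.1.1)
    + a.2 * (b.1.1 * c.1.2 - b.1.2 * c.1.1)

def dt (L : E3 →L[ℂ] E3) : ℂ := det3 (L ((1, 0), 0)) (L ((0, 1), 0)) (L ((0, 0), 1))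

theorem dec (L : E3 →L[ℂ] E3) (a : E3) :
    L a = a.1.1 • L ((1, 0), 0) + a.1.2 • L ((0, 1), 0) + a.2 • L ((0, 0), 1) := by
  rw [← map_smul, ← map_smul, ← map_smul, ← map_add, ← map_add]
  simp [Prod.mk_zero_zero]

theorem mul (L : E3 →L[ℂ] E3) (a b c : E3) : det3 (L a) (L b) (L c) = dt L * det3 a b c := by
  rw [dec L a, dec L b, dec L c]
  simp only [dt, det3, Prod.fst_add, Prod.snd_add, Prod.smul_fst, Prod.smul_snd, smul_eq_mul]
  ring

theorem le {a b c : E3} {K : ℝ} (ha : ‖a‖ ≤ K) (hb : ‖b‖ ≤ K) (hc : ‖c‖ ≤ K) :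
    ‖det3 a b c‖ ≤ 6 * K ^ 3 := by
  have K0 := (norm_nonneg _).trans ha
  have p : ∀ a : E3, ‖a‖ ≤ K → ‖a.1.1‖ ≤ K ∧ ‖a.1.2‖ ≤ K ∧ ‖a.2‖ ≤ K := fun a h =>
    ⟨(_root_.norm_fst_le _).trans ((_root_.norm_fst_le _).trans h),
      (norm_snd_le _).trans ((_root_.norm_fst_le _).trans h), (norm_snd_le _).trans h⟩
  have q : ∀ x y z u v : ℂ, ‖x‖ ≤ K → ‖y‖ ≤ K → ‖z‖ ≤ K → ‖u‖ ≤ K → ‖v‖ ≤ K →
      ‖x * (y * z - u * v)‖ ≤ K * (K * K + K * K) := fun x y z u v h1 h2 h3 h4 h5 => by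
    rw [norm_mul]
    refine mul_le_mul h1 ((norm_sub_le _ _).trans ?_) (norm_nonneg _) K0
    rw [norm_mul, norm_mul]
    gcongr
  obtain ⟨a1, a2, a3⟩ := p a ha
  obtain ⟨b1, b2, b3⟩ := p b hb
  obtain ⟨c1, c2, c3⟩ := p c hc
  refine (norm_add_le_of_le (norm_sub_le_of_le (q _ _ _ _ _ a1 b2 c3 b3 c2)
    (q _ _ _ _ _ a2 b1 c3 b3 c1)) (q _ _ _ _ _ a3 b1 c2 b2 c1)).trans_eq (by ring)

theorem mem {φ : B2 → ℝ} {q : B2} (hq : q ∈ SS) : (q, (0 : ℂ)) ∈ DD φ := ⟨hq, by simp [rr]⟩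

end JacX
open JacX

theorem exists_J {φ : B2 → ℝ} (hφ : ContinuousOn φ SS) {Ω : Set E3} {F F' : E3 → E3}
    (hΩ : IsOpen Ω) (hb : Bornology.IsBounded Ω) (hF : DifferentiableOn ℂ F (DD φ))
    (hF' : DifferentiableOn ℂ F' Ω) (hm : MapsTo F (DD φ) Ω) (hl : LeftInvOn F' F (DD φ)) :
    ∃ (J : B2 → ℂ) (C : ℝ), LH J ∧ (∀ q ∈ SS, J q ≠ 0) ∧
      ∀ q ∈ SS, ‖J q‖ ^ 2 * rho q ^ 3 ≤ C * Real.exp (φ q) := by
  obtain ⟨M, hM⟩ := hb.exists_norm_le
  have hM' : ∀ y ∈ DD φ, ‖F y‖ ≤ M := fun y hy => hM _ (hm hy)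
  have hD := isOpen_DD hφ
  refine ⟨fun q => dt (fderiv ℂ F (q, 0)), (6 * (2 * M + 1) ^ 3) ^ 2, fun q v => ?_,
    fun q hq h0 => ?_, fun q hq => ?_⟩
  · have k : ∀ e, DifferentiableOn ℂ (fun s : ℂ => fderiv ℂ F (q + s • v, 0) e)
        {s | q + s • v ∈ SS} := fun e => by
      simpa using (fderiv_line hD hF hM' (q, 0) (v, 0) e).mono
        (s := {s : ℂ | q + s • v ∈ SS}) fun s hs => by simpa using mem (φ := φ) hs
    have k1 := k ((1, 0), 0)
    have k2 := k ((0, 1), 0)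
    have k3 := k ((0, 0), 1)
    simp only [dt, det3]
    fun_prop
  · have h1 := ((hF'.differentiableAt (hΩ.mem_nhds (hm (mem hq)))).hasFDerivAt.comp (q, 0)
      (hF.differentiableAt (hD.mem_nhds (mem hq))).hasFDerivAt).unique
      ((hasFDerivAt_id (q, (0 : ℂ))).congr_of_eventuallyEq
        (mem_of_superset (hD.mem_nhds (mem hq)) fun y hy => hl hy))
    have h2 : dt (ContinuousLinearMap.id ℂ E3) = 1 := by simp [dt, det3]
    rw [← h1, dt] at h2
    simp only [ContinuousLinearMap.comp_apply] at h2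
    rw [mul, ← dt, show dt _ = 0 from h0, mul_zero] at h2
    exact zero_ne_one h2
  · have r0 : 0 < rho q := hq
    have s2 := Real.sq_sqrt r0.le
    have im1 : ∀ s : ℂ, ‖s‖ < 1 → |s.im| < 1 := fun s hs => (abs_im_le_norm s).trans_lt hs
    have b1 := fderiv_le hD hF hM' (q, 0) (((√(rho q) : ℝ), (2 * q.1.im * √(rho q) : ℝ)), 0)
      fun s hs => by
        refine ⟨?_, by simp [rr]⟩
        have := mul_pos r0 (sub_pos.2 ((sq_lt_one_iff_abs_lt_one _).2 (im1 s hs)))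
        show 0 < rho _
        generalize √(rho q) = t at *
        simp only [rho] at *
        simp
        nlinarith
    have b2 := fderiv_le hD hF hM' (q, 0) ((0, (rho q : ℝ)), 0) fun s hs => by
      refine ⟨?_, by simp [rr]⟩
      have := mul_pos r0 (show 0 < 1 + s.im by linarith [(abs_lt.1 (im1 s hs)).1])
      show 0 < rho _
      generalize hr : rho q = t at *
      simp only [rho] at *
      simp
      nlinarith
    have e1 : Real.exp (-φ q / 2) ^ 2 * Real.exp (φ q) = 1 := by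
      rw [← Real.exp_nat_mul, ← Real.exp_add, ← Real.exp_zero]; congr 1; push_cast; ring
    have b3 := fderiv_le hD hF hM' (q, 0) ((0, 0), (Real.exp (-φ q / 2) : ℝ)) fun s hs => by
      refine ⟨by simpa [Prod.mk_zero_zero] using hq, ?_⟩
      simp only [rr, Prod.snd_add, Prod.smul_snd, Prod.fst_add, Prod.smul_fst, zero_add,
        smul_eq_mul, norm_mul, norm_real, Real.norm_eq_abs, mul_pow, sq_abs, Prod.smul_mk,
        mul_zero, Prod.mk_zero_zero, add_zero, smul_zero]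
      rw [mul_assoc, e1, mul_one]
      exact pow_lt_one₀ (norm_nonneg _) hs two_ne_zero
    have h1 := pow_le_pow_left₀ (norm_nonneg _) (le b1 b2 b3) 2
    rw [mul] at h1
    simp only [det3, mul_zero, zero_mul, sub_zero, add_zero, norm_mul, norm_real,
      Real.norm_eq_abs, mul_pow, sq_abs, s2] at h1
    have h2 := mul_le_mul_of_nonneg_right h1 (Real.exp_pos (φ q)).le
    refine le_of_eq_of_le ?_ (h2.trans_eq (by ring))
    linear_combination (-‖dt (fderiv ℂ F (q, 0))‖ ^ 2 * rho q ^ 3) * e1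

end Vale.Agent.P250
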