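import Vale.Agent.P250.Her

open scoped ContDiff Topology ComplexConjugate
open Set Filter Complex Metric

noncomputable section

namespace Vale.Agent.P250

open Vale.Agent.P255

variable {q : B2}

theorem isOpen_SS : IsOpen SS :=
  isOpen_lt continuous_const (by unfold rho; fun_prop)

theorem convex_SS : Convex ℝ SS := by
  intro x hx y hy a b ha hb hab
  simp only [SS, rho, mem_ofPred_eq] at hx hy ⊢
  have e1 : (a • x + b • y).2.im = a * x.2.im + b * y.2.im := by simp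
  have e2 : (a • x + b • y).1.im = a * x.1.im + b * y.1.im := by simp
  rw [e1, e2]
  have hb' : b = 1 - a := by linarith
  subst hb'
  have h1 : 0 ≤ a * (1 - a) * (x.1.im - y.1.im) ^ 2 := by positivity
  have h2 : 0 < a * (x.2.im - x.1.im ^ 2) + (1 - a) * (y.2.im - y.1.im ^ 2) := by
    rcases ha.eq_or_lt with h | h
    · subst h; simpa using hy
    · have := mul_pos h hx
      have := mul_nonneg hb hy.le
      linarith
  nlinarith

theorem herm_om (q : B2) : Herm (om q) := by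
  refine ⟨fun X X' Y => ?_, fun c X Y => ?_, fun X Y => ?_⟩
  · simp only [om, lam, Prod.fst_add, Prod.snd_add]; ring
  · simp only [om, lam, Prod.smul_fst, Prod.smul_snd, smul_eq_mul]; ring
  · simp only [om, map_add, map_div₀, map_mul, conj_conj, conj_ofReal, map_pow, map_ofNat]
    ring

theorem qf_om (q X : B2) :
    qf (om q) X = ‖X.1‖ ^ 2 / (2 * rho q) + ‖lam q X‖ ^ 2 / (4 * rho q ^ 2) := by
  have e : om q X X = ((‖X.1‖ ^ 2 / (2 * rho q) + ‖lam q X‖ ^ 2 / (4 * rho q ^ 2) : ℝ) : ℂ) := by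
    unfold om
    rw [mul_conj', mul_conj']
    push_cast
    ring
  unfold qf
  rw [e, ofReal_re]

theorem om_nonneg (hq : q ∈ SS) (X : B2) : 0 ≤ qf (om q) X := by
  have h : 0 < rho q := hq
  rw [qf_om]
  positivity

theorem om_pos (hq : q ∈ SS) (X : B2) (hX : X ≠ 0) : 0 < qf (om q) X := by
  have h : 0 < rho q := hq
  rw [qf_om]
  by_cases h1 : X.1 = 0
  · have h2 : X.2 ≠ 0 := fun h2 => hX (Prod.ext h1 h2)
    have h3 : lam q X ≠ 0 := by simpa [lam, h1] using h2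
    have h4 : 0 < ‖lam q X‖ := norm_pos_iff.mpr h3
    positivity
  · have h4 : 0 < ‖X.1‖ := norm_pos_iff.mpr h1
    positivity

theorem nw_nonneg (q X : B2) : 0 ≤ nw q X := Real.sqrt_nonneg _

theorem nw_sq (hq : q ∈ SS) (X : B2) : nw q X ^ 2 = qf (om q) X :=
  Real.sq_sqrt (om_nonneg hq X)

theorem norm_om_le (hq : q ∈ SS) (X Y : B2) : ‖om q X Y‖ ≤ nw q X * nw q Y :=
  (herm_om q).cs' (om_nonneg hq) X Y

theorem norm_lam_le (hq : q ∈ SS) (X : B2) : ‖lam q X‖ ≤ 2 * rho q * nw q X := by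
  have h : 0 < rho q := hq
  have h0 := nw_nonneg q X
  refine (sq_le_sq₀ (norm_nonneg _) (by positivity)).mp ?_
  rw [mul_pow, nw_sq hq, qf_om]
  have e : (2 * rho q) ^ 2 * (‖X.1‖ ^ 2 / (2 * rho q) + ‖lam q X‖ ^ 2 / (4 * rho q ^ 2))
      = 2 * rho q * ‖X.1‖ ^ 2 + ‖lam q X‖ ^ 2 := by field_simp; ring
  rw [e]
  have : 0 ≤ 2 * rho q * ‖X.1‖ ^ 2 := by positivity
  linarith

theorem norm_fst_le (hq : q ∈ SS) (X : B2) : ‖X.1‖ ≤ √(2 * rho q) * nw q X := by
  have h : 0 < rho q := hq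
  have h0 := nw_nonneg q X
  refine (sq_le_sq₀ (norm_nonneg _) (by positivity)).mp ?_
  rw [mul_pow, nw_sq hq, qf_om, Real.sq_sqrt (by positivity)]
  have e : (2 * rho q) * (‖X.1‖ ^ 2 / (2 * rho q) + ‖lam q X‖ ^ 2 / (4 * rho q ^ 2))
      = ‖X.1‖ ^ 2 + ‖lam q X‖ ^ 2 / (2 * rho q) := by field_simp; ring
  rw [e]
  have : 0 ≤ ‖lam q X‖ ^ 2 / (2 * rho q) := by positivity
  linarith

theorem norm_pp_le (hq : q ∈ SS) (X : B2) : ‖pp q X‖ ≤ nw q X := by
  have h : 0 < rho q := hq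
  have e : ‖pp q X‖ = ‖lam q X‖ / (2 * rho q) := by
    unfold pp
    rw [norm_div, norm_mul, norm_I, one_mul, norm_mul, norm_real, Real.norm_of_nonneg h.le]
    simp
  rw [e, div_le_iff₀ (by positivity)]
  have := norm_lam_le hq X
  linarith

theorem RhoAx.nw_smul (q : B2) (c : ℂ) (X : B2) : nw q (c • X) = ‖c‖ * nw q X := by
  unfold nw
  rw [(herm_om q).qf_smul, Real.sqrt_mul (by positivity), Real.sqrt_sq (norm_nonneg _)]

theorem RhoAx.nw_vert (hq : q ∈ SS) (c : ℂ) : nw q (0, c) = ‖c‖ / (2 * rho q) := by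
  have h : 0 < rho q := hq
  unfold nw
  rw [qf_om]
  have e : ‖((0 : ℂ), c).1‖ ^ 2 / (2 * rho q) + ‖lam q (0, c)‖ ^ 2 / (4 * rho q ^ 2)
      = (‖c‖ / (2 * rho q)) ^ 2 := by
    simp only [lam, norm_zero, mul_zero, sub_zero]
    field_simp
    ring
  rw [e, Real.sqrt_sq (by positivity)]

theorem nw_G0_le (hq : q ∈ SS) (X Z : B2) : nw q (G0 q X Z) ≤ 3 * nw q X * nw q Z := by
  have h : 0 < rho q := hq
  have hX := nw_nonneg q X
  have hZ := nw_nonneg q Z
  have t1 : nw q (G0 q X Z) ≤ nw q (pp q Z • X + pp q X • Z) + nw q (0, I * X.1 * Z.1) :=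
    (herm_om q).tri (om_nonneg hq) _ _
  have t2 : nw q (pp q Z • X + pp q X • Z) ≤ nw q (pp q Z • X) + nw q (pp q X • Z) :=
    (herm_om q).tri (om_nonneg hq) _ _
  rw [RhoAx.nw_smul, RhoAx.nw_smul] at t2
  rw [RhoAx.nw_vert hq] at t1
  have a1 : ‖pp q Z‖ * nw q X ≤ nw q Z * nw q X :=
    mul_le_mul_of_nonneg_right (norm_pp_le hq Z) hX
  have a2 : ‖pp q X‖ * nw q Z ≤ nw q X * nw q Z :=
    mul_le_mul_of_nonneg_right (norm_pp_le hq X) hZ
  have a3 : ‖I * X.1 * Z.1‖ / (2 * rho q) ≤ nw q X * nw q Z := by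
    rw [div_le_iff₀ (by positivity), norm_mul, norm_mul, norm_I, one_mul]
    have b1 := norm_fst_le hq X
    have b2 := norm_fst_le hq Z
    have b3 : √(2 * rho q) * √(2 * rho q) = 2 * rho q := Real.mul_self_sqrt (by positivity)
    calc ‖X.1‖ * ‖Z.1‖ ≤ (√(2 * rho q) * nw q X) * (√(2 * rho q) * nw q Z) :=
          mul_le_mul b1 b2 (norm_nonneg _) (by positivity)
      _ = (√(2 * rho q) * √(2 * rho q)) * (nw q X * nw q Z) := by ring
      _ = nw q X * nw q Z * (2 * rho q) := by rw [b3]; ring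
  nlinarith

theorem G0_symm (q X Z : B2) : G0 q X Z = G0 q Z X := by
  unfold G0
  rw [add_comm (pp q Z • X), mul_right_comm I X.1 Z.1]

theorem G0_add (q X X' Z : B2) : G0 q (X + X') Z = G0 q X Z + G0 q X' Z := by
  apply Prod.ext
  · simp only [G0, pp, lam, Prod.fst_add, Prod.snd_add, Prod.smul_fst, smul_eq_mul]; ring
  · simp only [G0, pp, lam, Prod.fst_add, Prod.snd_add, Prod.smul_snd, smul_eq_mul]; ring

theorem G0_smul (q : B2) (c : ℂ) (X Z : B2) : G0 q (c • X) Z = c • G0 q X Z := by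
  apply Prod.ext
  · simp only [G0, pp, lam, Prod.fst_add, Prod.smul_fst, Prod.smul_snd, smul_eq_mul]; ring
  · simp only [G0, pp, lam, Prod.snd_add, Prod.smul_fst, Prod.smul_snd, smul_eq_mul]; ring

theorem rho_dil (m : ℝ) (q : B2) : rho (dil m q) = m ^ 2 * rho q := by
  have e1 : ((m : ℂ) ^ 2 * q.2).im = m ^ 2 * q.2.im := by
    rw [← ofReal_pow, im_ofReal_mul]
  have e2 : ((m : ℂ) * q.1).im = m * q.1.im := im_ofReal_mul _ _
  simp only [rho, dil]
  rw [e1, e2]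
  ring

theorem dil_dil (m m' : ℝ) (q : B2) : dil m (dil m' q) = dil (m * m') q := by
  apply Prod.ext
  · simp only [dil]; push_cast; ring
  · simp only [dil]; push_cast; ring

theorem dil_one (q : B2) : dil 1 q = q := by
  apply Prod.ext <;> simp [dil]

theorem dil_add_smul (m : ℝ) (q v : B2) (s : ℂ) : dil m (q + s • v) = dil m q + s • dil m v := by
  apply Prod.ext
  · simp only [dil, Prod.fst_add, Prod.smul_fst, smul_eq_mul]; ring
  · simp only [dil, Prod.snd_add, Prod.smul_snd, smul_eq_mul]; ring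

theorem nw_dil {m : ℝ} (hm : 0 < m) (hq : q ∈ SS) (X : B2) :
    nw (dil m q) (dil m X) = nw q X := by
  have h : 0 < rho q := hq
  have e2 : ((m : ℂ) * q.1).im = m * q.1.im := im_ofReal_mul _ _
  have el : lam (dil m q) (dil m X) = (m : ℂ) ^ 2 * lam q X := by
    simp only [lam, dil]
    rw [e2]
    push_cast
    ring
  have e1 : (dil m X).1 = (m : ℂ) * X.1 := rfl
  unfold nw
  rw [qf_om, qf_om, rho_dil, el, e1, norm_mul, norm_mul, norm_pow, norm_real,
    Real.norm_of_nonneg hm.le]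
  congr 1
  field_simp

theorem im_ell (a : ℝ) (q : B2) : (ell a q).im = rho q + (q.1.im - a) ^ 2 := by
  have e1 : (2 * (a : ℂ) * q.1).im = 2 * a * q.1.im := by
    have : (2 * (a : ℂ) * q.1) = ((2 * a : ℝ) : ℂ) * q.1 := by push_cast; ring
    rw [this, im_ofReal_mul]
  have e2 : (I * (a : ℂ) ^ 2).im = a ^ 2 := by
    rw [← ofReal_pow, I_mul_im, ofReal_re]
  simp only [ell, rho, add_im, sub_im]
  rw [e1, e2]
  ring

theorem ell_add_smul (a : ℝ) (q v : B2) (s : ℂ) :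
    ell a (q + s • v) = ell a q + s * (v.2 - 2 * (a : ℂ) * v.1) := by
  simp only [ell, Prod.fst_add, Prod.snd_add, Prod.smul_fst, Prod.smul_snd, smul_eq_mul]
  ring

/-- the derivative of `ell a` is small on the support of `u ∘ ell a` -/
theorem norm_ell_le (hq : q ∈ SS) {a : ℝ} (h : (ell a q).im ≤ 1 / 2) (X : B2) :
    ‖X.2 - 2 * (a : ℂ) * X.1‖ ≤ 5 * √(rho q) * nw q X := by
  have hr : 0 < rho q := hq
  have h0 := nw_nonneg q X
  rw [im_ell] at h
  have hs := sq_nonneg (q.1.im - a)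
  have h1 : |q.1.im - a| ≤ 1 := by
    apply abs_le_one_iff_mul_self_le_one.mpr
    nlinarith
  have e : X.2 - 2 * (a : ℂ) * X.1 = lam q X + ((2 * (q.1.im - a) : ℝ) : ℂ) * X.1 := by
    unfold lam; push_cast; ring
  have hsq : √(rho q) * √(rho q) = rho q := Real.mul_self_sqrt hr.le
  have hs0 : 0 ≤ √(rho q) := Real.sqrt_nonneg _
  have hs1 : √(rho q) ≤ 1 := Real.sqrt_le_one.mpr (by linarith)
  have b1 : rho q ≤ √(rho q) := by nlinarith
  have b2 : √(2 * rho q) ≤ 3 / 2 * √(rho q) := by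
    apply Real.sqrt_le_iff.mpr
    refine ⟨by positivity, ?_⟩
    nlinarith
  have c1 : ‖lam q X‖ ≤ 2 * √(rho q) * nw q X :=
    (norm_lam_le hq X).trans (mul_le_mul_of_nonneg_right (by linarith) h0)
  have c2 : ‖X.1‖ ≤ 3 / 2 * √(rho q) * nw q X :=
    (norm_fst_le hq X).trans (mul_le_mul_of_nonneg_right b2 h0)
  have c3 : ‖((2 * (q.1.im - a) : ℝ) : ℂ) * X.1‖ ≤ 2 * ‖X.1‖ := by
    rw [norm_mul, norm_real, Real.norm_eq_abs, abs_mul, abs_two]
    exact mul_le_mul_of_nonneg_right (by linarith) (norm_nonneg _)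
  rw [e]
  refine (norm_add_le _ _).trans ?_
  linarith

end Vale.Agent.P250
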