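import Vale.Agent.P250.Wb
import Vale.Agent.P250.Wc
import Vale.Agent.P250.RhoA

open scoped ContDiff Topology ComplexConjugate
open Set Filter Complex Metric

noncomputable section

namespace Vale.Agent.P250

open Vale.Agent.P255

variable {φ : B2 → ℝ} {y : E3}

namespace JetAX

theorem s1 (X : E3) : dz X (fun x : E3 => x.2) = fun _ => X.2 :=
  funext fun _ => dz_hol hasFDerivAt_snd X

theorem s2 (X : E3) : db X (fun x : E3 => x.2) = fun _ => 0 :=
  funext fun _ => db_hol hasFDerivAt_snd X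

theorem smc : ContDiff ℝ ∞ fun x : E3 => conj x.2 := conjCLE.contDiff.comp contDiff_snd

theorem a1 (X : E3) : dz X (fun x : E3 => x.2 * conj x.2) = fun x => X.2 * conj x.2 := by
  funext x
  rw [dz, W_mul differentiableAt_snd (smc.differentiable (by simp) x)]
  simp only [s1, dz_conj X fun x : E3 => x.2, s2, map_zero, mul_zero, add_zero]

theorem a2 (X : E3) : db X (fun x : E3 => x.2 * conj x.2) = fun x => conj X.2 * x.2 := by
  funext x
  rw [db, W_mul differentiableAt_snd (smc.differentiable (by simp) x)]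
  simp only [s1, db_conj X fun x : E3 => x.2, s2, zero_mul, zero_add, mul_comm]

theorem b1 (X : E3) (c : ℂ) : dz X (fun x : E3 => c * x.2) = fun _ => c * X.2 := by
  rw [dz, W_cmul c _ X fun x : E3 => x.2]
  simp only [s1]

theorem b2 (X : E3) (c : ℂ) : db X (fun x : E3 => c * x.2) = fun _ => 0 := by
  rw [db, W_cmul c _ X fun x : E3 => x.2]
  simp only [s2, mul_zero]

theorem c1 (X : E3) (c : ℂ) : dz X (fun x : E3 => c * conj x.2) = fun _ => 0 := by
  rw [dz, W_cmul c _ X fun x : E3 => conj x.2]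
  simp only [dz_conj X fun x : E3 => x.2, s2, map_zero, mul_zero]

theorem rr_eq (φ : B2 → ℝ) :
    cx (rr φ) = fun x : E3 => x.2 * conj x.2 * Complex.exp (cx φ x.1) := by
  funext x
  simp only [cx, rr, Complex.mul_conj']
  push_cast
  rfl

end JetAX

theorem rr_smooth (hφ : ContDiffOn ℝ ∞ φ SS) : ContDiffOn ℝ ∞ (rr φ) {y | y.1 ∈ SS} :=
  ((contDiff_norm_sq ℂ).comp contDiff_snd).contDiffOn.mul
    (hφ.comp contDiffOn_fst fun _ hy => hy).exp

/-- the jets of `r = |η|² e^φ`, in terms of the jets of `φ` -/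
theorem rr_jets (hφ : ContDiffOn ℝ ∞ φ SS) (hy : y.1 ∈ SS) (X Z Y V : E3) :
    let r := cx (rr φ)
    let f := cx φ
    let e : ℂ := (ka φ y : ℂ) ^ 2
    let η := y.2
    let x := dz X.1 f y.1
    let z := dz Z.1 f y.1
    let s := conj (dz Y.1 f y.1)
    let t := conj (dz V.1 f y.1)
    let xz := dz X.1 (dz Z.1 f) y.1
    let st := conj (dz Y.1 (dz V.1 f) y.1)
    let xs := j2 f y.1 X.1 Y.1
    let xt := j2 f y.1 X.1 V.1
    let zs := j2 f y.1 Z.1 Y.1
    let zt := j2 f y.1 Z.1 V.1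
    let xzs := j3 f y.1 X.1 Z.1 Y.1
    let xzt := j3 f y.1 X.1 Z.1 V.1
    let xst := conj (j3 f y.1 Y.1 V.1 X.1)
    let zst := conj (j3 f y.1 Y.1 V.1 Z.1)
    r y = e * (η * conj η) ∧
    dz X r y = e * (conj η * (X.2 + η * x)) ∧
    db Y r y = e * (η * (conj Y.2 + conj η * s)) ∧
    dz X (dz Z r) y = e * (conj η * (X.2 * z + Z.2 * x + η * (x * z + xz))) ∧
    db Y (db V r) y = e * (η * (conj Y.2 * t + conj V.2 * s + conj η * (s * t + st))) ∧
    dz X (db Y r) y = e * ((X.2 + η * x) * (conj Y.2 + conj η * s) + η * conj η * xs) ∧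
    dz X (dz Z (db Y r)) y = e * ((X.2 * z + Z.2 * x + η * (x * z + xz)) * (conj Y.2 + conj η * s)
      + conj η * ((X.2 + η * x) * zs + (Z.2 + η * z) * xs + η * xzs)) ∧
    dz X (db Y (db V r)) y = e * ((X.2 + η * x)
        * (conj Y.2 * t + conj V.2 * s + conj η * (s * t + st))
      + η * ((conj Y.2 + conj η * s) * xt + (conj V.2 + conj η * t) * xs + conj η * xst)) ∧
    dz X (dz Z (db Y (db V r))) y = e * ((X.2 * z + Z.2 * x + η * (x * z + xz))
        * (conj Y.2 * t + conj V.2 * s + conj η * (s * t + st))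
      + (X.2 + η * x) * ((conj Y.2 + conj η * s) * zt + (conj V.2 + conj η * t) * zs + conj η * zst)
      + (Z.2 + η * z) * ((conj Y.2 + conj η * s) * xt + (conj V.2 + conj η * t) * xs + conj η * xst)
      + η * ((conj Y.2 + conj η * s) * xzt + (conj V.2 + conj η * t) * xzs
        + conj η * (xs * zt + xt * zs + j4 f y.1 X.1 Z.1 Y.1 V.1))) := by
  have hU : IsOpen {y : E3 | y.1 ∈ SS} := isOpen_SS.preimage continuous_fst
  have hf := cx_smooth hφ
  have hF : ContDiffOn ℝ ∞ (fun x : E3 => cx φ x.1) {y | y.1 ∈ SS} :=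
    hf.comp contDiffOn_fst fun _ hy => hy
  have hE : ContDiffOn ℝ ∞ (fun x : E3 => Complex.exp (cx φ x.1)) {y | y.1 ∈ SS} := hF.cexp
  have hA : ContDiffOn ℝ ∞ (fun x : E3 => x.2 * conj x.2) {y | y.1 ∈ SS} :=
    (contDiff_snd.mul JetAX.smc).contDiffOn
  have L := leib hU hA hE hy
  have dE : ∀ x ∈ (univ : Set ℂ), HasDerivAt Complex.exp (Complex.exp x) x :=
    fun x _ => Complex.hasDerivAt_exp x
  have D := fdb hU hF (mapsTo_univ _ _) dE dE dE dE hy
  have F1 : ∀ (e : ℂ) (a : E3), W e a (fun x : E3 => cx φ x.1) y = W e a.1 (cx φ) y.1 :=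
    fun e a => by
      simpa using W_aff (ContinuousLinearMap.fst ℂ B2 ℂ) 0 (h := cx φ) (y := y)
        (by simpa using dAt isOpen_SS hf hy) e a
  have F := W_aff4 (ContinuousLinearMap.fst ℂ B2 ℂ) 0 (y := y) isOpen_SS hf (by simpa using hy)
  simp only [ContinuousLinearMap.coe_fst', add_zero] at F
  have F2 := fun e3 e4 c d => (F 0 0 e3 e4 0 0 c d).1
  have F3 := fun e2 e3 e4 b c d => (F 0 e2 e3 e4 0 b c d).2.1
  have F4 := fun e1 e2 e3 e4 a b c d => (F e1 e2 e3 e4 a b c d).2.2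
  simp only [F1, F2, F3, F4] at D
  have D1 := fun e4 d => (D 0 0 0 e4 0 0 0 d).1
  have D2 := fun e3 e4 c d => (D 0 0 e3 e4 0 0 c d).2.1
  have D3 := fun e2 e3 e4 b c d => (D 0 e2 e3 e4 0 b c d).2.2.1
  have D4 := fun e1 e2 e3 e4 a b c d => (D e1 e2 e3 e4 a b c d).2.2.2
  simp only [D1, D2, D3, D4] at L
  have L1 := fun e4 d => (L 0 0 0 e4 0 0 0 d).1
  have L2 := fun e3 e4 c d => (L 0 0 e3 e4 0 0 c d).2.1
  have L3 := fun e2 e3 e4 b c d => (L 0 e2 e3 e4 0 b c d).2.2.1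
  have L4 := fun e1 e2 e3 e4 a b c d => (L e1 e2 e3 e4 a b c d).2.2.2
  have he : (ka φ y : ℂ) ^ 2 = Complex.exp (cx φ y.1) := by
    rw [ka, cx, ← Complex.ofReal_pow, ← Real.exp_nat_mul, Complex.ofReal_exp]
    congr 2
    push_cast
    ring
  have c1 := fun Y => congrFun (db_cx φ Y) y.1
  have c2 := fun Y V => congrFun (dbdb_cx φ Y V) y.1
  have c3 := dzdbdb_cx isOpen_SS hφ hy
  dsimp only
  rw [JetAX.rr_eq, he]
  simp only [L1, L2, L3, L4, JetAX.a1, JetAX.a2, JetAX.b1, JetAX.b2, JetAX.c1, W_const, c1, c2,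
    c3]
  unfold j2 j3 j4
  refine ⟨?_, ?_, ?_, ?_, ?_, ?_, ?_, ?_, ?_⟩ <;> ring

end Vale.Agent.P250
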