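import Vale.Agent.P250.JetA
import Vale.Agent.P250.RhoB
import Vale.Agent.P250.Top

open scoped ContDiff Topology ComplexConjugate
open Set Filter Complex Metric

noncomputable section

namespace Vale.Agent.P250

open Vale.Agent.P255

variable {φ : B2 → ℝ} {y : E3}

theorem ss_eq (hy : y ∈ DD φ) : ss φ y = 1 + ta φ y := by
  have h : 1 - rr φ y ≠ 0 := (sub_pos.2 hy.2).ne'
  unfold ta ss
  field_simp
  ring

namespace JetBX

theorem rr_nonneg (φ : B2 → ℝ) (y : E3) : 0 ≤ rr φ y := by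
  unfold rr; positivity

theorem ss_pos (hy : y ∈ DD φ) : 0 < ss φ y := inv_pos.2 (sub_pos.2 hy.2)

theorem ka_pos (φ : B2 → ℝ) (y : E3) : 0 < ka φ y := Real.exp_pos _

theorem ka_sq (φ : B2 → ℝ) (y : E3) : ka φ y ^ 2 = Real.exp (φ y.1) := by
  unfold ka; rw [← Real.exp_nat_mul]; congr 1; push_cast; ring

theorem rr_eq (φ : B2 → ℝ) (y : E3) :
    (rr φ y : ℂ) = (ka φ y : ℂ) ^ 2 * (y.2 * conj y.2) := by
  unfold rr
  rw [← ka_sq, mul_conj, normSq_eq_norm_sq]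
  push_cast; ring

theorem hS (hy : y ∈ DD φ) :
    (ss φ y : ℂ) * (1 - (ka φ y : ℂ) ^ 2 * (y.2 * conj y.2)) = 1 := by
  rw [← rr_eq]
  have h : 1 - rr φ y ≠ 0 := (sub_pos.2 hy.2).ne'
  have : ss φ y * (1 - rr φ y) = 1 := inv_mul_cancel₀ h
  exact_mod_cast this

def V0 : Set ℂ := {x | 1 - x ∈ slitPlane}

theorem ne0 {x : ℂ} (hx : x ∈ V0) : 1 - x ≠ 0 := slitPlane_ne_zero hx

theorem d0 (x : ℂ) (hx : x ∈ V0) : HasDerivAt (fun x => -log (1 - x)) ((1 - x)⁻¹) x := by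
  have h := ((hasDerivAt_id x).const_sub 1).clog hx
  refine h.neg.congr_deriv ?_
  simp [neg_div]

theorem dn (x : ℂ) (hx : x ∈ V0) (c : ℂ) (n : ℕ) :
    HasDerivAt (fun x => c * (1 - x)⁻¹ ^ n) (c * n * (1 - x)⁻¹ ^ (n + 1)) x := by
  have h := ((((hasDerivAt_id x).const_sub 1).inv (ne0 hx)).pow n).const_mul c
  refine HasDerivAt.congr_deriv h ?_
  have := ne0 hx
  cases n with
  | zero => simp
  | succ n =>
    simp only [id, Nat.add_sub_cancel, Pi.inv_apply, neg_neg, div_eq_mul_inv, ← inv_pow]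
    ring

theorem maps (φ : B2 → ℝ) : MapsTo (cx (rr φ)) (DD φ) V0 := fun y hy => by
  show 1 - (rr φ y : ℂ) ∈ slitPlane
  have : (1 : ℂ) - (rr φ y : ℂ) = ((1 - rr φ y : ℝ) : ℂ) := by push_cast; ring
  rw [this]
  exact ofReal_mem_slitPlane.2 (sub_pos.2 hy.2)

theorem nl_eq (φ : B2 → ℝ) :
    EqOn (cx fun y => -Real.log (1 - rr φ y)) (fun x => -log (1 - cx (rr φ) x)) (DD φ) :=
  fun y hy => by
  show ((-Real.log (1 - rr φ y) : ℝ) : ℂ) = -log (1 - (rr φ y : ℂ))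
  rw [ofReal_neg, ofReal_log (sub_pos.2 hy.2).le]
  push_cast; rfl

theorem inv_eq (φ : B2 → ℝ) (y : E3) : (1 - cx (rr φ) y)⁻¹ = (ss φ y : ℂ) := by
  unfold ss cx; push_cast; rfl

theorem ta_eq (φ : B2 → ℝ) (y : E3) :
    (ta φ y : ℂ) = (ka φ y : ℂ) ^ 2 * (y.2 * conj y.2) * (ss φ y : ℂ) := by
  unfold ta; rw [← rr_eq]; push_cast; rfl

theorem sm (hφ : ContDiffOn ℝ ∞ φ SS) : ContDiffOn ℝ ∞ (cx (rr φ)) (DD φ) :=
  cx_smooth ((rr_smooth hφ).mono fun _ hy => hy.1)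

end JetBX

open JetBX

theorem ta_nonneg (hy : y ∈ DD φ) : 0 ≤ ta φ y := mul_nonneg (rr_nonneg φ y) (ss_pos hy).le

theorem norm_mu (hy : y ∈ DD φ) : ‖mu φ y‖ ^ 2 = ta φ y * (1 + ta φ y) := by
  rw [← ss_eq hy]
  unfold mu ta rr
  rw [← ka_sq]
  simp only [norm_mul, norm_real, Real.norm_eq_abs, RCLike.norm_conj, mul_pow, sq_abs]
  ring

theorem sk_ne (hy : y ∈ DD φ) : (ss φ y : ℂ) * (ka φ y : ℂ) ≠ 0 := by
  have := mul_pos (ss_pos hy) (ka_pos φ y)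
  exact_mod_cast this.ne'

theorem nl_smooth (hφ : ContDiffOn ℝ ∞ φ SS) :
    ContDiffOn ℝ ∞ (fun y => -Real.log (1 - rr φ y)) (DD φ) :=
  ((contDiffOn_const.sub ((rr_smooth hφ).mono fun _ hy => hy.1)).log
    fun _ hy => (sub_pos.2 hy.2).ne').neg

theorem Phi_smooth (hφ : ContDiffOn ℝ ∞ φ SS) (c : ℝ) : ContDiffOn ℝ ∞ (Phi φ c) (DD φ) := by
  have h1 : ContDiffOn ℝ ∞ (fun y : E3 => phi0 y.1) (DD φ) :=
    phi0_smooth.comp contDiffOn_fst fun _ hy => hy.1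
  exact ((contDiffOn_const.mul h1).add (nl_smooth hφ)).congr fun y _ => by
    unfold Phi; ring

theorem JetBX.fd (hφ : ContDiffOn ℝ ∞ φ SS) (hy : y ∈ DD φ) (e1 e2 e3 e4 : ℂ) (a b c d : E3) :
    let N := cx fun y => -Real.log (1 - rr φ y)
    let f := cx (rr φ)
    let S : ℂ := ss φ y
    W e4 d N y = S * W e4 d f y ∧
    W e3 c (W e4 d N) y = S ^ 2 * (W e3 c f y * W e4 d f y) + S * W e3 c (W e4 d f) y ∧
    W e2 b (W e3 c (W e4 d N)) y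
      = 2 * S ^ 3 * (W e2 b f y * W e3 c f y * W e4 d f y)
        + S ^ 2 * (W e2 b (W e3 c f) y * W e4 d f y + W e3 c f y * W e2 b (W e4 d f) y
          + W e2 b f y * W e3 c (W e4 d f) y)
        + S * W e2 b (W e3 c (W e4 d f)) y ∧
    W e1 a (W e2 b (W e3 c (W e4 d N))) y
      = 6 * S ^ 4 * (W e1 a f y * W e2 b f y * W e3 c f y * W e4 d f y)
        + 2 * S ^ 3 * (W e1 a (W e2 b f) y * W e3 c f y * W e4 d f y
          + W e2 b f y * W e1 a (W e3 c f) y * W e4 d f y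
          + W e2 b f y * W e3 c f y * W e1 a (W e4 d f) y
          + W e1 a f y * W e2 b (W e3 c f) y * W e4 d f y
          + W e1 a f y * W e3 c f y * W e2 b (W e4 d f) y
          + W e1 a f y * W e2 b f y * W e3 c (W e4 d f) y)
        + S ^ 2 * (W e1 a (W e2 b (W e3 c f)) y * W e4 d f y
          + W e2 b (W e3 c f) y * W e1 a (W e4 d f) y
          + W e1 a (W e3 c f) y * W e2 b (W e4 d f) y
          + W e3 c f y * W e1 a (W e2 b (W e4 d f)) y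
          + W e1 a (W e2 b f) y * W e3 c (W e4 d f) y
          + W e2 b f y * W e1 a (W e3 c (W e4 d f)) y
          + W e1 a f y * W e2 b (W e3 c (W e4 d f)) y)
        + S * W e1 a (W e2 b (W e3 c (W e4 d f))) y := by
  intro N f S
  have hD := isOpen_DD hφ.continuousOn
  have h := fdb (F0 := fun x => -log (1 - x)) (F1 := fun x => 1 * (1 - x)⁻¹ ^ 1)
    (F2 := fun x => 1 * (1 - x)⁻¹ ^ 2) (F3 := fun x => 2 * (1 - x)⁻¹ ^ 3)
    (F4 := fun x => 6 * (1 - x)⁻¹ ^ 4) hD (sm hφ) (maps φ)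
    (fun x hx => by simpa using d0 x hx)
    (fun x hx => by simpa using dn x hx 1 1)
    (fun x hx => by simpa using dn x hx 1 2)
    (fun x hx => by
      refine (dn x hx 2 3).congr_deriv ?_
      push_cast; ring) hy e1 e2 e3 e4 a b c d
  have q1 := W_eqOn hD (nl_eq φ) e4 d
  have q2 := W_eqOn hD q1 e3 c
  have q3 := W_eqOn hD q2 e2 b
  have q4 := W_eqOn hD q3 e1 a
  simp only [inv_eq, one_mul, pow_one] at h
  exact ⟨(q1 hy).trans h.1, (q2 hy).trans h.2.1, (q3 hy).trans h.2.2.1, (q4 hy).trans h.2.2.2⟩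

theorem nl_dz (hφ : ContDiffOn ℝ ∞ φ SS) (hy : y ∈ DD φ) (X : E3) :
    dz X (cx fun y => -Real.log (1 - rr φ y)) y = (ka φ y : ℂ) * conj y.2 * nn φ y X := by
  have h := (fd hφ hy 0 0 0 (-I) X X X X).1
  have r := (rr_jets hφ hy.1 X X X X).2.1
  refine h.trans ?_
  rw [show W (-I) X (cx (rr φ)) y = _ from r]
  unfold nn
  ring

/-- jets of `-log (1 - r)` -/
theorem nl_jets (hφ : ContDiffOn ℝ ∞ φ SS) (hy : y ∈ DD φ) (X Z Y V : E3) :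
    let N := cx fun y => -Real.log (1 - rr φ y)
    let f := cx φ
    let τ : ℂ := ta φ y
    let θ := j2 f y.1
    let n := nn φ y
    let μ := mu φ y
    j2 N y X Y = τ * θ X.1 Y.1 + n X * conj (n Y) ∧
    j3 N y X Z Y = τ * j3 f y.1 X.1 Z.1 Y.1 + μ * (n X * θ Z.1 Y.1 + n Z * θ X.1 Y.1)
      + mm φ y X Z * conj (n Y) ∧
    j4 N y X Z Y V = τ * j4 f y.1 X.1 Z.1 Y.1 V.1
      + τ * (1 + τ) * (θ X.1 Y.1 * θ Z.1 V.1 + θ X.1 V.1 * θ Z.1 Y.1)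
      + (μ * n X * conj (j3 f y.1 Y.1 V.1 Z.1) + μ * n Z * conj (j3 f y.1 Y.1 V.1 X.1)
        + conj μ * conj (n Y) * j3 f y.1 X.1 Z.1 V.1 + conj μ * conj (n V) * j3 f y.1 X.1 Z.1 Y.1)
      + (1 + 2 * τ) * (θ X.1 Y.1 * n Z * conj (n V) + θ X.1 V.1 * n Z * conj (n Y)
        + θ Z.1 Y.1 * n X * conj (n V) + θ Z.1 V.1 * n X * conj (n Y))
      + 2 * n X * n Z * conj (n Y) * conj (n V) + mm φ y X Z * conj (mm φ y Y V) := by
  intro N f τ θ n μ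
  obtain ⟨-, -, h3, h4⟩ := fd hφ hy (-I) (-I) I I X Z Y V
  obtain ⟨-, -, h3', -⟩ := fd hφ hy 0 (-I) (-I) I X X Z Y
  obtain ⟨-, h2', -, -⟩ := fd hφ hy 0 0 (-I) I X X X Y
  obtain ⟨-, rX, rY, rXZ, rYV, rXY, rXZY, rXYV, r4⟩ := rr_jets hφ hy.1 X Z Y V
  obtain ⟨-, rZ, -, -, -, rZY, -, rZYV, -⟩ := rr_jets hφ hy.1 Z X Y V
  obtain ⟨-, -, rV, -, -, rXV, rXZV, -, -⟩ := rr_jets hφ hy.1 X Z V Y
  obtain ⟨-, -, -, -, -, rZV, -, -, -⟩ := rr_jets hφ hy.1 Z X V Y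
  have hs := hS hy
  clear h3
  simp only [dz, db] at rX rY rXZ rYV rXY rXZY rXYV r4 rZ rZY rZYV rV rXV rXZV rZV
  refine ⟨h2'.trans ?_, h3'.trans ?_, h4.trans ?_⟩
  · rw [rX, rY, rXY]
    simp only [τ, θ, n, f, nn, ta_eq, map_mul, map_add, conj_ofReal, conj_conj, dz]
    generalize W (-I) X.1 (cx φ) y.1 = x at *
    linear_combination (-(ss φ y : ℂ) * (ka φ y) ^ 2 * (X.2 + y.2 * x)
      * (conj Y.2 + conj y.2 * conj (W (-I) Y.1 (cx φ) y.1))) * hs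
  · rw [rX, rY, rZ, rXZ, rXY, rZY, rXZY]
    simp only [τ, θ, n, μ, f, nn, mu, mm, ta_eq, map_mul, map_add, conj_ofReal, conj_conj, dz]
    generalize hA : X.2 * W (-I) Z.1 (cx φ) y.1 + Z.2 * W (-I) X.1 (cx φ) y.1 + y.2 *
      (W (-I) X.1 (cx φ) y.1 * W (-I) Z.1 (cx φ) y.1 + W (-I) X.1 (W (-I) Z.1 (cx φ)) y.1) = A
    rw [mul_comm (W (-I) Z.1 (cx φ) y.1) X.2, hA]
    generalize X.2 + y.2 * W (-I) X.1 (cx φ) y.1 = a
    generalize Z.2 + y.2 * W (-I) Z.1 (cx φ) y.1 = b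
    generalize conj Y.2 + conj y.2 * conj (W (-I) Y.1 (cx φ) y.1) = c
    generalize j2 (cx φ) y.1 X.1 Y.1 = xs
    generalize j2 (cx φ) y.1 Z.1 Y.1 = zs
    generalize (ss φ y : ℂ) = S at *
    generalize (ka φ y : ℂ) = k at *
    generalize conj y.2 = ζ at *
    linear_combination (-(2*S^2*a*b*c*k^4*ζ + S*b*k^2*xs*ζ + S*a*k^2*zs*ζ + A*S*c*k^2)) * hs
  · rw [rX, rY, rZ, rV, rXZ, rYV, rXY, rZY, rXV, rZV, rXZY, rXZV, rXYV, rZYV, r4]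
    simp only [τ, θ, n, μ, f, nn, mu, mm, ta_eq, map_mul, map_add, conj_ofReal, conj_conj, dz,
      map_ofNat]
    generalize hA : X.2 * W (-I) Z.1 (cx φ) y.1 + Z.2 * W (-I) X.1 (cx φ) y.1 + y.2 *
      (W (-I) X.1 (cx φ) y.1 * W (-I) Z.1 (cx φ) y.1 + W (-I) X.1 (W (-I) Z.1 (cx φ)) y.1) = A
    generalize hB : conj Y.2 * conj (W (-I) V.1 (cx φ) y.1)
      + conj V.2 * conj (W (-I) Y.1 (cx φ) y.1) + conj y.2 *
      (conj (W (-I) Y.1 (cx φ) y.1) * conj (W (-I) V.1 (cx φ) y.1)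
        + conj (W (-I) Y.1 (W (-I) V.1 (cx φ)) y.1)) = B
    rw [mul_comm (W (-I) Z.1 (cx φ) y.1) X.2, hA,
      mul_comm (conj (W (-I) V.1 (cx φ) y.1)) (conj Y.2), hB]
    generalize X.2 + y.2 * W (-I) X.1 (cx φ) y.1 = a
    generalize Z.2 + y.2 * W (-I) Z.1 (cx φ) y.1 = b
    generalize conj Y.2 + conj y.2 * conj (W (-I) Y.1 (cx φ) y.1) = c
    generalize conj V.2 + conj y.2 * conj (W (-I) V.1 (cx φ) y.1) = d
    generalize j2 (cx φ) y.1 X.1 Y.1 = xs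
    generalize j2 (cx φ) y.1 Z.1 Y.1 = zs
    generalize j2 (cx φ) y.1 X.1 V.1 = xt
    generalize j2 (cx φ) y.1 Z.1 V.1 = zt
    generalize j3 (cx φ) y.1 X.1 Z.1 Y.1 = xzs
    generalize j3 (cx φ) y.1 X.1 Z.1 V.1 = xzt
    generalize conj (j3 (cx φ) y.1 Y.1 V.1 X.1) = xst
    generalize conj (j3 (cx φ) y.1 Y.1 V.1 Z.1) = zst
    generalize (ss φ y : ℂ) = S at *
    generalize (ka φ y : ℂ) = k at *
    generalize conj y.2 = ζ at *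
    generalize y.2 = η at *
    linear_combination (-(6*S^3*a*b*c*d*k^6*ζ*η + 2*S^2*b*d*k^4*xs*ζ*η + 2*S^2*b*c*k^4*xt*ζ*η
      + 2*S^2*a*d*k^4*zs*ζ*η + 2*S^2*a*c*k^4*zt*ζ*η + 2*S^3*a*b*c*d*k^4 + 2*S^2*a*b*c*d*k^4
      + S*d*k^2*xzs*η + S*c*k^2*xzt*η + S*b*k^2*xst*ζ + S*b*d*k^2*xs + S*b*c*k^2*xt
      + S*a*k^2*zst*ζ + S*a*d*k^2*zs + S*a*c*k^2*zt + 2*B*S^2*a*b*k^4*ζ + 2*A*S^2*c*d*k^4*η
      + A*B*S*k^2)) * hs

/-- jets of the potential -/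
theorem Phi_jets (hφ : ContDiffOn ℝ ∞ φ SS) (c : ℝ) (hy : y ∈ DD φ) (X Z Y V : E3) :
    j2 (cx (Phi φ c)) y X Y
      = c * om y.1 X.1 Y.1 + j2 (cx fun y => -Real.log (1 - rr φ y)) y X Y ∧
    j3 (cx (Phi φ c)) y X Z Y
      = c * om y.1 (G0 y.1 X.1 Z.1) Y.1 + j3 (cx fun y => -Real.log (1 - rr φ y)) y X Z Y ∧
    j4 (cx (Phi φ c)) y X Z Y V
      = c * (om y.1 X.1 Y.1 * om y.1 Z.1 V.1 + om y.1 X.1 V.1 * om y.1 Z.1 Y.1
          + om y.1 (G0 y.1 X.1 Z.1) (G0 y.1 Y.1 V.1))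
        + j4 (cx fun y => -Real.log (1 - rr φ y)) y X Z Y V := by
  have hD := isOpen_DD hφ.continuousOn
  let L : E3 →L[ℂ] B2 := ContinuousLinearMap.fst ℂ B2 ℂ
  have e : cx (Phi φ c) = fun x => (c : ℂ) * cx phi0 (L x + 0)
      + 1 * (cx fun y => -Real.log (1 - rr φ y)) x := by
    funext x
    simp only [cx, Phi, L, add_zero, ContinuousLinearMap.coe_fst']
    push_cast; ring
  have h1 : ContDiffOn ℝ ∞ (fun x : E3 => cx phi0 (L x + 0)) (DD φ) := by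
    simp only [add_zero]
    exact (cx_smooth phi0_smooth).comp contDiffOn_fst fun _ hy => hy.1
  have hy' : L y + 0 ∈ SS := by rw [add_zero]; exact hy.1
  obtain ⟨a2, a3, a4⟩ := jets_lin hD h1 (cx_smooth (nl_smooth hφ)) hy c 1 X Z Y V
  have b2 := (W_aff4 L 0 isOpen_SS (cx_smooth phi0_smooth) hy' 0 0 (-I) I X X X Y).1
  have b3 := (W_aff4 L 0 isOpen_SS (cx_smooth phi0_smooth) hy' 0 (-I) (-I) I X X Z Y).2.1
  have b4 := (W_aff4 L 0 isOpen_SS (cx_smooth phi0_smooth) hy' (-I) (-I) I I X Z Y V).2.2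
  rw [add_zero (L y)] at b2 b3 b4
  rw [e, a2, a3, a4, ← j4_phi0 hy.1, ← j2_phi0 hy.1, ← j3_phi0 hy.1]
  simp only [one_mul]
  exact ⟨congrArg (fun t => (c : ℂ) * t + _) b2, congrArg (fun t => (c : ℂ) * t + _) b3,
    congrArg (fun t => (c : ℂ) * t + _) b4⟩

end Vale.Agent.P250
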