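import Vale.Agent.P250.Base

open scoped ContDiff Topology ComplexConjugate
open Set Filter Complex Metric

noncomputable section

namespace Vale.Agent.P250

open Vale.Agent.P255

namespace OdeAX

variable {X : Type} [NormedAddCommGroup X] [NormedSpace ℝ X] [FiniteDimensional ℝ X]
  {F : X → X} {O : Set X}

theorem bump (hO : IsOpen O) (hF : ContDiffOn ℝ ∞ F O) {K : Set X} (hK : IsCompact K)
    (hKO : K ⊆ O) : ∃ (β : X → ℝ) (L C : NNReal), (∀ x, |β x| ≤ 1) ∧ (∀ x ∈ K, β x = 1) ∧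
      (∀ x, x ∉ O → β x = 0) ∧ LipschitzWith L (fun x => β x • F x) ∧
      ∀ x, ‖β x • F x‖ ≤ C := by
  have : ProperSpace X := FiniteDimensional.proper ℝ X
  obtain ⟨K', hK', h1, h2⟩ := exists_compact_between hK hO hKO
  obtain ⟨f, hf0, hf1, hf⟩ := exists_contMDiffMap_zero_one_of_isClosed (n := ⊤)
    (modelWithCornersSelf ℝ X) (s := (interior K')ᶜ) (t := K) isOpen_interior.isClosed_compl
    hK.isClosed (disjoint_compl_left_iff_subset.2 h1)
  have hfs : ContDiff ℝ ∞ f := f.contMDiff.contDiff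
  have hz : ∀ x, x ∉ K' → f x = 0 := fun x hx => hf0 fun h => hx (interior_subset h)
  have hc : HasCompactSupport fun x => f x • F x :=
    HasCompactSupport.intro hK' fun x hx => by rw [hz x hx, zero_smul]
  have hs : ContDiff ℝ ∞ fun x => f x • F x := by
    refine contDiff_iff_contDiffAt.2 fun x => ?_
    by_cases hx : x ∈ O
    · exact hfs.contDiffAt.smul (hF.contDiffAt (hO.mem_nhds hx))
    · have hn : K'ᶜ ∈ 𝓝 x := hK'.isClosed.isOpen_compl.mem_nhds fun h => hx (h2 h)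
      refine (contDiffAt_const (c := (0 : X))).congr_of_eventuallyEq ?_
      filter_upwards [hn] with y hy
      rw [hz y hy, zero_smul]
  obtain ⟨L, hL⟩ := hs.lipschitzWith_of_hasCompactSupport hc (by simp)
  obtain ⟨C, hC⟩ := hc.exists_bound_of_continuous hs.continuous
  refine ⟨f, L, C.toNNReal, fun x => ?_, fun x hx => hf1 hx, fun x hx => hz x fun h => hx (h2 h),
    hL, fun x => (hC x).trans (Real.le_coe_toNNReal C)⟩
  rw [abs_of_nonneg (hf x).1]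
  exact (hf x).2

theorem sol_lip {G : X → X} {L C : NNReal} (hL : LipschitzWith L G) (hC : ∀ x, ‖G x‖ ≤ C)
    (z₀ : X) {T : ℝ} (hT : 0 < T) :
    ∃ z : ℝ → X, z 0 = z₀ ∧ ∀ t ∈ Ioo (-T) T, HasDerivAt z (G (z t)) t := by
  have : CompleteSpace X := FiniteDimensional.complete ℝ X
  have h0 : (0 : ℝ) ∈ Icc (-T) T := ⟨by linarith, hT.le⟩
  have hp : IsPicardLindelof (fun _ : ℝ => G) (⟨0, h0⟩ : Icc (-T) T) z₀ (C * T.toNNReal) 0 C L := by
    refine ⟨fun _ _ => hL.lipschitzOnWith, fun _ _ => continuousOn_const, fun _ _ x _ => hC x, ?_⟩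
    simp [Real.coe_toNNReal T hT.le]
  obtain ⟨z, hz0, hz⟩ := hp.exists_eq_forall_mem_Icc_hasDerivWithinAt₀
  exact ⟨z, hz0, fun t ht => (hz t (Ioo_subset_Icc_self ht)).hasDerivAt (Icc_mem_nhds ht.1 ht.2)⟩

theorem sol_T (hO : IsOpen O) (hF : ContDiffOn ℝ ∞ F O) {z₀ : X} (h₀ : z₀ ∈ O)
    (hK : ∀ T : ℝ, 0 < T → ∃ K, IsCompact K ∧ K ⊆ O ∧ ∀ (σ : ℝ → ℝ) (z : ℝ → X), z 0 = z₀ →
      (∀ t, |σ t| ≤ 1) → (∀ t, z t ∈ O ∧ HasDerivAt z (σ t • F (z t)) t) →
      ∀ t ∈ Icc (-T) T, z t ∈ K) {T : ℝ} (hT : 0 < T) :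
    ∃ K, IsCompact K ∧ K ⊆ O ∧ ∃ z : ℝ → X, z 0 = z₀ ∧
      ∀ t ∈ Icc (-T) T, HasDerivAt z (F (z t)) t ∧ z t ∈ K := by
  obtain ⟨K, hKc, hKO, hz⟩ := hK (2 * T) (by positivity)
  obtain ⟨β, L, C, hβ, hβ1, hβ0, hL, hC⟩ := bump hO hF hKc hKO
  obtain ⟨z, hz0, hd⟩ := sol_lip hL hC z₀ (T := T + 1) (by positivity)
  have hsub : ∀ t ∈ Icc (-T) T, t ∈ Ioo (-(T + 1)) (T + 1) := fun t ht =>
    ⟨by linarith [ht.1], by linarith [ht.2]⟩
  have hin : ∀ t ∈ Ioo (-(T + 1)) (T + 1), z t ∈ O := by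
    intro t ht
    by_contra hn
    have hu := ODE_solution_unique_of_mem_Ioo (v := fun _ x => β x • F x) (s := fun _ => univ)
      (K := L) (f := z) (g := fun _ => z t) (fun _ _ => hL.lipschitzOnWith) ht
      (fun s hs => ⟨hd s hs, mem_univ _⟩) (fun s _ => ⟨by
        rw [hβ0 _ hn, zero_smul]
        exact hasDerivAt_const s (z t), mem_univ _⟩) rfl
    have h1 : z 0 = z t := hu ⟨by linarith, by linarith⟩
    rw [← h1, hz0] at hn
    exact hn h₀
  have hψ : ∀ t, T * Real.sin (t / T) ∈ Icc (-T) T := fun t =>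
    ⟨by nlinarith [Real.neg_one_le_sin (t / T)], by nlinarith [Real.sin_le_one (t / T)]⟩
  have hψd : ∀ t, HasDerivAt (fun s => T * Real.sin (s / T)) (Real.cos (t / T)) t := by
    intro t
    refine (((hasDerivAt_id t).div_const T).sin.const_mul T).congr_deriv ?_
    simp only [id]
    field_simp
  have hmem := hz (fun t => Real.cos (t / T) * β (z (T * Real.sin (t / T))))
    (fun t => z (T * Real.sin (t / T))) (by simp [hz0]) (fun t => by
      rw [abs_mul]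
      exact mul_le_one₀ (Real.abs_cos_le_one _) (abs_nonneg _) (hβ _)) (fun t => by
      refine ⟨hin _ (hsub _ (hψ t)), ?_⟩
      have := (hd _ (hsub _ (hψ t))).scomp t (hψd t)
      rw [smul_smul] at this
      exact this)
  have hmem' : ∀ t ∈ Icc (-T) T, z t ∈ K := by
    intro t ht
    have h1 : -1 ≤ t / T := by
      rw [le_div_iff₀ hT]
      linarith [ht.1]
    have h2 : t / T ≤ 1 := by
      rw [div_le_iff₀ hT]
      linarith [ht.2]
    have h3 := Real.arcsin_le_pi_div_two (t / T)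
    have h4 := Real.neg_pi_div_two_le_arcsin (t / T)
    have h5 := Real.pi_le_four
    have h6 := hmem (T * Real.arcsin (t / T)) ⟨by nlinarith, by nlinarith⟩
    rw [mul_div_cancel_left₀ _ hT.ne', Real.sin_arcsin h1 h2, mul_div_cancel₀ _ hT.ne'] at h6
    exact h6
  refine ⟨K, hKc, hKO, z, hz0, fun t ht => ⟨?_, hmem' t ht⟩⟩
  have := hd t (hsub t ht)
  rwa [hβ1 _ (hmem' t ht), one_smul] at this

end OdeAX

/-- global existence from an a priori bound valid for all slowed-down solutions -/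
theorem ode_global {X : Type} [NormedAddCommGroup X] [NormedSpace ℝ X] [FiniteDimensional ℝ X]
    {F : X → X} {O : Set X} (hO : IsOpen O) (hF : ContDiffOn ℝ ∞ F O) {z₀ : X} (h₀ : z₀ ∈ O)
    (hK : ∀ T : ℝ, 0 < T → ∃ K, IsCompact K ∧ K ⊆ O ∧ ∀ (σ : ℝ → ℝ) (z : ℝ → X), z 0 = z₀ →
      (∀ t, |σ t| ≤ 1) → (∀ t, z t ∈ O ∧ HasDerivAt z (σ t • F (z t)) t) →
      ∀ t ∈ Icc (-T) T, z t ∈ K) :
    ∃ z : ℝ → X, z 0 = z₀ ∧ ∀ t, z t ∈ O ∧ HasDerivAt z (F (z t)) t := by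
  have key : ∀ n : ℕ, ∃ K, IsCompact K ∧ K ⊆ O ∧ ∃ z : ℝ → X, z 0 = z₀ ∧
      ∀ t ∈ Icc (-((n : ℝ) + 1)) ((n : ℝ) + 1), HasDerivAt z (F (z t)) t ∧ z t ∈ K := fun n =>
    OdeAX.sol_T hO hF h₀ hK (by positivity)
  choose K hKc hKO z hz0 hz using key
  have huniq : ∀ n m : ℕ, ∀ T : ℝ, 0 < T → T ≤ (n : ℝ) + 1 → T ≤ (m : ℝ) + 1 →
      EqOn (z n) (z m) (Ioo (-T) T) := by
    intro n m T hT hn hm
    obtain ⟨β, L, C, -, hβ1, -, hL, -⟩ := OdeAX.bump hO hF ((hKc n).union (hKc m))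
      (union_subset (hKO n) (hKO m))
    have hl : LipschitzOnWith L F (K n ∪ K m) := by
      intro x hx y hy
      have := hL x y
      beta_reduce at this
      rwa [hβ1 x hx, hβ1 y hy, one_smul, one_smul] at this
    refine ODE_solution_unique_of_mem_Ioo (v := fun _ => F) (s := fun _ => K n ∪ K m) (K := L)
      (t₀ := 0) (fun _ _ => hl) ⟨by linarith, hT⟩ (fun t ht => ?_) (fun t ht => ?_)
      ((hz0 n).trans (hz0 m).symm)
    · have := hz n t ⟨by linarith [ht.1], by linarith [ht.2]⟩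
      exact ⟨this.1, Or.inl this.2⟩
    · have := hz m t ⟨by linarith [ht.1], by linarith [ht.2]⟩
      exact ⟨this.1, Or.inr this.2⟩
  have hlt : ∀ t : ℝ, |t| < (⌈|t|⌉₊ : ℝ) + 1 := fun t => by linarith [Nat.le_ceil |t|]
  have heq : ∀ (n : ℕ) (t : ℝ), |t| < (n : ℝ) + 1 → z ⌈|t|⌉₊ t = z n t := by
    intro n t ht
    have h1 := lt_min (hlt t) ht
    exact huniq _ n _ ((abs_nonneg t).trans_lt h1) (min_le_left _ _) (min_le_right _ _)
      (abs_lt.1 h1)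
  refine ⟨fun t => z ⌈|t|⌉₊ t, hz0 _, fun t => ?_⟩
  have h1 := hz ⌈|t|⌉₊ t ⟨(abs_lt.1 (hlt t)).1.le, (abs_lt.1 (hlt t)).2.le⟩
  refine ⟨hKO _ h1.2, h1.1.congr_of_eventuallyEq ?_⟩
  filter_upwards [(continuous_abs.tendsto t).eventually (gt_mem_nhds (hlt t))] with s hs
  exact heq _ s hs

end Vale.Agent.P250
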