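import Vale.Agent.P250.Wc

open scoped ContDiff Topology ComplexConjugate
open Set Filter Complex Metric

noncomputable section

namespace Vale.Agent.P250

open Vale.Agent.P255

variable {Φ : E3 → ℝ} {U : Set E3} {y : E3}

namespace PotAX

theorem Jm_apply (u : E3) : Jm u = I • u := rfl

theorem pot_def (Φ : E3 → ℝ) (y u v : E3) : pot Φ y u v
    = fderiv ℝ (fderiv ℝ Φ) y u v + fderiv ℝ (fderiv ℝ Φ) y (I • u) (I • v) := by
  unfold pot
  rw [ContinuousLinearMap.add_apply, ContinuousLinearMap.add_apply,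
    ContinuousLinearMap.bilinearComp_apply, Jm_apply, Jm_apply]

theorem smul_r {H : Type} [AddCommGroup H] [Module ℂ H] {k : H → H → ℂ} (h : Herm k) (c : ℂ)
    (X Y : H) : k X (c • Y) = conj c * k X Y := by
  rw [h.cj, h.smul, map_mul, ← h.cj]

end PotAX

open PotAX

theorem pot_apply (hU : IsOpen U) (hΦ : ContDiffOn ℝ ∞ Φ U) (hy : y ∈ U) (u v : E3) :
    pot Φ y u v = 4 * (j2 (cx Φ) y u v).re := by
  rw [j2_re hU hΦ hy, pot_def]

theorem pot_smooth (hU : IsOpen U) (hΦ : ContDiffOn ℝ ∞ Φ U) : ContDiffOn ℝ ∞ (pot Φ) U := by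
  have h1 : ContDiffOn ℝ ∞ (fderiv ℝ (fderiv ℝ Φ)) U :=
    (hΦ.fderiv_of_isOpen hU (m := ∞) (by simp)).fderiv_of_isOpen hU (m := ∞) (by simp)
  refine contDiffOn_clm_apply.2 fun u => contDiffOn_clm_apply.2 fun v => ?_
  simp only [pot_def]
  exact ((h1.clm_apply contDiffOn_const).clm_apply contDiffOn_const).add
    ((h1.clm_apply contDiffOn_const).clm_apply contDiffOn_const)

theorem pot_symm (hU : IsOpen U) (hΦ : ContDiffOn ℝ ∞ Φ U) (hy : y ∈ U) (u v : E3) :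
    pot Φ y u v = pot Φ y v u := by
  rw [pot_apply hU hΦ hy, pot_apply hU hΦ hy, (herm_j2 hU hΦ hy).cj u v, conj_re]

theorem pot_J (Φ : E3 → ℝ) (y u v : E3) : pot Φ y (I • u) (I • v) = pot Φ y u v := by
  rw [pot_def, pot_def, WaX.II, WaX.II, map_neg, map_neg, ContinuousLinearMap.neg_apply, neg_neg,
    add_comm]

/-- as complex numbers, on all of `U` -/
theorem pot_cx (hU : IsOpen U) (hΦ : ContDiffOn ℝ ∞ Φ U) (u v : E3) :
    EqOn (cx fun x => pot Φ x u v)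
      (fun x => 2 * (dz u (db v (cx Φ)) x + dz v (db u (cx Φ)) x)) U := by
  intro x hx
  have h := (herm_j2 hU hΦ hx).cj u v
  show ((pot Φ x u v : ℝ) : ℂ) = 2 * (j2 (cx Φ) x u v + j2 (cx Φ) x v u)
  rw [pot_apply hU hΦ hx, h, add_conj]
  push_cast
  ring

theorem pot_d1 (hU : IsOpen U) (hΦ : ContDiffOn ℝ ∞ Φ U) (hy : y ∈ U) (w u v : E3) :
    fderiv ℝ (pot Φ) y w u v = 4 * (j3 (cx Φ) y w u v + j3 (cx Φ) y w v u).re := by
  have hc := cx_smooth hΦ
  have hd : DifferentiableAt ℝ (pot Φ) y :=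
    ((pot_smooth hU hΦ).contDiffAt (hU.mem_nhds hy)).differentiableAt (by simp)
  rw [← LocX.fderiv_ev2 hd u v w, fderiv_real]
  have h1 := W_eqOn hU (pot_cx hU hΦ u v) (-I) w hy
  have h2 := W_add (dAt hU (W_smooth hU (W_smooth hU hc I v) (-I) u) hy)
    (dAt hU (W_smooth hU (W_smooth hU hc I u) (-I) v) hy) (-I) w
  rw [W_cmul] at h1
  simp only [] at h1
  rw [h2] at h1
  show 2 * (W (-I) w (cx fun x => pot Φ x u v) y).re = _
  rw [h1]
  simp only [j3, mul_re, re_ofNat, im_ofNat]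
  ring

theorem pot_closed (hU : IsOpen U) (hΦ : ContDiffOn ℝ ∞ Φ U) (hy : y ∈ U) (u v w : E3) :
    fderiv ℝ (pot Φ) y w (I • u) v + fderiv ℝ (pot Φ) y u (I • v) w
      + fderiv ℝ (pot Φ) y v (I • w) u = 0 := by
  have hc := cx_smooth hΦ
  rw [pot_d1 hU hΦ hy, pot_d1 hU hΦ hy, pot_d1 hU hΦ hy, j3_symm hU hc hy w (I • u),
    j3_symm hU hc hy u (I • v), j3_symm hU hc hy v (I • w), j3_smul1, j3_smul1, j3_smul1,
    j3_smul3, j3_smul3, j3_smul3, j3_symm hU hc hy u w v, j3_symm hU hc hy v u w,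
    j3_symm hU hc hy w v u]
  simp only [conj_I, add_re, mul_re, neg_re, neg_im, I_re, I_im]
  ring

theorem pot_chris (hΦ : ContDiffOn ℝ ∞ Φ U) (hL : LM (pot Φ) U) (hy : y ∈ U) (u v ξ : E3) :
    j2 (cx Φ) y (chris (pot Φ) y u v) ξ = j3 (cx Φ) y u v ξ := by
  have hU := hL.op
  have hc := cx_smooth hΦ
  have key : ∀ ξ, (j2 (cx Φ) y (chris (pot Φ) y u v) ξ).re = (j3 (cx Φ) y u v ξ).re := by
    intro ξ
    have h := chris_spec hL hy u v ξ
    rw [pot_apply hU hΦ hy, pot_d1 hU hΦ hy, pot_d1 hU hΦ hy, pot_d1 hU hΦ hy,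
      j3_symm hU hc hy v u ξ, j3_symm hU hc hy ξ u v, j3_symm hU hc hy ξ v u] at h
    simp only [add_re] at h
    linarith
  apply Complex.ext (key ξ)
  have h := key (I • ξ)
  rw [smul_r (herm_j2 hU hΦ hy), j3_smul3] at h
  simpa using h

end Vale.Agent.P250
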