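import Vale.Agent.P250.JetB
import Vale.Agent.P250.PotA
import Vale.Agent.P250.AlgA
import Vale.Agent.P250.DatP

open scoped ContDiff Topology ComplexConjugate
open Set Filter Complex Metric

noncomputable section

namespace Vale.Agent.P250

open Vale.Agent.P255

variable {φ : B2 → ℝ} {B c : ℝ} {y : E3}

theorem j2_Phi (h : Adm φ B) (c : ℝ) (hy : y ∈ DD φ) (X Y : E3) :
    j2 (cx (Phi φ c)) y X Y
      = hh (om y.1) (j2 (cx φ) y.1) c (ta φ y) (X.1, nn φ y X) (Y.1, nn φ y Y) := by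
  rw [(Phi_jets h.sm c hy X X Y Y).1, (nl_jets h.sm hy X X Y Y).1]
  simp only [hh, gg]
  ring

theorem pot_lower (h : Adm φ B) (hc : 1 ≤ c) (hy : y ∈ DD φ) (v : E3) :
    4 * (nw y.1 v.1 ^ 2 + ‖nn φ y v‖ ^ 2) ≤ pot (Phi φ c) y v v := by
  rw [pot_apply (isOpen_DD h.sm.continuousOn) (Phi_smooth h.sm c) hy, j2_Phi h c hy, nw_sq hy.1]
  have h1 := om_nonneg hy.1 v.1
  have h2 := h.lo y.1 hy.1 v.1
  have h3 := ta_nonneg hy
  simp only [hh, gg, mul_conj, add_re, re_ofReal_mul, ofReal_re, normSq_eq_norm_sq]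
  unfold qf at *
  have h4 : ((‖nn φ y v‖ ^ 2 : ℝ) : ℂ).re = ‖nn φ y v‖ ^ 2 := ofReal_re _
  nlinarith [mul_nonneg h3 (h1.trans h2), mul_nonneg (sub_nonneg.2 hc) h1]

namespace PinAX

theorem dz_zero (f : B2 → ℂ) (q : B2) : dz (0 : B2) f q = 0 := by
  simp [dz, W]

theorem nn_vert (φ : B2 → ℝ) (y : E3) (t : ℂ) :
    nn φ y ((0, t) : E3) = (ss φ y : ℂ) * (ka φ y : ℂ) * t := by
  simp only [nn, dz_zero, mul_zero, add_zero]

end PinAX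

open PinAX

theorem lm_pot (h : Adm φ B) (hc : 1 ≤ c) : LM (pot (Phi φ c)) (DD φ) where
  op := isOpen_DD h.sm.continuousOn
  sm := pot_smooth (isOpen_DD h.sm.continuousOn) (Phi_smooth h.sm c)
  symm := fun _ hy => pot_symm (isOpen_DD h.sm.continuousOn) (Phi_smooth h.sm c) hy
  pos := fun y hy v hv => by
    refine lt_of_lt_of_le ?_ (pot_lower h hc hy v)
    rw [nw_sq hy.1]
    by_cases h1 : v.1 = 0
    · have h2 : v.2 ≠ 0 := fun h2 => hv (Prod.ext h1 h2)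
      have e : v = (0, v.2) := Prod.ext h1 rfl
      have h3 : nn φ y v ≠ 0 := by
        rw [e, nn_vert]; exact mul_ne_zero (sk_ne hy) h2
      have := om_nonneg hy.1 v.1
      have := pow_pos (norm_pos_iff.2 h3) 2
      linarith
    · have := om_pos hy.1 v.1 h1
      have := sq_nonneg ‖nn φ y v‖
      linarith

theorem PinAX.key (h : Adm φ B) (hc : 1 ≤ c) (hy : y ∈ DD φ) (X Z ξ : E3) :
    gg (om y.1) (j2 (cx φ) y.1) c (ta φ y) (chris (pot (Phi φ c)) y X Z).1 ξ.1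
      + nn φ y (chris (pot (Phi φ c)) y X Z) * conj (nn φ y ξ)
    = c * om y.1 (G0 y.1 X.1 Z.1) ξ.1 + (ta φ y * j3 (cx φ) y.1 X.1 Z.1 ξ.1
      + mu φ y * (nn φ y X * j2 (cx φ) y.1 Z.1 ξ.1 + nn φ y Z * j2 (cx φ) y.1 X.1 ξ.1)
      + mm φ y X Z * conj (nn φ y ξ)) := by
  have h1 := pot_chris (Phi_smooth h.sm c) (lm_pot h hc) hy X Z ξ
  rw [j2_Phi h c hy, (Phi_jets h.sm c hy X Z ξ ξ).2.1, (nl_jets h.sm hy X Z ξ ξ).2.1] at h1
  exact h1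

theorem chris_vert (h : Adm φ B) (hc : 1 ≤ c) (hy : y ∈ DD φ) (X Z : E3) :
    nn φ y (chris (pot (Phi φ c)) y X Z) = mm φ y X Z := by
  have h1 := key h hc hy X Z (0, 1)
  have ho := herm_om y.1
  have hθ := herm_j2 isOpen_SS h.sm hy.1
  have h3 : j3 (cx φ) y.1 X.1 Z.1 0 = 0 := by
    have := j3_smul3 (f := cx φ) (y := y.1) 0 X.1 Z.1 0
    simpa using this
  simp only [gg, ho.zero_right, hθ.zero_right, h3, nn_vert, mul_zero, add_zero, zero_add,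
    mul_one] at h1
  have h4 : conj ((ss φ y : ℂ) * (ka φ y : ℂ)) ≠ 0 := by
    rw [map_mul, conj_ofReal, conj_ofReal]; exact sk_ne hy
  exact mul_right_cancel₀ h4 h1

theorem chris_hor (h : Adm φ B) (hc : 1 ≤ c) (hy : y ∈ DD φ) (X Z : E3) (Y : B2) :
    gg (om y.1) (j2 (cx φ) y.1) c (ta φ y) ((chris (pot (Phi φ c)) y X Z).1 - G0 y.1 X.1 Z.1) Y
      = PP (j2 (cx φ) y.1) (TT φ y.1) (ta φ y) (mu φ y) (X.1, nn φ y X) (Z.1, nn φ y Z) Y := by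
  have h1 := key h hc hy X Z (Y, -(y.2 * dz Y (cx φ) y.1))
  have h2 : nn φ y (Y, -(y.2 * dz Y (cx φ) y.1)) = 0 := by simp [nn]
  rw [h2, map_zero, mul_zero, mul_zero, add_zero, add_zero] at h1
  rw [((h.dat hy.1).herm_gg c (ta φ y)).sub, h1]
  simp only [gg, PP, TT]
  ring

/-- the complex curvature tensor in reduced form -/
theorem R_eq (h : Adm φ B) (hc : 1 ≤ c) (hy : y ∈ DD φ) (X Z Y V : E3) :
    j2 (cx (Phi φ c)) y (chris (pot (Phi φ c)) y X Z) (chris (pot (Phi φ c)) y Y V)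
        - j4 (cx (Phi φ c)) y X Z Y V
      = R0 (om y.1) (j2 (cx φ) y.1) (TT φ y.1) (UU φ y.1) c (ta φ y) (mu φ y)
          (X.1, nn φ y X) (Z.1, nn φ y Z) (Y.1, nn φ y Y) (V.1, nn φ y V)
        + gg (om y.1) (j2 (cx φ) y.1) c (ta φ y)
          ((chris (pot (Phi φ c)) y X Z).1 - G0 y.1 X.1 Z.1)
          ((chris (pot (Phi φ c)) y Y V).1 - G0 y.1 Y.1 V.1) := by
  have hg := (h.dat hy.1).herm_gg c (ta φ y)
  have hθ := herm_j2 isOpen_SS h.sm hy.1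
  have h1 := chris_hor h hc hy X Z (G0 y.1 Y.1 V.1)
  have h2 := chris_hor h hc hy Y V (G0 y.1 X.1 Z.1)
  rw [j2_Phi h c hy, (Phi_jets h.sm c hy X Z Y V).2.2, (nl_jets h.sm hy X Z Y V).2.2]
  simp only [hh]
  rw [chris_vert h hc hy, chris_vert h hc hy]
  generalize (chris (pot (Phi φ c)) y X Z).1 = Γ at *
  generalize (chris (pot (Phi φ c)) y Y V).1 = Γ' at *
  have e : gg (om y.1) (j2 (cx φ) y.1) c (ta φ y) Γ Γ'
      = gg (om y.1) (j2 (cx φ) y.1) c (ta φ y) (Γ - G0 y.1 X.1 Z.1) (Γ' - G0 y.1 Y.1 V.1)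
        + gg (om y.1) (j2 (cx φ) y.1) c (ta φ y) (Γ - G0 y.1 X.1 Z.1) (G0 y.1 Y.1 V.1)
        + conj (gg (om y.1) (j2 (cx φ) y.1) c (ta φ y) (Γ' - G0 y.1 Y.1 V.1) (G0 y.1 X.1 Z.1))
        + gg (om y.1) (j2 (cx φ) y.1) c (ta φ y) (G0 y.1 X.1 Z.1) (G0 y.1 Y.1 V.1) := by
    rw [← hg.cj]
    simp only [hg.sub, hg.sub_right]
    ring
  rw [e, h1, h2]
  generalize gg (om y.1) (j2 (cx φ) y.1) c (ta φ y) (Γ - G0 y.1 X.1 Z.1) (Γ' - G0 y.1 Y.1 V.1) = r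
  simp only [PP, R0, UU, TT, gg, map_add, map_mul, map_sub, conj_ofReal]
  rw [← hθ.cj (G0 y.1 Y.1 V.1) Z.1, ← hθ.cj (G0 y.1 Y.1 V.1) X.1, ← hθ.cj V.1 (G0 y.1 X.1 Z.1),
    ← hθ.cj Y.1 (G0 y.1 X.1 Z.1)]
  ring

end Vale.Agent.P250
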