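import Vale.Agent.P250.PotA
import Vale.Agent.P250.Cur

open scoped ContDiff Topology ComplexConjugate
open Set Filter Complex Metric

noncomputable section

namespace Vale.Agent.P250

open Vale.Agent.P255

variable {Φ : E3 → ℝ} {U : Set E3} {y : E3}

namespace PotBX

/-- fourth order operator -/
def q (f : E3 → ℂ) (y : E3) (p1 p2 p3 p4 : ℂ × E3) : ℂ :=
  W p1.1 p1.2 (W p2.1 p2.2 (W p3.1 p3.2 (W p4.1 p4.2 f))) y

variable {f : E3 → ℂ}

theorem s12 (hU : IsOpen U) (hf : ContDiffOn ℝ ∞ f U) (hy : y ∈ U) (p1 p2 p3 p4 : ℂ × E3) :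
    q f y p1 p2 p3 p4 = q f y p2 p1 p3 p4 :=
  W_comm hU (W_smooth hU (W_smooth hU hf _ _) _ _) _ _ _ _ hy

theorem s23 (hU : IsOpen U) (hf : ContDiffOn ℝ ∞ f U) (hy : y ∈ U) (p1 p2 p3 p4 : ℂ × E3) :
    q f y p1 p2 p3 p4 = q f y p1 p3 p2 p4 :=
  W_eqOn hU (W_comm hU (W_smooth hU hf _ _) _ _ _ _) _ _ hy

theorem s34 (hU : IsOpen U) (hf : ContDiffOn ℝ ∞ f U) (hy : y ∈ U) (p1 p2 p3 p4 : ℂ × E3) :
    q f y p1 p2 p3 p4 = q f y p1 p2 p4 p3 :=
  W_eqOn hU (W_eqOn hU (W_comm hU hf _ _ _ _) _ _) _ _ hy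

theorem d2_cx {g : E3 → ℝ} (hU : IsOpen U) (hg : ContDiffOn ℝ ∞ (cx g) U) (hy : y ∈ U)
    (a b : E3) : ((D2 g y a b : ℝ) : ℂ) = W (-I) a (W (-I) b (cx g)) y + W (-I) a (W I b (cx g)) y
      + (W I a (W (-I) b (cx g)) y + W I a (W I b (cx g)) y) := by
  have h : cx (fun x => fderiv ℝ g x b) = fun x => W (-I) b (cx g) x + W I b (cx g) x := by
    funext x
    rw [← fderiv_eq_W, fderiv_cx]
    rfl
  have h1 := dAt hU (W_smooth hU hg (-I) b) hy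
  have h2 := dAt hU (W_smooth hU hg I b) hy
  unfold D2
  rw [← fderiv_cx, fderiv_eq_W, h, ← W_add h1 h2, ← W_add h1 h2]

theorem ww (hU : IsOpen U) (hΦ : ContDiffOn ℝ ∞ Φ U) (hy : y ∈ U) (e1 e2 : ℂ) (a b u v : E3) :
    W e1 a (W e2 b (cx fun x => pot Φ x u v)) y
      = 2 * (q (cx Φ) y (e1, a) (e2, b) (-I, u) (I, v)
        + q (cx Φ) y (e1, a) (e2, b) (-I, v) (I, u)) := by
  have hc := cx_smooth hΦ
  have s1 := W_smooth hU (W_smooth hU hc I v) (-I) u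
  have s2 := W_smooth hU (W_smooth hU hc I u) (-I) v
  have h1 : EqOn (W e2 b (cx fun x => pot Φ x u v))
      (fun x => 2 * (W e2 b (W (-I) u (W I v (cx Φ))) x + W e2 b (W (-I) v (W I u (cx Φ))) x))
      U := by
    intro x hx
    rw [W_eqOn hU (pot_cx hU hΦ u v) e2 b hx, W_cmul]
    simp only []
    rw [W_add (dAt hU s1 hx) (dAt hU s2 hx)]
  rw [W_eqOn hU h1 e1 a hy, W_cmul]
  simp only []
  rw [W_add (dAt hU (W_smooth hU s1 _ _) hy) (dAt hU (W_smooth hU s2 _ _) hy)]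
  rfl

theorem alg {T : Type} (Q : T → T → T → T → ℂ) (h12 : ∀ a b c d, Q a b c d = Q b a c d)
    (h23 : ∀ a b c d, Q a b c d = Q a c b d) (h34 : ∀ a b c d, Q a b c d = Q a b d c)
    (A A' B B' : T) :
    2 * (Q A B B A' + Q A B A B') + 2 * (Q A B' B A' + Q A B' A B')
      + (2 * (Q A' B B A' + Q A' B A B') + 2 * (Q A' B' B A' + Q A' B' A B'))
      - 1 / 2 * (2 * (Q A A B B' + Q A A B B') + 2 * (Q A A' B B' + Q A A' B B')
        + (2 * (Q A' A B B' + Q A' A B B') + 2 * (Q A' A' B B' + Q A' A' B B')))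
      - 1 / 2 * (2 * (Q B B A A' + Q B B A A') + 2 * (Q B B' A A' + Q B B' A A')
        + (2 * (Q B' B A A' + Q B' B A A') + 2 * (Q B' B' A A' + Q B' B' A A')))
      = 2 * (Q B B A' A' + Q A A B' B') - 4 * Q A B A' B' := by
  simp only [h12, h23, h34]
  ring

end PotBX

open PotBX

theorem pot_d2 (hU : IsOpen U) (hΦ : ContDiffOn ℝ ∞ Φ U) (hy : y ∈ U) (a b : E3) :
    D2 (fun z => pot Φ z b a) y a b - 1 / 2 * D2 (fun z => pot Φ z b b) y a a
      - 1 / 2 * D2 (fun z => pot Φ z a a) y b b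
      = 4 * (j4 (cx Φ) y b b a a - j4 (cx Φ) y a b a b).re := by
  have hc := cx_smooth hΦ
  have hs : ∀ u v : E3, ContDiffOn ℝ ∞ (cx fun x => pot Φ x u v) U := fun u v =>
    cx_smooth (((pot_smooth hU hΦ).clm_apply contDiffOn_const).clm_apply contDiffOn_const)
  have h := alg (q (cx Φ) y) (s12 hU hc hy) (s23 hU hc hy) (s34 hU hc hy)
    (-I, a) (I, a) (-I, b) (I, b)
  have e1 : q (cx Φ) y (-I, b) (-I, b) (I, a) (I, a) = j4 (cx Φ) y b b a a := rfl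
  have e2 : q (cx Φ) y (-I, a) (-I, a) (I, b) (I, b) = conj (j4 (cx Φ) y b b a a) :=
    j4_conj hU hΦ hy b b a a
  have e3 : q (cx Φ) y (-I, a) (-I, b) (I, a) (I, b) = j4 (cx Φ) y a b a b := rfl
  rw [e1, e2, e3] at h
  simp only [← ww hU hΦ hy, ← d2_cx hU (hs _ _) hy] at h
  have h2 := congrArg Complex.re h
  simp only [sub_re, mul_re, add_re, add_im, ofReal_re, ofReal_im, conj_re, re_ofNat,
    im_ofNat, div_ofNat_re, one_re, mul_zero, sub_zero, zero_mul] at h2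
  rw [sub_re]
  linarith

theorem pot_curv (hΦ : ContDiffOn ℝ ∞ Φ U) (hL : LM (pot Φ) U) (hy : y ∈ U) (a b : E3) :
    pot Φ y (curv (pot Φ) y a b b) a = 4 * (j4 (cx Φ) y b b a a - j4 (cx Φ) y a b a b
      + j2 (cx Φ) y (chris (pot Φ) y a b) (chris (pot Φ) y a b)
      - j2 (cx Φ) y (chris (pot Φ) y b b) (chris (pot Φ) y a a)).re := by
  have hU := hL.op
  rw [curv_formula hL hy, pot_d2 hU hΦ hy, pot_apply hU hΦ hy, pot_apply hU hΦ hy]
  simp only [sub_re, add_re]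
  ring

end Vale.Agent.P250
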