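import Vale.Agent.P250.PinA
import Vale.Agent.P250.PotB
import Vale.Agent.P250.AlgC

open scoped ContDiff Topology ComplexConjugate
open Set Filter Complex Metric

noncomputable section

namespace Vale.Agent.P250

open Vale.Agent.P255

theorem pinched {φ : B2 → ℝ} {B : ℝ} (h : Adm φ B) : ∃ c a b : ℝ, 1 ≤ c ∧ 0 < a ∧ a ≤ b ∧
    ∀ y ∈ DD φ, ∀ u v : E3,
      -b * (pot (Phi φ c) y u u * pot (Phi φ c) y v v - pot (Phi φ c) y u v ^ 2)
        ≤ pot (Phi φ c) y (curv (pot (Phi φ c)) y u v v) u ∧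
      pot (Phi φ c) y (curv (pot (Phi φ c)) y u v v) u
        ≤ -a * (pot (Phi φ c) y u u * pot (Phi φ c) y v v - pot (Phi φ c) y u v ^ 2) := by
  obtain ⟨c, δ, C, hc, hδ, H⟩ := alg_main (34 * B) (by linarith [h.one])
  refine ⟨c, δ / 4, max (C / 4) (δ / 4), hc, by positivity, le_max_right _ _, fun y hy => ?_⟩
  have hL := lm_pot h hc
  have hs := Phi_smooth h.sm c
  have hD := h.dat hy.1
  have key : ∀ u v : E3, (om y.1 v.1 u.1).re = 0 →
      -max (C / 4) (δ / 4) * (pot (Phi φ c) y u u * pot (Phi φ c) y v v - pot (Phi φ c) y u v ^ 2)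
        ≤ pot (Phi φ c) y (curv (pot (Phi φ c)) y u v v) u ∧
      pot (Phi φ c) y (curv (pot (Phi φ c)) y u v v) u
        ≤ -(δ / 4) * (pot (Phi φ c) y u u * pot (Phi φ c) y v v - pot (Phi φ c) y u v ^ 2) := by
    intro u v huv
    have h1 := H (om y.1) (j2 (cx φ) y.1) (TT φ y.1) (UU φ y.1) (ta φ y) (mu φ y) hD
      (ta_nonneg hy) (norm_mu hy) (u.1, nn φ y u) (v.1, nn φ y v) huv _ _ _
      (chris_hor h hc hy u u) (chris_hor h hc hy u v) (chris_hor h hc hy v v)
    have h2 := pot_curv hs hL hy u v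
    have e1 := R_eq h hc hy u v u v
    have e2 := R_eq h hc hy v v u u
    have h3 : pot (Phi φ c) y u u * pot (Phi φ c) y v v - pot (Phi φ c) y u v ^ 2
        = 16 * ar (hh (om y.1) (j2 (cx φ) y.1) c (ta φ y)) (u.1, nn φ y u) (v.1, nn φ y v) := by
      rw [hL.symm y hy u v, pot_apply hL.op hs hy, pot_apply hL.op hs hy, pot_apply hL.op hs hy,
        j2_Phi h c hy, j2_Phi h c hy, j2_Phi h c hy]
      unfold ar qf
      ring
    have h4 : 0 ≤ pot (Phi φ c) y u u * pot (Phi φ c) y v v - pot (Phi φ c) y u v ^ 2 := by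
      have := cauchy_schwarz (pot (Phi φ c) y) (hL.symm y hy) (hL.pos y hy) u v
      linarith
    have h5 : j4 (cx (Phi φ c)) y v v u u - j4 (cx (Phi φ c)) y u v u v
        + j2 (cx (Phi φ c)) y (chris (pot (Phi φ c)) y u v) (chris (pot (Phi φ c)) y u v)
        - j2 (cx (Phi φ c)) y (chris (pot (Phi φ c)) y v v) (chris (pot (Phi φ c)) y u u)
        = R0 (om y.1) (j2 (cx φ) y.1) (TT φ y.1) (UU φ y.1) c (ta φ y) (mu φ y)
            (u.1, nn φ y u) (v.1, nn φ y v) (u.1, nn φ y u) (v.1, nn φ y v)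
          + gg (om y.1) (j2 (cx φ) y.1) c (ta φ y)
            ((chris (pot (Phi φ c)) y u v).1 - G0 y.1 u.1 v.1)
            ((chris (pot (Phi φ c)) y u v).1 - G0 y.1 u.1 v.1)
          - R0 (om y.1) (j2 (cx φ) y.1) (TT φ y.1) (UU φ y.1) c (ta φ y) (mu φ y)
            (v.1, nn φ y v) (v.1, nn φ y v) (u.1, nn φ y u) (u.1, nn φ y u)
          - gg (om y.1) (j2 (cx φ) y.1) c (ta φ y)
            ((chris (pot (Phi φ c)) y v v).1 - G0 y.1 v.1 v.1)
            ((chris (pot (Phi φ c)) y u u).1 - G0 y.1 u.1 u.1) := by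
      linear_combination e1 - e2
    rw [h5] at h2
    rw [h3] at h4 ⊢
    rw [h2]
    have h6 := mul_le_mul_of_nonneg_right (le_max_left (C / 4) (δ / 4)) h4
    constructor
    · linarith [h1.1]
    · linarith [h1.2]
  intro u v
  have ho := herm_om y.1
  obtain ⟨t, ht⟩ : ∃ t : ℝ, (om y.1 (v + t • u).1 u.1).re = 0 := by
    have e : ∀ t : ℝ, (om y.1 (v + t • u).1 u.1).re
        = (om y.1 v.1 u.1).re + t * qf (om y.1) u.1 := fun t => by
      have : (v + t • u).1 = v.1 + (t : ℂ) • u.1 := by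
        rw [Prod.fst_add, Prod.smul_fst]; congr 1
      rw [this, ho.add, ho.smul, add_re, re_ofReal_mul]; rfl
    by_cases hu : u.1 = 0
    · exact ⟨0, by rw [hu, ho.zero_right]; rfl⟩
    · have := om_pos hy.1 u.1 hu
      exact ⟨-(om y.1 v.1 u.1).re / qf (om y.1) u.1, by rw [e]; field_simp; ring⟩
  have := key u (v + t • u) ht
  rwa [curv_shear hL hy, area_shear hL hy] at this

end Vale.Agent.P250
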