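import Vale.Agent.P250.Base

open scoped ContDiff Topology ComplexConjugate
open Set Filter Complex Metric

noncomputable section

namespace Vale.Agent.P250

open Vale.Agent.P255

namespace StAX

theorem root {σ t : ℝ} (h1 : 9 / 100 ≤ σ) (h2 : σ ≤ 2) (h3 : -4 ≤ t) (h4 : t ≤ 4) :
    ∃ r : ℝ, r ≤ 5 ∧ t < r ∧ -t < r ∧ (r - t) * (r + t) = σ := by
  have h5 : t ^ 2 ≤ 16 := by nlinarith
  have h6 : |t| < √(σ + t ^ 2) := by
    apply Real.lt_sqrt_of_sq_lt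
    rw [sq_abs]; linarith
  refine ⟨√(σ + t ^ 2), ?_, (abs_lt.1 h6).2, by linarith [(abs_lt.1 h6).1], ?_⟩
  · rw [Real.sqrt_le_iff]; constructor <;> linarith
  · have := Real.sq_sqrt (show 0 ≤ σ + t ^ 2 by positivity)
    linarith

theorem xx {σ e p d x η : ℝ} (h1 : 9 / 100 ≤ σ) (he0 : 0 < e) (hp0 : 0 < p) (hp : p ≤ 10)
    (hη : 0 < η) (heσ : e * p = σ) (hd1 : e ≤ d) (hd2 : d ≤ e + 8 * η) (hxd : x * d = σ) :
    x ≤ p ∧ p - x ≤ 9600 * η := by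
  have hd0 : 0 < d := by linarith
  have he1 : σ ≤ 10 * e := by nlinarith
  have h4 : (p - x) * d = p * (d - e) := by linarith
  have h5 : p * (d - e) ≤ 10 * (8 * η) :=
    mul_le_mul hp (by linarith) (by linarith) (by norm_num)
  have h7 : 0 ≤ p * (d - e) := mul_nonneg hp0.le (by linarith)
  constructor
  · have : 0 ≤ p - x := by
      rw [← h4] at h7
      exact nonneg_of_mul_nonneg_left h7 hd0
    linarith
  · have h6 : 9 / 1000 ≤ d := by linarith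
    have h8 : (p - x) * d ≤ 9600 * η * d := by nlinarith
    exact le_of_mul_le_mul_right h8 hd0

theorem rr6 {σ d x : ℝ} (h2 : σ ≤ 2) (hxd : x * d = σ) (hb : |d / 2 - x / 2| ≤ 5) :
    d / 2 + x / 2 ≤ 6 := by
  have h4 : (d / 2 + x / 2) ^ 2 = σ + (d / 2 - x / 2) ^ 2 := by linarith
  have h5 : (d / 2 - x / 2) ^ 2 ≤ 25 := by
    have := abs_le.1 hb
    nlinarith
  nlinarith

theorem xlo {σ d x : ℝ} (h1 : 9 / 100 ≤ σ) (hxd : x * d = σ) (hx : 0 < x) (hd : d ≤ 12) :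
    9 / 1200 ≤ x := by nlinarith

end StAX

/-- choice of the strip -/
theorem strip_choice : ∃ c₁ K η₀ : ℝ, 0 < c₁ ∧ 0 < η₀ ∧ η₀ ≤ 1 / 4 ∧
    ∀ η y ρ : ℝ, 0 < η → η ≤ η₀ → 1 / 10 ≤ ρ → ρ ≤ 2 → ∃ (a R : ℝ) (j₀ j : ℤ),
      0 < R ∧ R ≤ 6 ∧ |a - 8 * j₀| ≤ 1 ∧ (a - 8 * j₀) ^ 2 ≤ K * η ^ 2 ∧
      R ^ 2 = ρ - η ^ 2 + (y - a) ^ 2 ∧ a + R = 8 * j * η ∧ c₁ ≤ (y - (a - R)) / (2 * R) ∧
      |y - a| ≤ R := by
  refine ⟨1 / 4000, 25000000, 1 / 5000, by norm_num, by norm_num, by norm_num, ?_⟩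
  intro η y ρ h0 h1 h2 h3
  obtain ⟨σ, hσ⟩ : ∃ σ, σ = ρ - η ^ 2 := ⟨_, rfl⟩
  have hσ1 : 9 / 100 ≤ σ := by rw [hσ]; nlinarith
  have hσ2 : σ ≤ 2 := by rw [hσ]; nlinarith
  rw [← hσ]
  obtain ⟨j₀, hj₀⟩ : ∃ j₀ : ℤ, |y / 8 - j₀| ≤ 1 / 2 := ⟨_, abs_sub_round _⟩
  obtain ⟨t, ht⟩ : ∃ t, t = y - 8 * j₀ := ⟨_, rfl⟩
  have ht1 : -4 ≤ t := by rw [ht]; linarith [(abs_le.1 hj₀).1]
  have ht2 : t ≤ 4 := by rw [ht]; linarith [(abs_le.1 hj₀).2]
  obtain ⟨r, hr5, hrt, hrt', heσ⟩ := StAX.root hσ1 hσ2 ht1 ht2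
  obtain ⟨j, hj1, hj2⟩ : ∃ j : ℤ, (y + (r - t)) / (8 * η) ≤ j ∧
      (j : ℝ) < (y + (r - t)) / (8 * η) + 1 := ⟨_, Int.le_ceil _, Int.ceil_lt_add_one _⟩
  obtain ⟨d, hd⟩ : ∃ d, d = 8 * j * η - y := ⟨_, rfl⟩
  have hd1 : r - t ≤ d := by
    rw [div_le_iff₀ (by positivity)] at hj1
    rw [hd]; linarith
  have hd2 : d ≤ r - t + 8 * η := by
    have : (j : ℝ) - 1 < (y + (r - t)) / (8 * η) := by linarith
    rw [lt_div_iff₀ (by positivity)] at this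
    rw [hd]; linarith
  have hd0 : 0 < d := by linarith
  obtain ⟨x, hx0, hxd⟩ : ∃ x, 0 < x ∧ x * d = σ :=
    ⟨σ / d, div_pos (by linarith) hd0, by field_simp⟩
  obtain ⟨hx1, hx2⟩ := StAX.xx (p := r + t) hσ1 (by linarith) (by linarith) (by linarith) h0 heσ
    hd1 hd2 hxd
  have ha1 : 0 ≤ y + d / 2 - x / 2 - 8 * j₀ := by linarith
  have ha2 : y + d / 2 - x / 2 - 8 * j₀ ≤ 5000 * η := by linarith
  have hb1 : |d / 2 - x / 2| ≤ 5 := by rw [abs_le]; constructor <;> linarith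
  have hR6 := StAX.rr6 hσ2 hxd hb1
  refine ⟨y + d / 2 - x / 2, d / 2 + x / 2, j₀, j, by positivity, hR6, ?_, ?_, ?_, ?_, ?_, ?_⟩
  · rw [abs_le]; constructor <;> linarith
  · calc _ ≤ (5000 * η) ^ 2 := pow_le_pow_left₀ ha1 ha2 2
      _ = _ := by ring
  · linarith
  · linarith
  · rw [le_div_iff₀ (by positivity)]
    have h5 := StAX.xlo hσ1 hxd hx0 (by linarith)
    linarith
  · rw [abs_le]; constructor <;> linarith

/-- three lines theorem on a horizontal strip with a quadratic correction -/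
theorem strip_three {g : ℂ → ℂ} {lo hi M A c κ l : ℝ} {γ : ℂ} (hlo : lo < 0) (hhi : 0 < hi)
    (hκ : 0 < κ) (hl : 0 < l) (hd : ∀ s : ℂ, lo ≤ s.im → s.im ≤ hi → DifferentiableAt ℂ g s)
    (hM : ∀ s : ℂ, lo ≤ s.im → s.im ≤ hi → ‖g s‖ ≤ M)
    (h1 : ∀ s : ℂ, s.im = lo → ‖g s‖ ≤ Real.exp (l * (A + (γ * s).re + κ * ‖s‖ ^ 2)))
    (h2 : ∀ s : ℂ, s.im = hi → ‖g s‖ ≤ Real.exp (l * (A - c + (γ * s).re + κ * ‖s‖ ^ 2))) :
    ‖g 0‖ ≤ Real.exp (l * (A - c * (-lo / (hi - lo)) + 2 * κ * (hi - lo) ^ 2)) := by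
  have hlu : lo < hi := hlo.trans hhi
  obtain ⟨G, hG⟩ : ∃ G : ℂ → ℂ, G = fun ζ =>
    g (I * ζ) * exp (-(l * (γ * (I * ζ) + κ * (I * ζ) ^ 2))) := ⟨_, rfl⟩
  have him : ∀ ζ : ℂ, (I * ζ).im = ζ.re := by intro ζ; simp
  have hn : ∀ ζ : ℂ, ‖G ζ‖ = ‖g (I * ζ)‖ *
      Real.exp (-(l * ((γ * (I * ζ)).re + κ * (‖I * ζ‖ ^ 2 - 2 * ζ.re ^ 2)))) := by
    intro ζ
    rw [hG]
    simp only [norm_mul (g _), norm_exp]
    congr 2
    rw [Complex.sq_norm, normSq_apply]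
    simp [sq]
    exact Or.inl (Or.inl (by ring))
  have hdd : DifferentiableOn ℂ G (HadamardThreeLines.verticalClosedStrip lo hi) := by
    intro ζ hζ
    rw [hG]
    apply DifferentiableAt.differentiableWithinAt
    apply DifferentiableAt.mul
    · exact (hd (I * ζ) (by rw [him]; exact hζ.1) (by rw [him]; exact hζ.2)).comp ζ (by fun_prop)
    · fun_prop
  have key := HadamardThreeLines.norm_le_interp_of_mem_verticalClosedStrip'
    (f := G) (z := 0) (a := Real.exp (l * (A + 2 * κ * (hi - lo) ^ 2)))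
    (b := Real.exp (l * (A - c + 2 * κ * (hi - lo) ^ 2))) hlu
    ⟨by simpa using hlo.le, by simpa using hhi.le⟩
    (by
      apply DifferentiableOn.diffContOnCl
      rw [HadamardThreeLines.verticalStrip, closure_preimage_re, closure_Ioo hlu.ne]
      exact hdd)
    ⟨M * Real.exp (l * (‖γ‖ ^ 2 / (4 * κ) + 2 * κ * (hi - lo) ^ 2)), by
      rintro _ ⟨ζ, hζ, rfl⟩
      show ‖G ζ‖ ≤ _
      rw [hn]
      have hM' := hM (I * ζ) (by rw [him]; exact hζ.1) (by rw [him]; exact hζ.2)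
      refine mul_le_mul hM' (Real.exp_le_exp.2 ?_) (by positivity) ((norm_nonneg _).trans hM')
      rw [← mul_neg]
      refine mul_le_mul_of_nonneg_left ?_ hl.le
      have e1 : |(γ * (I * ζ)).re| ≤ ‖γ‖ * ‖I * ζ‖ := (abs_re_le_norm _).trans (norm_mul_le _ _)
      have e2 : ‖γ‖ * ‖I * ζ‖ ≤ ‖γ‖ ^ 2 / (4 * κ) + κ * ‖I * ζ‖ ^ 2 := by
        have : ‖γ‖ ^ 2 / (4 * κ) + κ * ‖I * ζ‖ ^ 2 - ‖γ‖ * ‖I * ζ‖
            = (‖γ‖ - 2 * κ * ‖I * ζ‖) ^ 2 / (4 * κ) := by field_simp; ring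
        have h3 : 0 ≤ (‖γ‖ - 2 * κ * ‖I * ζ‖) ^ 2 / (4 * κ) := by positivity
        linarith
      have e3 : ζ.re ^ 2 ≤ (hi - lo) ^ 2 := by
        have a1 : lo ≤ ζ.re := hζ.1
        have a2 : ζ.re ≤ hi := hζ.2
        nlinarith
      have e4 := mul_le_mul_of_nonneg_left e3 hκ.le
      linarith [(abs_le.1 e1).1]⟩
    (by
      intro ζ hζ
      have hζ' : ζ.re = lo := hζ
      rw [hn]
      refine (mul_le_mul_of_nonneg_right (h1 _ (by rw [him, hζ'])) (by positivity)).trans ?_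
      rw [← Real.exp_add, Real.exp_le_exp, hζ']
      have e3 : lo ^ 2 ≤ (hi - lo) ^ 2 := by nlinarith
      have e4 := mul_le_mul_of_nonneg_left e3 (mul_pos hl hκ).le
      nlinarith)
    (by
      intro ζ hζ
      have hζ' : ζ.re = hi := hζ
      rw [hn]
      refine (mul_le_mul_of_nonneg_right (h2 _ (by rw [him, hζ'])) (by positivity)).trans ?_
      rw [← Real.exp_add, Real.exp_le_exp, hζ']
      have e3 : hi ^ 2 ≤ (hi - lo) ^ 2 := by nlinarith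
      have e4 := mul_le_mul_of_nonneg_left e3 (mul_pos hl hκ).le
      nlinarith)
  have h0 : G 0 = g 0 := by rw [hG]; simp
  rw [h0, ← Real.exp_mul, ← Real.exp_mul, ← Real.exp_add] at key
  refine key.trans (le_of_eq ?_)
  congr 1
  rw [zero_re, zero_sub]
  ring

end Vale.Agent.P250
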