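import Vale.Agent.P250.Chi

open scoped ContDiff Topology ComplexConjugate
open Set Filter Complex Metric

noncomputable section

namespace Vale.Agent.P250

open Vale.Agent.P255

variable {u : ℂ → ℝ} {C η : ℝ}

theorem tay0 (h : U0 u) (h' : U1 u C) {q : B2} (hq : 0 ≤ rho q) (v : B2) (j : ℤ)
    (hj : |q.1.im - 8 * j| ≤ 7) : ∃ γ : ℂ, ∀ s : ℂ, 0 ≤ rho (q + s • v) →
      |(q + s • v).1.im - 8 * j| ≤ 7 → chi0 u (q + s • v)
        ≤ chi0 u q + (γ * s).re + C * ‖v.2 - 16 * (j : ℂ) * v.1‖ ^ 2 * ‖s‖ ^ 2 := by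
  obtain ⟨γ, hγ⟩ := h'.tay (ell (8 * j) q) (by rw [im_ell]; positivity)
  have hd : v.2 - 2 * ((8 * (j : ℝ) : ℝ) : ℂ) * v.1 = v.2 - 16 * (j : ℂ) * v.1 := by
    push_cast; ring
  refine ⟨γ * (v.2 - 16 * (j : ℂ) * v.1), fun s hs hs' => ?_⟩
  rw [chi0_eq h hs j hs', chi0_eq h hq j hj]
  have h1 := hγ (s * (v.2 - 16 * (j : ℂ) * v.1)) (by
    rw [← hd, ← ell_add_smul, im_ell]; positivity)
  rw [ell_add_smul, hd]
  rw [norm_mul, mul_pow] at h1
  have e : γ * (s * (v.2 - 16 * (j : ℂ) * v.1)) = γ * (v.2 - 16 * (j : ℂ) * v.1) * s := by ring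
  rw [e] at h1
  linarith

theorem TayX.succ (u : ℂ → ℝ) (η : ℝ) (n : ℕ) (q : B2) :
    XX u η (n + 1) q = XX u η n q + chi0 u (dil (η ^ (n + 1)) q) := by
  unfold XX
  rw [Finset.sum_range_succ]

theorem TayX.zero (u : ℂ → ℝ) (η : ℝ) (q : B2) : XX u η 0 q = chi0 u q := by
  unfold XX
  simp [dil_one]

theorem TayX.dil_im (m : ℝ) (q : B2) : (dil m q).1.im = m * q.1.im := by
  simp [dil]

theorem TayX.near (x : ℝ) : |x - 8 * (round (x / 8) : ℤ)| ≤ 4 := by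
  have h3 := abs_le.1 (abs_sub_round (x / 8))
  rw [abs_le]
  constructor <;> linarith [h3.1, h3.2]

theorem tay_strip (h : U0 u) (h' : U1 u C) (h0 : 0 < η) (h1 : η ≤ 1 / 2) (n : ℕ) {q : B2}
    (hq : 0 ≤ rho q) (a : ℝ) (j : ℤ) (hj : |a - 8 * j| ≤ 1) (ha : |q.1.im - a| ≤ 6) :
    ∃ γ : ℂ, ∀ s : ℂ, 0 ≤ rho (q + s • ((1 : ℂ), 2 * (a : ℂ))) → |q.1.im + s.im - a| ≤ 6 →
      XX u η n (q + s • ((1 : ℂ), 2 * (a : ℂ))) ≤ XX u η n q + (γ * s).re
        + C * (4 * (a - 8 * j) ^ 2 + 128 * η ^ 2) * ‖s‖ ^ 2 := by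
  have hC : 0 ≤ C := zero_le_one.trans h'.one
  have him : ∀ s : ℂ, (q + s • ((1 : ℂ), 2 * (a : ℂ))).1.im = q.1.im + s.im := fun s => by simp
  have key : ∀ n : ℕ, ∃ γ : ℂ, ∀ s : ℂ, 0 ≤ rho (q + s • ((1 : ℂ), 2 * (a : ℂ))) →
      |q.1.im + s.im - a| ≤ 6 →
      XX u η n (q + s • ((1 : ℂ), 2 * (a : ℂ))) ≤ XX u η n q + (γ * s).re
        + C * (4 * (a - 8 * j) ^ 2 + 128 * η ^ 2 - 128 * (η ^ (n + 1)) ^ 2) * ‖s‖ ^ 2 := by
    intro n
    induction n with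
    | zero =>
      have h2 := abs_le.1 hj
      obtain ⟨γ, hγ⟩ := tay0 h h' hq ((1 : ℂ), 2 * (a : ℂ)) j (by
        have h3 := abs_le.1 ha
        rw [abs_le]; constructor <;> linarith [h2.1, h2.2, h3.1, h3.2])
      refine ⟨γ, fun s hs hs' => ?_⟩
      have h4 := hγ s hs (by
        have h3 := abs_le.1 hs'
        rw [him, abs_le]; constructor <;> linarith [h2.1, h2.2, h3.1, h3.2])
      have e : ‖(2 * (a : ℂ)) - 16 * (j : ℂ) * 1‖ ^ 2 = 4 * (a - 8 * j) ^ 2 := by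
        have : (2 * (a : ℂ)) - 16 * (j : ℂ) * 1 = ((2 * (a - 8 * j) : ℝ) : ℂ) := by
          push_cast; ring
        rw [this, Complex.norm_real, Real.norm_eq_abs, sq_abs]; ring
      simp only at h4
      rw [e] at h4
      rw [TayX.zero, TayX.zero]
      simpa using h4
    | succ n ih =>
      obtain ⟨γ, hγ⟩ := ih
      obtain ⟨m, hm⟩ : ∃ m : ℝ, m = η ^ (n + 1) := ⟨_, rfl⟩
      have hm0 : 0 < m := by rw [hm]; positivity
      have hm1 : m ≤ 1 / 2 := by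
        rw [hm, pow_succ]
        have : η ^ n ≤ 1 := pow_le_one₀ h0.le (by linarith)
        nlinarith
      obtain ⟨k, hk⟩ : ∃ k : ℤ, k = round (m * a / 8) := ⟨_, rfl⟩
      have hk4 : |m * a - 8 * k| ≤ 4 := by rw [hk]; exact TayX.near _
      have hk5 := abs_le.1 hk4
      have hcl : ∀ y : ℝ, |y - a| ≤ 6 → |m * y - 8 * k| ≤ 7 := by
        intro y hy
        have h3 := abs_le.1 hy
        rw [abs_le]
        constructor <;> nlinarith [h3.1, h3.2, hk5.1, hk5.2]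
      obtain ⟨γ', hγ'⟩ := tay0 h h' (q := dil m q) (by rw [rho_dil]; positivity)
        (dil m ((1 : ℂ), 2 * (a : ℂ))) k (by rw [TayX.dil_im]; exact hcl _ ha)
      refine ⟨γ + γ', fun s hs hs' => ?_⟩
      have h4 := hγ' s (by rw [← dil_add_smul, rho_dil]; positivity)
        (by rw [← dil_add_smul, TayX.dil_im, him]; exact hcl _ hs')
      have e : ‖(dil m ((1 : ℂ), 2 * (a : ℂ))).2 - 16 * (k : ℂ) * (dil m ((1 : ℂ), 2 * (a : ℂ))).1‖ ^ 2
          ≤ 64 * m ^ 2 := by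
        have : (dil m ((1 : ℂ), 2 * (a : ℂ))).2 - 16 * (k : ℂ) * (dil m ((1 : ℂ), 2 * (a : ℂ))).1
            = ((2 * m * (m * a - 8 * k) : ℝ) : ℂ) := by
          simp only [dil]; push_cast; ring
        rw [this, Complex.norm_real, Real.norm_eq_abs, sq_abs, mul_pow]
        have h5 : (m * a - 8 * k) ^ 2 ≤ 16 := by nlinarith [hk5.1, hk5.2]
        nlinarith [sq_nonneg m]
      have h5 := hγ s hs hs'
      rw [← dil_add_smul] at h4
      rw [TayX.succ, TayX.succ, ← hm, add_mul, add_re, pow_succ η (n + 1), ← hm]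
      rw [← hm] at h5
      have h6 : 64 * m ^ 2 ≤ 128 * m ^ 2 - 128 * (m * η) ^ 2 := by
        have : η ^ 2 ≤ 1 / 2 := by nlinarith
        rw [mul_pow]; nlinarith [sq_nonneg m]
      have h7 := mul_le_mul_of_nonneg_right (mul_le_mul_of_nonneg_left (e.trans h6) hC)
        (sq_nonneg ‖s‖)
      linarith
  obtain ⟨γ, hγ⟩ := key n
  refine ⟨γ, fun s hs hs' => (hγ s hs hs').trans ?_⟩
  have : 0 ≤ C * (128 * (η ^ (n + 1)) ^ 2) * ‖s‖ ^ 2 := by positivity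
  linarith

theorem tay_vert (h : U0 u) (h' : U1 u C) (h0 : 0 < η) (h1 : η ≤ 1 / 2) (n : ℕ) {q : B2}
    (hq : rho q = 1) (j : ℤ) (hj : q.1.im = 8 * j) :
    ∃ γ : ℂ, ∀ s : ℂ, ‖s‖ < 1 → XX u η n (q + s • ((0 : ℂ), (1 : ℂ)))
      ≤ XX u η n q + u (ell (8 * j) q + s) + (γ * s).re + 2 * C * η ^ 4 := by
  have hC : 0 ≤ C := zero_le_one.trans h'.one
  have him : ∀ s : ℂ, (q + s • ((0 : ℂ), (1 : ℂ))).1.im = q.1.im := fun s => by simp
  have hrho : ∀ s : ℂ, ‖s‖ < 1 → 0 ≤ rho (q + s • ((0 : ℂ), (1 : ℂ))) := fun s hs => by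
    have h2 : rho (q + s • ((0 : ℂ), (1 : ℂ))) = rho q + s.im := by simp [rho]; ring
    have h3 := (abs_le.1 ((Complex.abs_im_le_norm s).trans hs.le)).1
    rw [h2, hq]; linarith
  have key : ∀ n : ℕ, ∃ γ : ℂ, ∀ s : ℂ, ‖s‖ < 1 → XX u η n (q + s • ((0 : ℂ), (1 : ℂ)))
      ≤ XX u η n q + u (ell (8 * j) q + s) + (γ * s).re
        + C * (2 * η ^ 4 - 2 * (η ^ (n + 1)) ^ 4) := by
    intro n
    induction n with
    | zero =>
      refine ⟨0, fun s hs => ?_⟩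
      rw [TayX.zero, TayX.zero, chi0_zero h (q := q) (by rw [hq]; norm_num),
        chi0_eq h (hrho s hs) j (by rw [him, hj]; simp), ell_add_smul]
      simp
    | succ n ih =>
      obtain ⟨γ, hγ⟩ := ih
      obtain ⟨m, hm⟩ : ∃ m : ℝ, m = η ^ (n + 1) := ⟨_, rfl⟩
      have hm0 : 0 < m := by rw [hm]; positivity
      have hcl : |m * q.1.im - 8 * (round (m * q.1.im / 8) : ℤ)| ≤ 7 :=
        (TayX.near _).trans (by norm_num)
      obtain ⟨γ', hγ'⟩ := tay0 h h' (q := dil m q) (by rw [rho_dil, hq]; positivity)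
        (dil m ((0 : ℂ), (1 : ℂ))) (round (m * q.1.im / 8)) (by rw [TayX.dil_im]; exact hcl)
      refine ⟨γ + γ', fun s hs => ?_⟩
      have h4 := hγ' s (by rw [← dil_add_smul, rho_dil]; have := hrho s hs; positivity)
        (by rw [← dil_add_smul, TayX.dil_im, him]; exact hcl)
      have e : ‖(dil m ((0 : ℂ), (1 : ℂ))).2 - 16 * ((round (m * q.1.im / 8) : ℤ) : ℂ)
          * (dil m ((0 : ℂ), (1 : ℂ))).1‖ ^ 2 = m ^ 4 := by
        have : (dil m ((0 : ℂ), (1 : ℂ))).2 - 16 * ((round (m * q.1.im / 8) : ℤ) : ℂ)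
          * (dil m ((0 : ℂ), (1 : ℂ))).1 = ((m ^ 2 : ℝ) : ℂ) := by
          simp only [dil]; push_cast; ring
        rw [this, Complex.norm_real, Real.norm_eq_abs, sq_abs]; ring
      have h5 := hγ s hs
      rw [← dil_add_smul, e] at h4
      rw [TayX.succ, TayX.succ, ← hm, add_mul, add_re, pow_succ η (n + 1), ← hm]
      rw [← hm] at h5
      have h6 : m ^ 4 * ‖s‖ ^ 2 ≤ 2 * m ^ 4 - 2 * (m * η) ^ 4 := by
        have h7 : η ^ 4 ≤ 1 / 2 := by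
          have : η ^ 4 ≤ (1 / 2) ^ 4 := pow_le_pow_left₀ h0.le h1 4
          linarith [this, (by norm_num : ((1 : ℝ) / 2) ^ 4 ≤ 1 / 2)]
        have h8 : ‖s‖ ^ 2 ≤ 1 := pow_le_one₀ (norm_nonneg _) hs.le
        have h9 : 0 ≤ m ^ 4 := by positivity
        rw [mul_pow]; nlinarith
      have h7 := mul_le_mul_of_nonneg_left h6 hC
      linarith
  obtain ⟨γ, hγ⟩ := key n
  refine ⟨γ, fun s hs => (hγ s hs).trans ?_⟩
  have : 0 ≤ C * (2 * (η ^ (n + 1)) ^ 4) := by positivity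
  linarith

end Vale.Agent.P250
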