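import Vale.Agent.P250.StA
import Vale.Agent.P250.Tay

open scoped ContDiff Topology ComplexConjugate
open Set Filter Complex Metric

noncomputable section

namespace Vale.Agent.P250

open Vale.Agent.P255

namespace StBX

theorem LH_at {J : B2 → ℂ} (hJ : LH J) (q v : B2) {s : ℂ} (hs : 0 < rho (q + s • v)) :
    DifferentiableAt ℂ (fun s : ℂ => J (q + s • v)) s := by
  have ho : IsOpen {s : ℂ | q + s • v ∈ SS} :=
    isOpen_SS.preimage (f := fun s : ℂ => q + s • v) (by fun_prop)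
  exact (hJ q v).differentiableAt (ho.mem_nhds hs)

theorem rho_line (q : B2) (a : ℝ) (s : ℂ) : rho (q + s • ((1 : ℂ), 2 * (a : ℂ)))
    = rho q + (q.1.im - a) ^ 2 - (q.1.im + s.im - a) ^ 2 := by
  simp [rho]; ring

theorem fst_line (q : B2) (a : ℝ) (s : ℂ) : (q + s • ((1 : ℂ), 2 * (a : ℂ))).1.im
    = q.1.im + s.im := by
  simp

end StBX

theorem stage2 {u : ℂ → ℝ} {C : ℝ} (h : U0 u) (h' : U1 u C) : ∃ c₁ C₃ η₀ : ℝ, 0 < c₁ ∧ 0 < η₀ ∧
    η₀ ≤ 1 / 4 ∧ ∀ (η l A c₀ M : ℝ) (n : ℕ) (J : B2 → ℂ), 0 < η → η ≤ η₀ → 0 < l → 0 ≤ c₀ →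
      LH J → (∀ q, η ^ 2 ≤ rho q → ‖J q‖ ≤ M) → Lev (XX u η n) l J A c₀ η →
      ∀ q, 1 / 10 ≤ rho q → rho q ≤ 2 →
        ‖J q‖ ≤ Real.exp (l * (XX u η n q - A - c₁ * c₀ + C₃ * η ^ 2)) := by
  obtain ⟨c₁, K, η₀, hc₁, hη₀, hη₁, H⟩ := strip_choice
  refine ⟨c₁, 288 * (C * (4 * K + 128)), η₀, hc₁, hη₀, hη₁, ?_⟩
  intro η l A c₀ M n J h0 h1 hl hc₀ hJ hM hL q hq1 hq2
  obtain ⟨a, R, j₀, j, hR0, hR6, ha1, haK, hR, haR, hc, hya⟩ := H η q.1.im (rho q) h0 h1 hq1 hq2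
  have hC := h'.one
  have hη2 : η ^ 2 ≤ 1 / 16 := by nlinarith
  obtain ⟨γ, hγ⟩ := tay_strip h h' h0 (by linarith) n (q := q) (by linarith) a j₀ ha1
    (hya.trans hR6)
  have hlt : |q.1.im - a| < R := by
    apply abs_lt_of_sq_lt_sq _ hR0.le
    linarith
  have hlt' := abs_lt.1 hlt
  have hrho : ∀ s : ℂ, rho (q + s • ((1 : ℂ), 2 * (a : ℂ)))
      = η ^ 2 + R ^ 2 - (q.1.im + s.im - a) ^ 2 := by
    intro s; rw [StBX.rho_line]; linarith
  have hge : ∀ s : ℂ, a - R - q.1.im ≤ s.im → s.im ≤ a + R - q.1.im →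
      η ^ 2 ≤ rho (q + s • ((1 : ℂ), 2 * (a : ℂ))) := by
    intro s s1 s2
    rw [hrho]
    have : (q.1.im + s.im - a) ^ 2 ≤ R ^ 2 := sq_le_sq' (by linarith) (by linarith)
    linarith
  have hp2 : 0 < η ^ 2 := by positivity
  have hκ : 0 < C * (4 * (a - 8 * j₀) ^ 2 + 128 * η ^ 2) := by positivity
  have key := strip_three (g := fun s : ℂ => J (q + s • ((1 : ℂ), 2 * (a : ℂ))))
    (lo := a - R - q.1.im) (hi := a + R - q.1.im) (M := M) (A := XX u η n q - A) (c := c₀)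
    (γ := γ) (by linarith) (by linarith) hκ hl
    (fun s s1 s2 => StBX.LH_at hJ q _ (hp2.trans_le (hge s s1 s2)))
    (fun s s1 s2 => hM _ (hge s s1 s2))
    (by
      intro s hs
      have e : rho (q + s • ((1 : ℂ), 2 * (a : ℂ))) = η ^ 2 := by rw [hrho, hs]; ring
      refine (hL.1 _ e).trans (Real.exp_le_exp.2 (mul_le_mul_of_nonneg_left ?_ hl.le))
      have := hγ s (by rw [e]; positivity) (by rw [hs, abs_le]; constructor <;> linarith)
      linarith)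
    (by
      intro s hs
      have e : rho (q + s • ((1 : ℂ), 2 * (a : ℂ))) = η ^ 2 := by rw [hrho, hs]; ring
      refine (hL.2 _ e ⟨j, by rw [StBX.fst_line, hs]; linarith⟩).trans
        (Real.exp_le_exp.2 (mul_le_mul_of_nonneg_left ?_ hl.le))
      have := hγ s (by rw [e]; positivity) (by rw [hs, abs_le]; constructor <;> linarith)
      linarith)
  simp only [zero_smul, add_zero] at key
  refine key.trans (Real.exp_le_exp.2 (mul_le_mul_of_nonneg_left ?_ hl.le))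
  have e1 : a + R - q.1.im - (a - R - q.1.im) = 2 * R := by ring
  have e2 : -(a - R - q.1.im) = q.1.im - (a - R) := by ring
  rw [e1, e2]
  have e3 := mul_le_mul_of_nonneg_left hc hc₀
  have e4 : (2 * R) ^ 2 ≤ 144 := by nlinarith
  have e5 : C * (4 * (a - 8 * j₀) ^ 2 + 128 * η ^ 2) ≤ C * ((4 * K + 128) * η ^ 2) :=
    mul_le_mul_of_nonneg_left (by linarith) (by linarith)
  have e6 := mul_le_mul_of_nonneg_left e4 hκ.le
  linarith

end Vale.Agent.P250
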