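import Vale.Agent.P250.Base

open scoped ContDiff Topology ComplexConjugate
open Set Filter Complex Metric

noncomputable section

namespace Vale.Agent.P250

open Vale.Agent.P255

theorem exists_log {g : ℂ → ℂ} {R : ℝ} (hg : DifferentiableOn ℂ g (ball 0 R))
    (h0 : ∀ s ∈ ball (0 : ℂ) R, g s ≠ 0) :
    ∃ f : ℂ → ℂ, DifferentiableOn ℂ f (ball 0 R) ∧ ∀ s ∈ ball (0 : ℂ) R, g s = exp (f s) := by
  rcases le_or_gt R 0 with hR | hR
  · refine ⟨fun _ => 0, differentiableOn_const _, fun s hs => ?_⟩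
    rw [ball_eq_empty.2 hR] at hs
    exact hs.elim
  have hq : DifferentiableOn ℂ (fun s => deriv g s / g s) (ball 0 R) :=
    (hg.deriv isOpen_ball).div hg h0
  obtain ⟨f, hf0, hf⟩ := hq.isExactOn_ball.with_val_at 0 (log (g 0))
  have hfd : DifferentiableOn ℂ f (ball 0 R) := fun s hs =>
    (hf s hs).differentiableAt.differentiableWithinAt
  refine ⟨f, hfd, fun s hs => ?_⟩
  have hz : (0 : ℂ) ∈ ball (0 : ℂ) R := mem_ball_self hR
  have hd : ∀ x ∈ ball (0 : ℂ) R, HasDerivAt (fun s => g s * exp (-f s)) 0 x := by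
    intro x hx
    have h1 : HasDerivAt g (deriv g x) x :=
      (hg.differentiableAt (isOpen_ball.mem_nhds hx)).hasDerivAt
    have h2 := (h1.mul ((hf x hx).neg.cexp))
    have h3 : deriv g x * exp (-f x) + g x * (exp (-f x) * -(deriv g x / g x)) = 0 := by
      have := h0 x hx
      field_simp
      ring
    exact h3 ▸ h2
  have hc : g s * exp (-f s) = g 0 * exp (-f 0) := by
    apply isOpen_ball.is_const_of_deriv_eq_zero (convex_ball (0 : ℂ) R).isPreconnected
      (fun x hx => (hd x hx).differentiableAt.differentiableWithinAt)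
      (fun x hx => (hd x hx).deriv) hs hz
  rw [hf0, exp_neg (log (g 0)), exp_log (h0 0 hz), mul_inv_cancel₀ (h0 0 hz), exp_neg] at hc
  have he := exp_ne_zero (f s)
  field_simp at hc
  exact hc

namespace TcX

/-- three circles -/
theorem circ {g : ℂ → ℂ} {a b : ℝ} (hg : DifferentiableOn ℂ g (ball 0 (9 / 10)))
    (ha : ∀ z : ℂ, ‖z‖ = 1 / 4 → ‖g z‖ ≤ a) (hb : ∀ z : ℂ, ‖z‖ ≤ 17 / 20 → ‖g z‖ ≤ b)
    (ha0 : 0 < a) (ha1 : a ≤ 1) (hb1 : 1 ≤ b) {s : ℂ} (h1 : 1 / 4 ≤ ‖s‖) (h2 : ‖s‖ ≤ 4 / 5) :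
    ‖g s‖ ≤ a ^ (1 - (Real.log (4 / 5) - Real.log (1 / 4)) /
      (Real.log (17 / 20) - Real.log (1 / 4))) * b := by
  have hlu : Real.log (1 / 4) < Real.log (17 / 20) := Real.log_lt_log (by norm_num) (by norm_num)
  have hs0 : s ≠ 0 := by
    intro h; rw [h, norm_zero] at h1; norm_num at h1
  have hsp : 0 < ‖s‖ := norm_pos_iff.2 hs0
  have hin : ∀ ζ ∈ HadamardThreeLines.verticalClosedStrip (Real.log (1 / 4)) (Real.log (17 / 20)),
      ‖exp ζ‖ ≤ 17 / 20 := by
    intro ζ hζ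
    rw [norm_exp]
    calc Real.exp ζ.re ≤ Real.exp (Real.log (17 / 20)) := Real.exp_le_exp.2 hζ.2
      _ = 17 / 20 := Real.exp_log (by norm_num)
  have hdd : DifferentiableOn ℂ (fun ζ => g (exp ζ))
      (HadamardThreeLines.verticalClosedStrip (Real.log (1 / 4)) (Real.log (17 / 20))) := by
    intro ζ hζ
    have : exp ζ ∈ ball (0 : ℂ) (9 / 10) := by
      rw [mem_ball_zero_iff]; linarith [hin ζ hζ]
    exact ((hg.differentiableAt (isOpen_ball.mem_nhds this)).comp ζ
      differentiableAt_exp).differentiableWithinAt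
  have hl1 : Real.log (1 / 4) ≤ Real.log ‖s‖ := Real.log_le_log (by norm_num) h1
  have hl2 : Real.log ‖s‖ ≤ Real.log (4 / 5) := Real.log_le_log hsp h2
  have hl3 : Real.log (4 / 5) ≤ Real.log (17 / 20) := Real.log_le_log (by norm_num) (by norm_num)
  have key := HadamardThreeLines.norm_le_interp_of_mem_verticalClosedStrip'
    (f := fun ζ => g (exp ζ)) (z := log s) (a := a) (b := b) hlu
    (by
      show (log s).re ∈ Icc _ _
      rw [log_re]; exact ⟨hl1, hl2.trans hl3⟩)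
    (by
      apply DifferentiableOn.diffContOnCl
      rw [HadamardThreeLines.verticalStrip, closure_preimage_re, closure_Ioo hlu.ne]
      exact hdd)
    ⟨b, by rintro _ ⟨ζ, hζ, rfl⟩; exact hb _ (hin ζ hζ)⟩
    (by
      intro ζ hζ
      apply ha
      have : ζ.re = Real.log (1 / 4) := hζ
      rw [norm_exp, this, Real.exp_log (by norm_num)])
    (by
      intro ζ hζ
      apply hb
      have : ζ.re = Real.log (17 / 20) := hζ
      rw [norm_exp, this, Real.exp_log (by norm_num)])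
  rw [exp_log hs0, log_re] at key
  refine key.trans (mul_le_mul ?_ ?_ (by positivity) (by positivity))
  · apply Real.rpow_le_rpow_of_exponent_ge ha0 ha1
    have : (Real.log ‖s‖ - Real.log (1 / 4)) / (Real.log (17 / 20) - Real.log (1 / 4)) ≤
        (Real.log (4 / 5) - Real.log (1 / 4)) / (Real.log (17 / 20) - Real.log (1 / 4)) :=
      div_le_div_of_nonneg_right (by linarith) (by linarith)
    linarith
  · refine le_trans ?_ (Real.rpow_one b).le
    apply Real.rpow_le_rpow_of_exponent_le hb1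
    rw [div_le_one (by linarith)]; linarith

end TcX

/-- a harmonic minorant of `u` near a point of height 1 loses a definite amount -/
theorem three {u : ℂ → ℝ} {C : ℝ} (h : U0 u) (h' : U1 u C) : ∃ c₀ : ℝ, 0 < c₀ ∧
    ∀ (w : ℂ) (f : ℂ → ℂ), w.im = 1 → DifferentiableOn ℂ f (ball 0 (9 / 10)) →
      (∀ s ∈ ball (0 : ℂ) (9 / 10), (f s).re ≤ u (w + s)) → (f 0).re ≤ -c₀ := by
  obtain ⟨d, hd⟩ : ∃ d, d = -u (1 / 4 + I / 4) := ⟨_, rfl⟩
  have hd0 : 0 < d := by rw [hd]; linarith [h.neg]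
  obtain ⟨κ, hκ⟩ : ∃ κ, κ = 1 - (Real.log (4 / 5) - Real.log (1 / 4)) /
      (Real.log (17 / 20) - Real.log (1 / 4)) := ⟨_, rfl⟩
  have hκ0 : 0 < κ := by
    have h1 : Real.log (1 / 4) < Real.log (4 / 5) := Real.log_lt_log (by norm_num) (by norm_num)
    have h2 : Real.log (4 / 5) < Real.log (17 / 20) := Real.log_lt_log (by norm_num) (by norm_num)
    rw [hκ, sub_pos, div_lt_one (by linarith)]; linarith
  have hC := h'.one
  obtain ⟨b, hb⟩ : ∃ b, b = 34 * (C + 1) := ⟨_, rfl⟩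
  have hb1 : 1 ≤ b := by rw [hb]; linarith
  have hq : 0 < d / (4 * b) := by positivity
  obtain ⟨c, hc⟩ : ∃ c, c = min (min (d / 4) (1 / 2)) ((d / (4 * b)) ^ κ⁻¹ / 2) := ⟨_, rfl⟩
  have hc0 : 0 < c := by rw [hc]; positivity
  have hc1 : c ≤ d / 4 := by rw [hc]; exact (min_le_left _ _).trans (min_le_left _ _)
  have hc2 : c ≤ 1 / 2 := by rw [hc]; exact (min_le_left _ _).trans (min_le_right _ _)
  have hc3 : 2 * c ≤ (d / (4 * b)) ^ κ⁻¹ := by
    have : c ≤ (d / (4 * b)) ^ κ⁻¹ / 2 := by rw [hc]; exact min_le_right _ _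
    linarith
  have hc4 : (2 * c) ^ κ * b ≤ d / 4 := by
    have h1 : (2 * c) ^ κ ≤ ((d / (4 * b)) ^ κ⁻¹) ^ κ :=
      Real.rpow_le_rpow (by positivity) hc3 hκ0.le
    rw [Real.rpow_inv_rpow hq.le hκ0.ne'] at h1
    calc (2 * c) ^ κ * b ≤ d / (4 * b) * b := by gcongr
      _ = d / 4 := by field_simp
  refine ⟨c, hc0, fun w f hw hf hfu => ?_⟩
  by_contra hcon
  push Not at hcon
  have hg : DifferentiableOn ℂ (fun s => f s - f 0) (ball 0 (9 / 10)) := hf.sub_const _
  have him : ∀ s : ℂ, 1 - ‖s‖ ≤ (w + s).im := by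
    intro s
    have := abs_im_le_norm s
    rw [add_im, hw]; linarith [neg_abs_le s.im]
  have ha : ∀ z : ℂ, ‖z‖ = 1 / 4 → ‖f z - f 0‖ ≤ 2 * c := by
    intro z hz
    have := borelCaratheodory_zero (f := fun s => f s - f 0) (M := c) (R := 1 / 2) (z := z) hc0
      (hg.mono (ball_subset_ball (by norm_num))) (by
        intro x hx
        rw [mem_ball_zero_iff] at hx
        have h1 := hfu x (by rw [mem_ball_zero_iff]; linarith)
        rw [h.van _ (by linarith [him x])] at h1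
        show (f x - f 0).re ≤ c
        rw [sub_re]; linarith) (by norm_num) (by rw [mem_ball_zero_iff, hz]; norm_num) (by simp)
    rw [hz] at this
    refine this.trans (le_of_eq ?_)
    ring
  have hb' : ∀ z : ℂ, ‖z‖ ≤ 17 / 20 → ‖f z - f 0‖ ≤ b := by
    intro z hz
    have := borelCaratheodory_zero (f := fun s => f s - f 0) (M := C + 1) (R := 9 / 10) (z := z)
      (by linarith) hg (by
        intro x hx
        have h1 := hfu x hx
        rw [mem_ball_zero_iff] at hx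
        have h2 := (abs_le.1 (h'.b0 (w + x) (by linarith [him x]))).2
        show (f x - f 0).re ≤ C + 1
        rw [sub_re]; linarith) (by norm_num) (by rw [mem_ball_zero_iff]; linarith) (by simp)
    refine this.trans ?_
    rw [div_le_iff₀ (by linarith), hb]
    nlinarith [norm_nonneg z]
  obtain ⟨k, hk⟩ : ∃ k : ℤ, |2 * w.re - 1 / 2 - k| ≤ 1 / 2 := ⟨_, abs_sub_round _⟩
  obtain ⟨s, hs⟩ : ∃ s : ℂ, s = (1 / 4 + I / 4) + (k : ℂ) * (1 / 2) - w := ⟨_, rfl⟩
  have hsre : s.re = 1 / 4 + k / 2 - w.re := by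
    rw [hs]; simp; ring
  have hsim : s.im = -(3 / 4) := by
    rw [hs]; simp [hw]; norm_num
  have hn : ‖s‖ ^ 2 = s.re ^ 2 + s.im ^ 2 := by
    rw [Complex.sq_norm, normSq_apply]; ring
  have hk' := abs_le.1 hk
  have hs1 : 1 / 4 ≤ ‖s‖ := by
    have := abs_im_le_norm s
    rw [hsim, abs_neg, abs_of_pos (by norm_num)] at this
    linarith
  have hs2 : ‖s‖ ≤ 4 / 5 := by
    refine (abs_le_of_sq_le_sq' ?_ (by norm_num)).2
    rw [hn, hsim, hsre]; nlinarith
  have key := TcX.circ hg ha hb' (by positivity) (by linarith) hb1 hs1 hs2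
  rw [← hκ] at key
  have hper : Function.Periodic u (1 / 2) := h.per
  have h1 := hfu s (by rw [mem_ball_zero_iff]; linarith)
  have h2 : w + s = (1 / 4 + I / 4) + (k : ℂ) * (1 / 2) := by rw [hs]; ring
  rw [h2, hper.int_mul k] at h1
  have h3 := (abs_le.1 ((abs_re_le_norm (f s - f 0)).trans key)).1
  rw [sub_re] at h3
  linarith

end Vale.Agent.P250
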