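import Vale.Agent.P250.StB
import Vale.Agent.P250.Tc

open scoped ContDiff Topology ComplexConjugate
open Set Filter Complex Metric

noncomputable section

namespace Vale.Agent.P250

open Vale.Agent.P255

theorem step {u : ℂ → ℝ} {C : ℝ} (h : U0 u) (h' : U1 u C) : ∃ c₀ γ η : ℝ, 0 < c₀ ∧ 0 < γ ∧
    0 < η ∧ η ≤ 1 / 2 ∧ ∀ (l A M : ℝ) (n : ℕ) (J : B2 → ℂ), 0 < l → LH J → (∀ q ∈ SS, J q ≠ 0) →
      (∀ q, η ^ 2 ≤ rho q → ‖J q‖ ≤ M) → Lev (XX u η n) l J A c₀ η →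
      Lev (XX u η n) l J (A + γ) c₀ 1 := by
  obtain ⟨c₀, hc₀, H3⟩ := three h h'
  obtain ⟨c₁, C₃, η₀, hc₁, hη₀, hη₁, H2⟩ := stage2 h h'
  have hC := h'.one
  have hD : 0 < |C₃| + 2 * C := by positivity
  obtain ⟨η, h0, h1, h2⟩ : ∃ η : ℝ, 0 < η ∧ η ≤ η₀ ∧ (|C₃| + 2 * C) * η ≤ c₁ * c₀ / 2 := by
    refine ⟨min η₀ (c₁ * c₀ / 2 / (|C₃| + 2 * C)), by positivity, min_le_left _ _, ?_⟩
    rw [← le_div_iff₀' hD]
    exact min_le_right _ _
  have hη4 : η ≤ 1 / 4 := h1.trans hη₁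
  have e1 : η ^ 2 ≤ η := by nlinarith
  have e2 : η ^ 4 ≤ η := by
    have : η ^ 4 = η ^ 2 * η ^ 2 := by ring
    nlinarith [sq_nonneg η]
  have e3 : C₃ * η ^ 2 ≤ |C₃| * η :=
    (mul_le_mul_of_nonneg_right (le_abs_self _) (by positivity)).trans
      (mul_le_mul_of_nonneg_left e1 (abs_nonneg _))
  have e4 : 2 * C * η ^ 4 ≤ 2 * C * η := mul_le_mul_of_nonneg_left e2 (by positivity)
  have e5 : 0 ≤ 2 * C * η ^ 4 := by positivity
  refine ⟨c₀, c₁ * c₀ / 2, η, hc₀, by positivity, h0, by linarith, ?_⟩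
  intro l A M n J hl hJ hJ0 hM hL
  have H := H2 η l A c₀ M n J h0 h1 hl hc₀.le hJ hM hL
  constructor
  · intro q hq
    rw [one_pow] at hq
    refine (H q (by rw [hq]; norm_num) (by rw [hq]; norm_num)).trans
      (Real.exp_le_exp.2 (mul_le_mul_of_nonneg_left ?_ hl.le))
    linarith
  · rintro q hq ⟨j, hj⟩
    rw [one_pow] at hq
    rw [mul_one] at hj
    have hr : ∀ s : ℂ, rho (q + s • ((0 : ℂ), (1 : ℂ))) = 1 + s.im := by
      intro s; rw [← hq]; simp [rho]; ring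
    have hb : ∀ s ∈ ball (0 : ℂ) (9 / 10), 1 / 10 ≤ rho (q + s • ((0 : ℂ), (1 : ℂ))) ∧
        rho (q + s • ((0 : ℂ), (1 : ℂ))) ≤ 2 := by
      intro s hs
      rw [mem_ball_zero_iff] at hs
      have := abs_le.1 (abs_im_le_norm s)
      rw [hr]; constructor <;> linarith
    obtain ⟨f, hf, hfe⟩ := exists_log (g := fun s : ℂ => J (q + s • ((0 : ℂ), (1 : ℂ))))
      (R := 9 / 10)
      (fun s hs => (StBX.LH_at hJ q _ (by linarith [(hb s hs).1])).differentiableWithinAt)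
      (fun s hs => hJ0 _ (show 0 < rho _ by linarith [(hb s hs).1]))
    obtain ⟨γ, hγ⟩ := tay_vert h h' h0 (by linarith) n hq j hj
    have key := H3 (ell (8 * j) q) (fun s => f s / l - (γ * s + ((XX u η n q + 2 * C * η ^ 4 - A
        - c₁ * c₀ + C₃ * η ^ 2 : ℝ) : ℂ))) (by rw [im_ell, hq, hj]; ring)
      ((hf.div_const _).sub (by fun_prop)) (by
        intro s hs
        have a1 := H _ (hb s hs).1 (hb s hs).2
        have a2 := hfe s hs
        rw [a2, norm_exp, Real.exp_le_exp, ← div_le_iff₀' hl] at a1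
        have a3 := hγ s (by rw [mem_ball_zero_iff] at hs; linarith)
        rw [sub_re, add_re, div_ofReal_re, ofReal_re]
        linarith)
    have a2 := hfe 0 (mem_ball_self (by norm_num))
    simp only [zero_smul, add_zero] at a2
    rw [a2, norm_exp, Real.exp_le_exp, ← div_le_iff₀' hl]
    simp only [mul_zero, zero_add] at key
    rw [sub_re, div_ofReal_re, ofReal_re] at key
    linarith

end Vale.Agent.P250
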