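import Vale.Agent.P250.Wc

open scoped ContDiff Topology ComplexConjugate
open Set Filter Complex Metric

noncomputable section

namespace Vale.Agent.P250

open Vale.Agent.P255

namespace UaX
open Polynomial

theorem fd {p a b p' a' b' : ℝ → ℝ} (hp : ∀ x, HasDerivAt p (p' x) x)
    (ha : ∀ x, HasDerivAt a (a' x) x) (hb : ∀ x, HasDerivAt b (b' x) x) (w v : ℂ) :
    fderiv ℝ (fun w : ℂ => p w.re * a w.im - b w.im) w v =
      p' w.re * a w.im * v.re + (p w.re * a' w.im - b' w.im) * v.im := by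
  have h := (((hp w.re).comp_hasFDerivAt w reCLM.hasFDerivAt).mul
    ((ha w.im).comp_hasFDerivAt w imCLM.hasFDerivAt)).sub
    ((hb w.im).comp_hasFDerivAt w imCLM.hasFDerivAt)
  rw [show fderiv ℝ (fun w : ℂ => p w.re * a w.im - b w.im) w = _ from h.fderiv]
  simp
  ring

theorem fd2 {u : ℂ → ℝ} (hu : ContDiff ℝ ∞ u) (w v : ℂ) :
    fderiv ℝ (fderiv ℝ u) w v v = fderiv ℝ (fun x => fderiv ℝ u x v) w v := by
  rw [fderiv_clm_apply ((hu.fderiv_right (m := 1) (by norm_cast)).differentiable one_ne_zero w)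
    (differentiableAt_const _)]
  simp

def ff (P : ℝ[X]) (y : ℝ) : ℝ :=
  P.eval ((1 / 2 - y) / 16)⁻¹ * expNegInvGlue ((1 / 2 - y) / 16)

def dd (P : ℝ[X]) : ℝ[X] := C (-1 / 16) * (X ^ 2 * (P - derivative P))

theorem ff_d (P : ℝ[X]) (y : ℝ) : HasDerivAt (ff P) (ff (dd P) y) y := by
  have h := (expNegInvGlue.hasDerivAt_polynomial_eval_inv_mul P ((1 / 2 - y) / 16)).comp y
    (((hasDerivAt_id' y).const_sub (1 / 2)).div_const 16)
  refine HasDerivAt.congr_deriv h ?_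
  simp only [ff, dd, eval_mul, eval_C]
  ring

theorem ff_sm (P : ℝ[X]) : ContDiff ℝ ∞ (ff P) :=
  (expNegInvGlue.contDiff_polynomial_eval_inv_mul P).comp
    (by fun_prop : ContDiff ℝ ∞ fun y : ℝ => (1 / 2 - y) / 16)

theorem ff_zero (P : ℝ[X]) {y : ℝ} (h : 1 / 2 ≤ y) : ff P y = 0 := by
  rw [ff, expNegInvGlue.zero_of_nonpos (by linarith), mul_zero]

theorem num {σ k c : ℝ} (hσ : 32 ≤ σ) (k1 : 1 ≤ k) (k2 : k ≤ 256) (hc : -1 ≤ c) :
    0 ≤ -(k * c) * σ ^ 4 + ((1 + c) * ((σ ^ 8 - 10 * σ ^ 7 + 20 * σ ^ 6) / 256) -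
      (σ ^ 4 - 2 * σ ^ 3) / 256) := by
  have s0 : 0 ≤ σ := by linarith
  have h1 : 32 ^ 3 * 22 ≤ σ ^ 3 * (σ - 10) :=
    mul_le_mul (pow_le_pow_left₀ (by norm_num) hσ 3) (by linarith) (by norm_num) (by positivity)
  have h2 := mul_le_mul_of_nonneg_left h1 (pow_nonneg s0 4)
  have h3 := mul_le_mul_of_nonneg_right k2 (pow_nonneg s0 4)
  have h4 := mul_le_mul_of_nonneg_right k1 (pow_nonneg s0 4)
  have h5 : 0 ≤ (1 + c) * ((σ ^ 8 - 10 * σ ^ 7 + 20 * σ ^ 6) / 256 - k * σ ^ 4) :=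
    mul_nonneg (by linarith) (by linarith [pow_nonneg s0 4, pow_nonneg s0 6])
  linarith [pow_nonneg s0 4, pow_nonneg s0 3]

end UaX
open UaX Polynomial

theorem exists_U0 : ∃ u, U0 u := by
  have hu : ContDiff ℝ ∞ fun w : ℂ =>
      (1 + Real.cos (4 * Real.pi * w.re)) * ff (X ^ 4) w.im - ff 1 w.im :=
    ((contDiff_const.add (Real.contDiff_cos.comp (contDiff_const.mul reCLM.contDiff))).mul
      ((ff_sm _).comp imCLM.contDiff)).sub ((ff_sm _).comp imCLM.contDiff)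
  refine ⟨_, hu, fun w => ?_, fun w hw => by simp [ff_zero _ hw], fun w hw => ?_, ?_⟩
  · rw [show (w + 1 / 2).re = w.re + 1 / 2 by simp, show (w + 1 / 2).im = w.im by simp,
      show 4 * Real.pi * (w.re + 1 / 2) = 4 * Real.pi * w.re + 2 * Real.pi by ring,
      Real.cos_add_two_pi]
  · have h := j2_re isOpen_univ hu.contDiffOn (mem_univ w) 1 1
    have p1 : ∀ x : ℝ, HasDerivAt (fun x => 1 + Real.cos (4 * Real.pi * x))
        (-Real.sin (4 * Real.pi * x) * (4 * Real.pi)) x := fun x => by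
      simpa using ((hasDerivAt_id' x).const_mul (4 * Real.pi)).cos.const_add 1
    have p2 : ∀ x : ℝ, HasDerivAt (fun x => -Real.sin (4 * Real.pi * x) * (4 * Real.pi))
        (-((4 * Real.pi) ^ 2 * Real.cos (4 * Real.pi * x))) x := fun x =>
      (((hasDerivAt_id' x).const_mul (4 * Real.pi)).sin.neg.mul_const _).congr_deriv (by ring)
    rw [fd2 hu, fd2 hu, smul_eq_mul, mul_one] at h
    simp only [fd p1 (ff_d _) (ff_d _), one_re, one_im, I_re, I_im, mul_one, mul_zero, zero_add]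
      at h
    rw [show (fun x : ℂ => -Real.sin (4 * Real.pi * x.re) *
      (4 * Real.pi) * ff (X ^ 4) x.im + 0) = fun x : ℂ => -Real.sin (4 * Real.pi * x.re) *
      (4 * Real.pi) * ff (X ^ 4) x.im - (fun _ : ℝ => (0 : ℝ)) x.im by simp,
      fd p2 (ff_d _) (fun x => hasDerivAt_const x 0)] at h
    simp only [one_re, one_im, I_re, I_im, mul_one, mul_zero, zero_add, add_zero] at h
    refine nonneg_of_mul_nonneg_right (h ▸ ?_) four_pos
    rcases le_or_gt (1 / 2) w.im with h1 | h1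
    · simp [ff_zero _ h1]
    · have h2 : 32 ≤ ((1 / 2 - w.im) / 16)⁻¹ := by
        rw [le_inv_comm₀ (by norm_num) (by linarith)]; linarith
      have h3 := mul_nonneg (num h2 (k := (4 * Real.pi) ^ 2) (by nlinarith [Real.pi_gt_three])
        (by nlinarith [Real.pi_le_four, Real.pi_pos]) (Real.neg_one_le_cos (4 * Real.pi * w.re)))
        (expNegInvGlue.nonneg ((1 / 2 - w.im) / 16))
      refine h3.trans_eq ?_
      simp only [ff, dd]
      generalize ((1 / 2 - w.im) / 16)⁻¹ = σ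
      simp [derivative_pow]
      ring
  · rw [show (1 / 4 + I / 4 : ℂ).re = 1 / 4 by simp, show (1 / 4 + I / 4 : ℂ).im = 1 / 4 by simp,
      show 4 * Real.pi * (1 / 4) = Real.pi by ring, Real.cos_pi]
    simpa [ff] using expNegInvGlue.pos_of_pos (by norm_num)

end Vale.Agent.P250
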