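import Vale.Agent.P250.Wb

open scoped ContDiff Topology ComplexConjugate
open Set Filter Complex Metric

noncomputable section

namespace Vale.Agent.P250

open Vale.Agent.P255

namespace UbX

structure Nice {G : Type} [NormedAddCommGroup G] [NormedSpace ℝ G] (F : ℂ → G) : Prop where
  sm : ContDiff ℝ ∞ F
  per : ∀ w, F (w + 1 / 2) = F w
  van : ∀ w : ℂ, 1 / 2 < w.im → F w = 0

variable {G : Type} [NormedAddCommGroup G] [NormedSpace ℝ G] {F : ℂ → G}

theorem Nice.bd (h : Nice F) : ∃ C, ∀ w : ℂ, 0 ≤ w.im → ‖F w‖ ≤ C := by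
  obtain ⟨C, hC⟩ := ((isCompact_Icc (a := (0 : ℝ)) (b := 1 / 2)).reProdIm
    (isCompact_Icc (a := (0 : ℝ)) (b := 1 / 2))).exists_bound_of_continuousOn
    h.sm.continuous.continuousOn
  refine ⟨max C 0, fun w hw => ?_⟩
  rcases le_or_gt w.im (1 / 2) with h1 | h1
  · have hp : Function.Periodic F (1 / 2) := h.per
    rw [← hp.sub_int_mul_eq ⌊2 * w.re⌋]
    refine (hC _ ⟨?_, ?_⟩).trans (le_max_left _ _)
    · simp only [mem_preimage, sub_re, mul_re, intCast_re, intCast_im, zero_mul, sub_zero]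
      rw [show (1 / 2 : ℂ).re = 1 / 2 by simp]
      constructor <;> linarith [Int.floor_le (2 * w.re), Int.lt_floor_add_one (2 * w.re)]
    · simpa using ⟨hw, by simpa using h1⟩
  · rw [h.van w h1, norm_zero]
    exact le_max_right _ _

theorem Nice.fd (h : Nice F) : Nice (fderiv ℝ F) := by
  refine ⟨h.sm.fderiv_right (by norm_cast), fun w => ?_, fun w hw => ?_⟩
  · rw [← fderiv_comp_add_right, funext h.per]
  · rw [Filter.EventuallyEq.fderiv_eq (f := fun _ => 0), fderiv_fun_const, Pi.zero_apply]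
    exact mem_of_superset ((isOpen_lt continuous_const continuous_im).mem_nhds hw) h.van

theorem Nice.W {F : ℂ → ℂ} (h : Nice F) (ε u : ℂ) : Nice (W ε u F) :=
  ⟨contDiffOn_univ.1 (W_smooth isOpen_univ h.sm.contDiffOn ε u),
    fun w => by simp only [P250.W, h.fd.per], fun w hw => by simp [P250.W, h.fd.van w hw]⟩

end UbX
open UbX

theorem U0.exists_U1 {u : ℂ → ℝ} (h : U0 u) : ∃ C, U1 u C := by
  have n0 : Nice u := ⟨h.sm, h.per, fun w hw => h.van w hw.le⟩
  have n1 : Nice (cx u) := ⟨contDiffOn_univ.1 (cx_smooth h.sm.contDiffOn),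
    fun w => by simp only [cx, h.per], fun w hw => by simp [cx, h.van w hw.le]⟩
  obtain ⟨C0, h0⟩ := n0.bd
  obtain ⟨C1, h1⟩ := n0.fd.fd.bd
  obtain ⟨C2, h2⟩ := ((n1.W I 1).W (-I) 1).bd
  obtain ⟨C3, h3⟩ := (((n1.W I 1).W (-I) 1).W (-I) 1).bd
  obtain ⟨C4, h4⟩ := ((((n1.W I 1).W I 1).W (-I) 1).W (-I) 1).bd
  have p : ∀ {G : Type} [NormedAddCommGroup G] {F : ℂ → G} {C : ℝ},
      (∀ w : ℂ, 0 ≤ w.im → ‖F w‖ ≤ C) → 0 ≤ C := fun h => (norm_nonneg _).trans (h 0 le_rfl)
  have := p h0; have := p h1; have := p h2; have := p h3; have := p h4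
  refine ⟨1 + C0 + C1 + C2 + C3 + C4, by linarith, fun w hw => (h0 w hw).trans (by linarith),
    fun w hw => (h2 w hw).trans (by linarith), fun w hw => (h3 w hw).trans (by linarith),
    fun w hw => (h4 w hw).trans (by linarith), fun c hc => ⟨2 * dz 1 (cx u) c, fun s hs => ?_⟩⟩
  have hH : Convex ℝ {w : ℂ | 0 ≤ w.im} := convex_halfSpace_im_ge 0
  have k := ((hH.inter (convex_closedBall c ‖s‖)).norm_image_sub_le_of_norm_fderiv_le'
    (f := u) (φ := fderiv ℝ u c) (C := C1 * ‖s‖) (x := c) (y := c + s)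
    (fun x _ => h.sm.differentiable (by simp) x) (fun x hx =>
      (hH.norm_image_sub_le_of_norm_fderiv_le (fun x _ => n0.fd.sm.differentiable (by simp) x)
        h1 hc hx.1).trans (mul_le_mul_of_nonneg_left (mem_closedBall_iff_norm.1 hx.2) (p h1)))
    ⟨hc, mem_closedBall_self (norm_nonneg _)⟩ ⟨hs, by simp⟩)
  rw [add_sub_cancel_left, fderiv_real, show dz s (cx u) = dz (s • 1) (cx u) by simp,
    dz_smul] at k
  rw [show (2 * dz 1 (cx u) c * s).re = 2 * (s * dz 1 (cx u) c).re by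
    rw [mul_assoc, mul_comm s]; simp]
  have k2 := mul_le_mul_of_nonneg_right (show C1 ≤ 1 + C0 + C1 + C2 + C3 + C4 by linarith)
    (sq_nonneg ‖s‖)
  linarith [(abs_le.1 k).2]

end Vale.Agent.P250
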