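import Vale.Agent.P250.Base

open scoped ContDiff Topology ComplexConjugate
open Set Filter Complex Metric

noncomputable section

namespace Vale.Agent.P250

open Vale.Agent.P255

variable {E E' : Type} [NormedAddCommGroup E] [NormedSpace ℝ E] [NormedSpace ℂ E]
  [IsScalarTower ℝ ℂ E] [NormedAddCommGroup E'] [NormedSpace ℝ E'] [NormedSpace ℂ E']
  [IsScalarTower ℝ ℂ E'] {U : Set E} {f g : E → ℂ} {y : E}

set_option linter.unusedSectionVars false

theorem W_smooth (hU : IsOpen U) (hf : ContDiffOn ℝ ∞ f U) (ε : ℂ) (u : E) :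
    ContDiffOn ℝ ∞ (W ε u f) U := by
  have h1 : ∀ v : E, ContDiffOn ℝ ∞ (fun y => fderiv ℝ f y v) U := fun v =>
    (hf.fderiv_of_isOpen hU (m := ∞) (by simp)).clm_apply contDiffOn_const
  exact ((h1 u).add (contDiffOn_const.mul (h1 (I • u)))).div_const 2

theorem dAt (hU : IsOpen U) (hf : ContDiffOn ℝ ∞ f U) (hy : y ∈ U) :
    DifferentiableAt ℝ f y :=
  (hf.contDiffAt (hU.mem_nhds hy)).differentiableAt (by simp)

theorem cx_smooth {φ : E → ℝ} (hφ : ContDiffOn ℝ ∞ φ U) : ContDiffOn ℝ ∞ (cx φ) U :=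
  ofRealCLM.contDiff.comp_contDiffOn hφ

theorem W_congr (h : f =ᶠ[𝓝 y] g) (ε : ℂ) (u : E) : W ε u f y = W ε u g y := by
  unfold W; rw [h.fderiv_eq]

theorem W_congr_ev (h : f =ᶠ[𝓝 y] g) (ε : ℂ) (u : E) : W ε u f =ᶠ[𝓝 y] W ε u g := by
  filter_upwards [h.eventuallyEq_nhds] with x hx using W_congr hx ε u

theorem W_eqOn (hU : IsOpen U) (h : EqOn f g U) (ε : ℂ) (u : E) :
    EqOn (W ε u f) (W ε u g) U := fun _ hx =>
  W_congr (h.eventuallyEq_of_mem (hU.mem_nhds hx)) ε u

theorem W_const (ε c : ℂ) (u : E) : W ε u (fun _ => c) = fun _ => 0 := by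
  funext x; simp [W]

theorem W_add (hf : DifferentiableAt ℝ f y) (hg : DifferentiableAt ℝ g y) (ε : ℂ) (u : E) :
    W ε u (fun x => f x + g x) y = W ε u f y + W ε u g y := by
  unfold W
  rw [fderiv_fun_add hf hg]
  simp only [ContinuousLinearMap.add_apply]
  ring

theorem W_sub (hf : DifferentiableAt ℝ f y) (hg : DifferentiableAt ℝ g y) (ε : ℂ) (u : E) :
    W ε u (fun x => f x - g x) y = W ε u f y - W ε u g y := by
  unfold W
  rw [fderiv_fun_sub hf hg]
  simp only [ContinuousLinearMap.sub_apply]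
  ring

theorem W_cmul (c ε : ℂ) (u : E) (f : E → ℂ) :
    W ε u (fun x => c * f x) = fun x => c * W ε u f x := by
  funext x
  have : fderiv ℝ (fun x => c * f x) x = c • fderiv ℝ f x := by
    have := fderiv_const_smul_field (𝕜 := ℝ) (f := f) c
    exact congrFun this x
  unfold W
  rw [this]
  simp only [ContinuousLinearMap.smul_apply, smul_eq_mul]
  ring

theorem W_mul (hf : DifferentiableAt ℝ f y) (hg : DifferentiableAt ℝ g y) (ε : ℂ) (u : E) :
    W ε u (fun x => f x * g x) y = W ε u f y * g y + f y * W ε u g y := by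
  unfold W
  rw [fderiv_fun_mul hf hg]
  simp only [ContinuousLinearMap.add_apply, ContinuousLinearMap.smul_apply, smul_eq_mul]
  ring

theorem W_sum {ι : Type} (s : Finset ι) {h : ι → E → ℂ}
    (hd : ∀ i ∈ s, DifferentiableAt ℝ (h i) y) (ε : ℂ) (u : E) :
    W ε u (fun x => ∑ i ∈ s, h i x) y = ∑ i ∈ s, W ε u (h i) y := by
  unfold W
  rw [fderiv_fun_sum hd]
  simp only [ContinuousLinearMap.sum_apply]
  rw [Finset.mul_sum, ← Finset.sum_add_distrib, Finset.sum_div]

theorem W_comp {F : ℂ → ℂ} {F' : ℂ} (hF : HasDerivAt F F' (f y)) (hf : DifferentiableAt ℝ f y)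
    (ε : ℂ) (u : E) : W ε u (fun x => F (f x)) y = F' * W ε u f y := by
  have h1 := ((hF.hasFDerivAt.restrictScalars ℝ).comp y hf.hasFDerivAt).fderiv
  have h2 : ∀ v, fderiv ℝ (fun x => F (f x)) y v = F' * fderiv ℝ f y v := fun v => by
    have := congrArg (fun L : E →L[ℝ] ℂ => L v) h1
    simp only [ContinuousLinearMap.comp_apply] at this
    rw [show (fun x => F (f x)) = F ∘ f from rfl, this]
    simp [mul_comm]
  unfold W
  rw [h2, h2]
  ring

theorem diff_comp {F : ℂ → ℂ} {F' : ℂ} (hF : HasDerivAt F F' (f y))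
    (hf : DifferentiableAt ℝ f y) : DifferentiableAt ℝ (fun x => F (f x)) y :=
  ((hF.hasFDerivAt.restrictScalars ℝ).comp y hf.hasFDerivAt).differentiableAt

/-- composition with a complex affine map -/
theorem W_aff (L : E →L[ℂ] E') (c : E') {h : E' → ℂ} (hd : DifferentiableAt ℝ h (L y + c))
    (ε : ℂ) (u : E) : W ε u (fun x => h (L x + c)) y = W ε (L u) h (L y + c) := by
  have h0 : HasFDerivAt (fun x => L x + c) (L.restrictScalars ℝ) y :=
    (L.restrictScalars ℝ).hasFDerivAt.add_const c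
  have h1 := (HasFDerivAt.comp y (f := fun x => L x + c) hd.hasFDerivAt h0).fderiv
  have h2 : ∀ v, fderiv ℝ (fun x => h (L x + c)) y v = fderiv ℝ h (L y + c) (L v) := fun v => by
    have := congrArg (fun L : E →L[ℝ] ℂ => L v) h1
    exact this
  unfold W
  rw [h2, h2, map_smul]

theorem W_aff_eqOn (L : E →L[ℂ] E') (c : E') {h : E' → ℂ} {V : Set E'} (hV : IsOpen V)
    (hd : ContDiffOn ℝ ∞ h V) (ε : ℂ) (u : E) :
    EqOn (W ε u (fun x => h (L x + c))) (fun x => W ε (L u) h (L x + c)) {x | L x + c ∈ V} :=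
  fun _ hx => W_aff L c (dAt hV hd hx) ε u

theorem W_add_dir (ε : ℂ) (u v : E) (f : E → ℂ) :
    W ε (u + v) f = fun x => W ε u f x + W ε v f x := by
  funext x
  unfold W
  rw [smul_add, map_add, map_add]
  ring

namespace WaX

theorem dec (c : ℂ) (u : E) : c • u = c.re • u + c.im • (I • u) := by
  conv_lhs => rw [← re_add_im c]
  have h : ∀ (r : ℝ) (v : E), (r : ℂ) • v = r • v := fun r v => algebraMap_smul ℂ r v
  rw [add_smul, mul_smul, h, h]

theorem II (u : E) : I • I • u = -u := by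
  rw [smul_smul, I_mul_I, neg_smul, one_smul]

theorem lin1 (L : E →L[ℝ] ℂ) (c : ℂ) (u : E) : L (c • u) = c.re * L u + c.im * L (I • u) := by
  rw [dec, map_add, map_smul, map_smul]; simp

theorem lin2 (L : E →L[ℝ] ℂ) (c : ℂ) (u : E) :
    L (I • c • u) = c.re * L (I • u) - c.im * L u := by
  rw [smul_comm, lin1, II, map_neg]; ring

end WaX

open WaX

theorem dz_smul (c : ℂ) (u : E) (f : E → ℂ) : dz (c • u) f = fun x => c * dz u f x := by
  funext x
  unfold dz W
  rw [lin1, lin2]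
  conv_rhs => rw [← re_add_im c]
  linear_combination (c.im * fderiv ℝ f x (I • u) / 2) * I_mul_I

theorem db_smul (c : ℂ) (u : E) (f : E → ℂ) : db (c • u) f = fun x => conj c * db u f x := by
  funext x
  unfold db W
  rw [lin1, lin2]
  have : conj c = c.re - c.im * I := by
    apply Complex.ext <;> simp
  rw [this]
  linear_combination (c.im * fderiv ℝ f x (I • u) / 2) * I_mul_I

theorem WaX.fconj (f : E → ℂ) (x v : E) :
    fderiv ℝ (fun x => conj (f x)) x v = conj (fderiv ℝ f x v) := by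
  have := conjCLE.comp_fderiv (f := f) (x := x)
  have h2 := congrArg (fun L : E →L[ℝ] ℂ => L v) this
  exact h2

theorem dz_conj (u : E) (f : E → ℂ) :
    dz u (fun x => conj (f x)) = fun x => conj (db u f x) := by
  funext x
  unfold dz db W
  rw [fconj, fconj]
  simp [map_ofNat]

theorem db_conj (u : E) (f : E → ℂ) :
    db u (fun x => conj (f x)) = fun x => conj (dz u f x) := by
  funext x
  unfold dz db W
  rw [fconj, fconj]
  simp [map_ofNat]

theorem dz_hol {L : E →L[ℂ] ℂ} (h : HasFDerivAt f L y) (u : E) : dz u f y = L u := by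
  unfold dz W
  rw [(h.restrictScalars ℝ).fderiv]
  simp only [ContinuousLinearMap.coe_restrictScalars', map_smul, smul_eq_mul]
  linear_combination (-L u / 2) * I_mul_I

theorem db_hol {L : E →L[ℂ] ℂ} (h : HasFDerivAt f L y) (u : E) : db u f y = 0 := by
  unfold db W
  rw [(h.restrictScalars ℝ).fderiv]
  simp only [ContinuousLinearMap.coe_restrictScalars', map_smul, smul_eq_mul]
  linear_combination (L u / 2) * I_mul_I

theorem fderiv_eq_W (u : E) (f : E → ℂ) (y : E) : fderiv ℝ f y u = dz u f y + db u f y := by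
  unfold dz db W; ring

theorem fderiv_I_eq_W (u : E) (f : E → ℂ) (y : E) :
    fderiv ℝ f y (I • u) = I * (dz u f y - db u f y) := by
  unfold dz db W
  linear_combination (fderiv ℝ f y (I • u)) * I_mul_I

theorem fderiv_cx (φ : E → ℝ) (y u : E) :
    fderiv ℝ (cx φ) y u = ((fderiv ℝ φ y u : ℝ) : ℂ) := by
  by_cases h : DifferentiableAt ℝ φ y
  · have := (ofRealCLM.hasFDerivAt.comp y h.hasFDerivAt).fderiv
    exact congrArg (fun L : E →L[ℝ] ℂ => L u) this
  · have h' : ¬ DifferentiableAt ℝ (cx φ) y := fun h2 =>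
      h (reCLM.differentiableAt.comp y h2)
    rw [fderiv_zero_of_not_differentiableAt h, fderiv_zero_of_not_differentiableAt h']
    simp

theorem fderiv_real (φ : E → ℝ) (y u : E) : fderiv ℝ φ y u = 2 * (dz u (cx φ) y).re := by
  unfold dz W
  rw [fderiv_cx, fderiv_cx]
  simp
  ring

theorem WaX.fd_W (hU : IsOpen U) (hf : ContDiffOn ℝ ∞ f U) (hy : y ∈ U) (ε : ℂ) (v w : E) :
    fderiv ℝ (W ε v f) y w = (fderiv ℝ (fderiv ℝ f) y w v
      + ε * fderiv ℝ (fderiv ℝ f) y w (I • v)) / 2 := by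
  have hd : DifferentiableAt ℝ (fderiv ℝ f) y :=
    ((hf.fderiv_of_isOpen hU (m := ∞) (by simp)).contDiffAt (hU.mem_nhds hy)).differentiableAt
      (by simp)
  have h1 : ∀ v : E, HasFDerivAt (fun x => fderiv ℝ f x v)
      ((ContinuousLinearMap.apply ℝ ℂ v).comp (fderiv ℝ (fderiv ℝ f) y)) y := fun v =>
    (ContinuousLinearMap.apply ℝ ℂ v).hasFDerivAt.comp y hd.hasFDerivAt
  have h2 := (((h1 v).add ((h1 (I • v)).const_mul ε)).const_mul (1 / 2 : ℂ))
  have h3 : W ε v f = fun x => (1 / 2 : ℂ) * (fderiv ℝ f x v + ε * fderiv ℝ f x (I • v)) := by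
    funext x; unfold W; ring
  rw [h3]
  have h4 := congrArg (fun L : E →L[ℝ] ℂ => L w) h2.fderiv
  simp only [ContinuousLinearMap.smul_apply, ContinuousLinearMap.add_apply,
    ContinuousLinearMap.comp_apply, ContinuousLinearMap.apply_apply, smul_eq_mul] at h4
  refine Eq.trans h4 ?_
  ring

theorem W_comm (hU : IsOpen U) (hf : ContDiffOn ℝ ∞ f U) (ε ε' : ℂ) (u v : E) :
    EqOn (W ε u (W ε' v f)) (W ε' v (W ε u f)) U := by
  intro y hy
  have hs : IsSymmSndFDerivAt ℝ f y :=
    (hf.contDiffAt (hU.mem_nhds hy)).isSymmSndFDerivAt (by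
      rw [minSmoothness_of_isRCLikeNormedField]; exact WithTop.coe_le_coe.2 le_top)
  show (fderiv ℝ (W ε' v f) y u + ε * fderiv ℝ (W ε' v f) y (I • u)) / 2
    = (fderiv ℝ (W ε u f) y v + ε' * fderiv ℝ (W ε u f) y (I • v)) / 2
  rw [fd_W hU hf hy, fd_W hU hf hy, fd_W hU hf hy, fd_W hU hf hy, hs.eq u v, hs.eq u (I • v),
    hs.eq (I • u) v, hs.eq (I • u) (I • v)]
  ring

end Vale.Agent.P250
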